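import Vale.Agent.Lib.P012.Numbers

open Finset

namespace Vale.Agent.Lib.P012

lemma lin_le_two_pow : ∀ t, 20 ≤ t → 1000 * t + 1000 ≤ 2 ^ t := by
  intro t ht
  induction t, ht using Nat.le_induction with
  | base => norm_num
  | succ n hn ih =>
    rw [pow_succ]
    omega

/-- The logarithmic parameter. -/
def ell (y : ℕ) : ℕ := Nat.clog 2 (2 * y)

lemma le_two_pow_ell (y : ℕ) : 2 * y ≤ 2 ^ ell y :=
  Nat.le_pow_clog (by norm_num) _

lemma two_pow_ell_lt {y : ℕ} (hy : 1 ≤ y) : 2 ^ ell y < 4 * y := by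
  have h1 : 2 ^ (ell y).pred < 2 * y := Nat.pow_pred_clog_lt_self (by norm_num) (by omega)
  have h2 : 1 ≤ ell y := by
    have := le_two_pow_ell y
    by_contra h
    have h3 : ell y = 0 := by omega
    rw [h3] at this
    simp at this
    omega
  obtain ⟨l, hl⟩ : ∃ l, ell y = l + 1 := ⟨ell y - 1, by omega⟩
  rw [hl] at h1 ⊢
  simp only [Nat.pred_succ] at h1
  rw [pow_succ]
  omega

lemma ell_le {y : ℕ} (hy : 100 ≤ y) : ell y ≤ y / 4 := by
  apply Nat.clog_le_of_le_pow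
  have h1 := lin_le_two_pow (y / 4) (by omega)
  omega

lemma gens_card_ge {y : ℕ} (hy : 100 ≤ y) : 2 ^ (y - ell y) ≤ (gens y).card := by
  have h1 := pow_two_le_mul_primeCounting y (by omega)
  rw [← card_primesLE] at h1
  have h2 : (Nat.primesLE (2 ^ y)).card ≤ (gens y).card + 12 := by
    have h3 : Nat.primesLE (2 ^ y) ⊆ gens y ∪ Finset.range 12 := by
      intro p hp
      by_cases hp11 : 11 < p
      · exact Finset.mem_union_left _ (Finset.mem_filter.mpr ⟨hp, hp11⟩)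
      · exact Finset.mem_union_right _ (Finset.mem_range.mpr (by omega))
    calc _ ≤ (gens y ∪ Finset.range 12).card := Finset.card_le_card h3
      _ ≤ (gens y).card + (Finset.range 12).card := Finset.card_union_le _ _
      _ = _ := by simp
  have h4 := ell_le hy
  have h5 := le_two_pow_ell y
  set a := 2 ^ (y - ell y) with ha
  have h6 : a * 2 ^ ell y = 2 ^ y := by
    rw [ha, ← pow_add]
    congr 1
    omega
  have h7 : 14 ≤ a := by
    calc 14 ≤ 2 ^ 4 := by norm_num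
      _ ≤ a := Nat.pow_le_pow_right (by norm_num) (by omega)
  have h8 : a * (2 * y) ≤ y * ((gens y).card + 14) := by
    calc a * (2 * y) ≤ a * 2 ^ ell y := Nat.mul_le_mul_left _ h5
      _ = 2 ^ y := h6
      _ ≤ y * ((Nat.primesLE (2 ^ y)).card + 2) := h1
      _ ≤ y * ((gens y).card + 14) := Nat.mul_le_mul_left _ (by omega)
  have h9 : 2 * a ≤ (gens y).card + 14 := by
    have : y * (2 * a) ≤ y * ((gens y).card + 14) := by
      calc y * (2 * a) = a * (2 * y) := by ring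
        _ ≤ _ := h8
    exact Nat.le_of_mul_le_mul_left this (by omega)
  omega

lemma poolAll_card_ge {y : ℕ} (hy : 100 ≤ y) : 2 ^ (15 * y + 2) ≤ (poolAll y).card := by
  have h1 := pow_two_le_mul_primeCounting (16 * y) (by omega)
  rw [← card_primesLE] at h1
  have h2 : (Nat.primesLE (2 ^ (16 * y))).card ≤ (poolAll y).card + 2 ^ (8 * y) := by
    have h3 : Nat.primesLE (2 ^ (16 * y)) ⊆ poolAll y ∪ Finset.range (2 ^ (8 * y)) := by
      intro p hp
      by_cases hp11 : 2 ^ (8 * y) ≤ p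
      · exact Finset.mem_union_left _ (Finset.mem_filter.mpr ⟨hp, hp11⟩)
      · exact Finset.mem_union_right _ (Finset.mem_range.mpr (by omega))
    calc _ ≤ (poolAll y ∪ Finset.range (2 ^ (8 * y))).card := Finset.card_le_card h3
      _ ≤ (poolAll y).card + (Finset.range (2 ^ (8 * y))).card := Finset.card_union_le _ _
      _ = _ := by simp
  by_contra hlt
  have hlt' : (poolAll y).card < 2 ^ (15 * y + 2) := by omega
  have h4 : 2 ^ (8 * y) + 2 ≤ 2 ^ (15 * y + 2) := by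
    have h5 : 2 ^ (8 * y) ≤ 2 ^ (15 * y) := Nat.pow_le_pow_right (by norm_num) (by omega)
    have h6 : 1 ≤ 2 ^ (15 * y) := Nat.one_le_two_pow
    rw [pow_add]
    omega
  have h5 : (Nat.primesLE (2 ^ (16 * y))).card + 2 < 2 ^ (15 * y + 3) := by
    have : 2 ^ (15 * y + 3) = 2 * 2 ^ (15 * y + 2) := by
      rw [show 15 * y + 3 = 1 + (15 * y + 2) by ring, pow_add, pow_one]
    omega
  have h6 : 128 * y ≤ 2 ^ y := by
    have := lin_le_two_pow y (by omega)
    omega
  have h7 : 2 ^ (16 * y) = 2 ^ y * 2 ^ (15 * y) := by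
    rw [← pow_add]; congr 1; ring
  have h8 : 2 ^ (15 * y + 3) = 8 * 2 ^ (15 * y) := by
    rw [pow_add]; ring
  have h9 : 0 < 2 ^ (15 * y) := by positivity
  have h10 : 16 * y * ((Nat.primesLE (2 ^ (16 * y))).card + 2) < 16 * y * 2 ^ (15 * y + 3) :=
    Nat.mul_lt_mul_of_pos_left h5 (by omega)
  have h11 : 16 * y * 2 ^ (15 * y + 3) ≤ 2 ^ (16 * y) := by
    rw [h8, h7]
    calc 16 * y * (8 * 2 ^ (15 * y)) = (128 * y) * 2 ^ (15 * y) := by ring
      _ ≤ 2 ^ y * 2 ^ (15 * y) := Nat.mul_le_mul_right _ h6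
  omega

/-- The invariant of the construction: a set `used` of new primes, of product at least `2 ^ x`
up to the power of two, with the representation property. -/
def Inv (y e x k : ℕ) : Prop :=
  ∃ used ⊆ poolAll y, 4 * used.card ≤ k * 2 ^ y ∧ 2 ^ x ≤ 2 ^ e * ∏ q ∈ used, q ∧
    Rep (Zed y * (2 ^ e * ∏ q ∈ used, q)) (2 ^ e * ∏ q ∈ used, q) k

lemma Inv.mono_x {y e x x' k : ℕ} (h : Inv y e x k) (hx : x' ≤ x) : Inv y e x' k := by
  obtain ⟨used, h1, h2, h3, h4⟩ := h
  exact ⟨used, h1, h2, le_trans (Nat.pow_le_pow_right (by norm_num) hx) h3, h4⟩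

lemma Inv.base (y e : ℕ) : Inv y e e e := by
  refine ⟨∅, Finset.empty_subset _, by simp, by simp, ?_⟩
  intro m hm
  simp only [Finset.prod_empty, mul_one] at hm ⊢
  obtain ⟨S, hS, hc, hs⟩ := rep_two_pow e m hm
  exact ⟨S, fun d hd => (hS d hd).mul_left _, hc, hs⟩

lemma Inv.level {y e x k r M : ℕ} (hy : 100 ≤ y) (h : Inv y e x k) (hk : k ≤ 2 ^ (14 * y))
    (hx : 2 * y * r + 6 ≤ x) (hr : r ≤ 2 ^ y) (hM1 : 1 ≤ M) (hM : M ≤ 2 ^ y)
    (hcard : 2 ^ (32 * y * M) ≤ (setA y r).card) :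
    Inv y e (x + 8 * y * M) (k + 4) := by
  classical
  obtain ⟨used, hused, hc, hx', hrep⟩ := h
  set R := 2 ^ e * ∏ q ∈ used, q with hR
  have hpool : ∀ q ∈ poolAll y \ used, q.Prime ∧ 2 ^ (8 * y) ≤ q ∧ q ≤ 2 ^ (16 * y) := by
    intro q hq
    have := mem_poolAll.mp (Finset.mem_sdiff.mp hq).1
    exact ⟨this.2.1, this.2.2, this.1⟩
  have hpoolc : 2 ^ (15 * y + 1) ≤ (poolAll y \ used).card := by
    have h1 := poolAll_card_ge hy
    have h2 : (poolAll y \ used).card = (poolAll y).card - used.card :=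
      Finset.card_sdiff_of_subset hused
    have h3 : 4 * used.card ≤ 2 ^ (14 * y) * 2 ^ y := hc.trans (Nat.mul_le_mul_right _ hk)
    have h4 : 2 ^ (14 * y) * 2 ^ y = 2 ^ (15 * y) := by
      rw [← pow_add]; congr 1; ring
    have h5 : 2 ^ (15 * y + 1) = 2 * 2 ^ (15 * y) := by rw [pow_succ]; ring
    have h6 : 2 ^ (15 * y + 2) = 4 * 2 ^ (15 * y) := by rw [pow_add]; ring
    omega
  have hy5 : 5 ≤ y := by omega
  have hpow : 32 * y ≤ 32 * y * M := Nat.le_mul_of_pos_right _ hM1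
  have hA6 : 6 ≤ (setA y r).card := by
    refine le_trans ?_ hcard
    calc 6 ≤ 2 ^ 3 := by norm_num
      _ ≤ _ := Nat.pow_le_pow_right (by norm_num) (by nlinarith)
  have hcop : ∀ q ∈ poolAll y \ used, Nat.Coprime (Zed y * R) q := by
    intro q hq
    have hq1 := (Finset.mem_sdiff.mp hq).1
    have hq2 := (Finset.mem_sdiff.mp hq).2
    have hqp := (mem_poolAll.mp hq1).2.1
    apply Nat.Coprime.mul_left (coprime_Zed_pool (by omega) hq1)
    rw [hR]
    apply Nat.Coprime.mul_left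
    · apply Nat.Coprime.pow_left
      have h2 := big_of_pool (by omega) hq1
      exact (Nat.coprime_primes Nat.prime_two hqp).mpr (by omega)
    · apply Nat.Coprime.prod_left
      intro p hp
      have hpp := (mem_poolAll.mp (hused hp)).2.1
      refine (Nat.coprime_primes hpp hqp).mpr ?_
      rintro rfl
      exact hq2 hp
  obtain ⟨B, hB, hBc, hnew⟩ := level_step (N := Zed y * R) (R := R) (k := k) (y := y) (W := r) (M := M)
    (A := setA y r) (pool := poolAll y \ used) hrep hy5 hpool hpoolc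
    (by
      intro a ha
      have h1 := setA_le ha
      have h2 : y * r < 8 * y * (r + 1) := by nlinarith
      calc a ≤ 2 ^ (y * r) := h1
        _ < 2 ^ (8 * y * (r + 1)) := Nat.pow_lt_pow_right (by norm_num) h2
        _ = (2 ^ (8 * y)) ^ (r + 1) := by rw [← pow_mul])
    hr hM1 hM hcard hA6 marks marks_prime marks_inj
    (by
      intro i q hq hdvd
      have h1 := Nat.le_of_dvd (marks_prime i).pos hdvd
      have h2 := marks_le i
      have h3 := big_of_pool (by omega) (Finset.mem_sdiff.mp hq).1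
      omega)
    (fun a ha i => marks_not_dvd_setA ha i)
    (by
      intro a ha b hb i
      apply Dvd.dvd.mul_right
      rw [Zed, sq, mul_assoc]
      exact Nat.mul_dvd_mul (marks_dvd i) (Nat.mul_dvd_mul (setA_dvd ha) (setA_dvd hb)))
    (by
      intro a ha b hb i
      refine le_trans ?_ (le_trans (Nat.pow_le_pow_right (by norm_num) hx) hx')
      have h1 := setA_le ha
      have h2 := setA_le hb
      have h3 := marks_le i
      calc 4 * (marks i * a * b) ≤ 4 * (11 * 2 ^ (y * r) * 2 ^ (y * r)) := by gcongr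
        _ = 44 * 2 ^ (2 * y * r) := by
          rw [show 2 * y * r = y * r + y * r by ring, pow_add]; ring
        _ ≤ 2 ^ 6 * 2 ^ (2 * y * r) := Nat.mul_le_mul_right _ (by norm_num)
        _ = 2 ^ (2 * y * r + 6) := by rw [pow_add]; ring)
    hcop
  have hdisj : Disjoint used B := by
    rw [Finset.disjoint_left]
    intro q hq hq'
    exact (Finset.mem_sdiff.mp (hB hq')).2 hq
  refine ⟨used ∪ B, Finset.union_subset hused (hB.trans Finset.sdiff_subset), ?_, ?_, ?_⟩
  · rw [Finset.card_union_of_disjoint hdisj, hBc]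
    have : (k + 4) * 2 ^ y = k * 2 ^ y + 4 * 2 ^ y := by ring
    omega
  · rw [Finset.prod_union hdisj, pow_add]
    have h1 : (2 ^ (8 * y)) ^ M ≤ ∏ q ∈ B, q := by
      rw [← hBc, ← Finset.prod_const]
      exact Finset.prod_le_prod' fun q hq => (hpool q (hB hq)).2.1
    calc 2 ^ x * 2 ^ (8 * y * M) = 2 ^ x * (2 ^ (8 * y)) ^ M := by rw [pow_mul]
      _ ≤ R * ∏ q ∈ B, q := Nat.mul_le_mul hx' h1
      _ = _ := by rw [hR]; ring
  · rw [Finset.prod_union hdisj]
    have e1 : 2 ^ e * ((∏ q ∈ used, q) * ∏ q ∈ B, q) = R * ∏ q ∈ B, q := by rw [hR]; ring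
    have e2 : Zed y * (R * ∏ q ∈ B, q) = Zed y * R * ∏ q ∈ B, q := by ring
    rw [e1, e2]
    exact hnew

lemma Inv.iterate {y e x k r M : ℕ} (hy : 100 ≤ y) (h : Inv y e x k)
    (hx : 2 * y * r + 6 ≤ x) (hr : r ≤ 2 ^ y) (hM1 : 1 ≤ M) (hM : M ≤ 2 ^ y)
    (hcard : 2 ^ (32 * y * M) ≤ (setA y r).card) (L : ℕ) (hk : k + 4 * L ≤ 2 ^ (14 * y)) :
    Inv y e (x + L * (8 * y * M)) (k + 4 * L) := by
  induction L with
  | zero => simpa using h
  | succ L ih =>
    have h1 := ih (by omega)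
    have h2 := Inv.level hy h1 (by omega) (le_trans hx (Nat.le_add_right _ _)) hr hM1 hM hcard
    have e1 : x + L * (8 * y * M) + 8 * y * M = x + (L + 1) * (8 * y * M) := by ring
    have e2 : k + 4 * L + 4 = k + 4 * (L + 1) := by ring
    rw [e1, e2] at h2
    exact h2

lemma cond1 {y v : ℕ} (hy : 100 ≤ y) (hv : 7 ≤ v) (hv2 : v + ell y < y) :
    32 * y ≤ (y - ell y - v) * 2 ^ v := by
  have hl := ell_le hy
  set δ := y - ell y - v with hδ
  have hδ1 : 1 ≤ δ := by omega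
  by_cases h : 2 * v ≤ y
  · have h1 : y ≤ 4 * δ := by omega
    have h2 : 128 ≤ 2 ^ v := by
      calc 128 = 2 ^ 7 := by norm_num
        _ ≤ 2 ^ v := Nat.pow_le_pow_right (by norm_num) hv
    calc 32 * y ≤ 32 * (4 * δ) := by omega
      _ = δ * 128 := by ring
      _ ≤ δ * 2 ^ v := Nat.mul_le_mul_left _ h2
  · have h1 := lin_le_two_pow (y / 2) (by omega)
    have h2 : 2 ^ (y / 2) ≤ 2 ^ v := Nat.pow_le_pow_right (by norm_num) (by omega)
    have h3 : 32 * y ≤ 2 ^ v := by omega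
    calc 32 * y ≤ 2 ^ v := h3
      _ = 1 * 2 ^ v := by ring
      _ ≤ δ * 2 ^ v := Nat.mul_le_mul_right _ hδ1

/-- The size of the batch and its basic properties. -/
lemma batch_props {y v δ : ℕ} (hy : 100 ≤ y) (hv : 7 ≤ v) (hv2 : v + ell y < y)
    (hδ : δ = y - ell y - v) :
    1 ≤ δ * 2 ^ v / (32 * y) ∧ δ * 2 ^ v / (32 * y) ≤ 2 ^ y ∧
      2 ^ (32 * y * (δ * 2 ^ v / (32 * y))) ≤ (setA y (2 ^ v)).card ∧
      2 ^ v ≤ 2 * (δ * 2 ^ v / (32 * y)) * (32 * y) := by
  have hc := cond1 hy hv hv2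
  rw [← hδ] at hc
  have hypos : 0 < 32 * y := by omega
  set M := δ * 2 ^ v / (32 * y) with hM
  have hM1 : 1 ≤ M := Nat.div_pos hc hypos
  have hvy : v ≤ y := by omega
  have h2v : 2 ^ v ≤ 2 ^ y := Nat.pow_le_pow_right (by norm_num) hvy
  refine ⟨hM1, ?_, ?_, ?_⟩
  · apply Nat.div_le_of_le_mul
    have hδy : δ ≤ 32 * y := by omega
    exact Nat.mul_le_mul hδy h2v
  · have h1 : 32 * y * M ≤ δ * 2 ^ v := Nat.mul_div_le _ _
    have h2 : 2 ^ δ * 2 ^ v ≤ (gens y).card := by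
      rw [← pow_add]
      have : δ + v = y - ell y := by omega
      rw [this]
      exact gens_card_ge hy
    rw [setA_card]
    exact (Nat.pow_le_pow_right (by norm_num) h1).trans (two_pow_le_choose δ (2 ^ v) _ h2)
  · have h1 : δ * 2 ^ v < (32 * y) * (M + 1) := Nat.lt_mul_div_succ _ hypos
    have h2 : 1 ≤ δ := by omega
    have h3 : 2 ^ v ≤ δ * 2 ^ v := Nat.le_mul_of_pos_left _ h2
    nlinarith

lemma stage {y e k v δ : ℕ} (hy : 100 ≤ y) (hv : 7 ≤ v) (hv2 : v + ell y < y)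
    (hδ : δ = y - ell y - v) (h : Inv y e (y * 2 ^ (v + 1) + 6) k)
    (hk : k + 4 * (16 * y / δ + 1) ≤ 2 ^ (14 * y)) :
    Inv y e (y * 2 ^ (v + 2) + 6) (k + 4 * (16 * y / δ + 1)) := by
  obtain ⟨hM1, hM, hcard, hgain⟩ := batch_props hy hv hv2 hδ
  set M := δ * 2 ^ v / (32 * y) with hMdef
  have hδpos : 0 < δ := by omega
  have hvy : v ≤ y := by omega
  have h2v : 2 ^ v ≤ 2 ^ y := Nat.pow_le_pow_right (by norm_num) hvy
  have hx : 2 * y * 2 ^ v + 6 ≤ y * 2 ^ (v + 1) + 6 := by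
    rw [pow_succ]; nlinarith
  have h1 := Inv.iterate hy h hx h2v hM1 hM hcard (16 * y / δ + 1) hk
  refine h1.mono_x ?_
  set L := 16 * y / δ + 1 with hL
  have h2 : 16 * y < δ * L := Nat.lt_mul_div_succ _ hδpos
  -- the gain
  have h3 : 2 ^ v ≤ 4 * (L * M) := by
    have h4 : 16 * y * 2 ^ v ≤ 16 * y * (4 * (L * M)) := by
      calc 16 * y * 2 ^ v ≤ (δ * L) * 2 ^ v := Nat.mul_le_mul_right _ h2.le
        _ = L * (δ * 2 ^ v) := by ring
        _ ≤ L * ((32 * y) * (M + 1)) :=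
            Nat.mul_le_mul_left _ (Nat.lt_mul_div_succ _ (by omega : 0 < 32 * y)).le
        _ ≤ L * ((32 * y) * (2 * M)) := by gcongr; omega
        _ = 16 * y * (4 * (L * M)) := by ring
    exact Nat.le_of_mul_le_mul_left h4 (by omega)
  have e1 : y * 2 ^ (v + 2) = y * 2 ^ (v + 1) + 2 * y * 2 ^ v := by
    rw [pow_succ, pow_succ]; ring
  have e2 : L * (8 * y * M) = 2 * y * (4 * (L * M)) := by ring
  have h5 : 2 * y * 2 ^ v ≤ 2 * y * (4 * (L * M)) := Nat.mul_le_mul_left _ h3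
  omega

/-- The total cost. -/
def Ktot (y : ℕ) : ℕ :=
  (y * 2 ^ 8 + 6) + ∑ i ∈ Finset.range (y - ell y - 7), 4 * (16 * y / (i + 1) + 1) + 4 * (640 * y)

lemma Ktot_le {y : ℕ} (hy : 100 ≤ y) : Ktot y ≤ 2 ^ (14 * y) := by
  have h1 : ∑ i ∈ Finset.range (y - ell y - 7), 4 * (16 * y / (i + 1) + 1) ≤ 68 * y * y := by
    calc ∑ i ∈ Finset.range (y - ell y - 7), 4 * (16 * y / (i + 1) + 1)
        ≤ ∑ _i ∈ Finset.range (y - ell y - 7), 4 * (16 * y + 1) := by
          refine Finset.sum_le_sum fun i _ => ?_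
          have := Nat.div_le_self (16 * y) (i + 1)
          omega
      _ = (y - ell y - 7) * (4 * (16 * y + 1)) := by simp
      _ ≤ y * (4 * (17 * y)) := by
          apply Nat.mul_le_mul (by omega)
          omega
      _ = 68 * y * y := by ring
  have h2 : Ktot y ≤ 3000 * (y * y) := by
    unfold Ktot
    nlinarith
  have h3 : y ≤ 2 ^ y := Nat.lt_two_pow_self.le
  have h4 : (3000 : ℕ) ≤ 2 ^ (12 * y) := by
    calc (3000 : ℕ) ≤ 2 ^ 12 := by norm_num
      _ ≤ _ := Nat.pow_le_pow_right (by norm_num) (by omega)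
  calc Ktot y ≤ 3000 * (y * y) := h2
    _ ≤ 2 ^ (12 * y) * (2 ^ y * 2 ^ y) := Nat.mul_le_mul h4 (Nat.mul_le_mul h3 h3)
    _ = 2 ^ (14 * y) := by
      rw [← pow_add, ← pow_add]; congr 1; ring

lemma chain {y : ℕ} (hy : 100 ≤ y) (t d : ℕ) (hd : d + t = y - ell y - 7) :
    Inv y (y * 2 ^ 8 + 6) (y * 2 ^ (y - ell y - d + 1) + 6)
      ((y * 2 ^ 8 + 6) + ∑ i ∈ Finset.Ico d (y - ell y - 7), 4 * (16 * y / (i + 1) + 1)) := by
  have hl := ell_le hy
  induction t generalizing d with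
  | zero =>
    have hd' : d = y - ell y - 7 := by omega
    subst hd'
    have h1 : y - ell y - (y - ell y - 7) + 1 = 8 := by omega
    rw [h1, Finset.Ico_self, Finset.sum_empty, add_zero]
    exact Inv.base _ _
  | succ t ih =>
    have h1 := ih (d + 1) (by omega)
    have hlt : d < y - ell y - 7 := by omega
    rw [Finset.sum_eq_sum_Ico_succ_bot hlt]
    set v := y - ell y - (d + 1) with hv
    have hv7 : 7 ≤ v := by omega
    have hv2 : v + ell y < y := by omega
    have hδ : d + 1 = y - ell y - v := by omega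
    have e1 : y - ell y - (d + 1) + 1 = v + 1 := by omega
    have e2 : y - ell y - d + 1 = v + 2 := by omega
    rw [e1] at h1
    rw [e2]
    have hsub : (y * 2 ^ 8 + 6) + ∑ i ∈ Finset.Ico (d + 1) (y - ell y - 7), 4 * (16 * y / (i + 1) + 1)
        + 4 * (16 * y / (d + 1) + 1) ≤ 2 ^ (14 * y) := by
      refine le_trans ?_ (Ktot_le hy)
      unfold Ktot
      have h3 : 4 * (16 * y / (d + 1) + 1)
          + ∑ i ∈ Finset.Ico (d + 1) (y - ell y - 7), 4 * (16 * y / (i + 1) + 1)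
          = ∑ i ∈ Finset.Ico d (y - ell y - 7), 4 * (16 * y / (i + 1) + 1) :=
        (Finset.sum_eq_sum_Ico_succ_bot hlt (fun i => 4 * (16 * y / (i + 1) + 1))).symm
      have h4 : ∑ i ∈ Finset.Ico d (y - ell y - 7), 4 * (16 * y / (i + 1) + 1)
          ≤ ∑ i ∈ Finset.range (y - ell y - 7), 4 * (16 * y / (i + 1) + 1) := by
        apply Finset.sum_le_sum_of_subset
        intro i hi
        exact Finset.mem_range.mpr (Finset.mem_Ico.mp hi).2
      omega
    have h2 := stage hy hv7 hv2 hδ h1 hsub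
    convert h2 using 1
    ring

/-- The representation property for the final number. -/
theorem main_rep {y : ℕ} (hy : 100 ≤ y) :
    ∃ R, 2 ^ (10 * 2 ^ y) ≤ R ∧ Rep (Zed y * R) R (Ktot y) := by
  have hl := ell_le hy
  have h0 := chain hy (y - ell y - 7) 0 (by omega)
  rw [← Finset.range_eq_Ico] at h0
  simp only [Nat.sub_zero] at h0
  set K0 := (y * 2 ^ 8 + 6) + ∑ i ∈ Finset.range (y - ell y - 7), 4 * (16 * y / (i + 1) + 1) with hK0
  set v := y - ell y - 1 with hv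
  have hv7 : 7 ≤ v := by omega
  have hv2 : v + ell y < y := by omega
  obtain ⟨hM1, hM, hcard, hgain⟩ := batch_props (δ := 1) hy hv7 hv2 (by omega)
  simp only [one_mul] at hM1 hM hcard hgain
  set M := 2 ^ v / (32 * y) with hMdef
  have h2v : 2 ^ v ≤ 2 ^ y := Nat.pow_le_pow_right (by norm_num) (by omega)
  have hx : 2 * y * 2 ^ v + 6 ≤ y * 2 ^ (y - ell y + 1) + 6 := by
    have e1 : y - ell y + 1 = v + 2 := by omega
    rw [e1, pow_succ, pow_succ]
    have e3 : y * (2 ^ v * 2 * 2) = 4 * (y * 2 ^ v) := by ring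
    have e4 : 2 * y * 2 ^ v = 2 * (y * 2 ^ v) := by ring
    omega
  have h1 := Inv.iterate hy h0 hx h2v hM1 hM hcard (640 * y) (by
    have := Ktot_le hy
    unfold Ktot at this
    omega)
  have h2 : 10 * 2 ^ y ≤ y * 2 ^ (y - ell y + 1) + 6 + 640 * y * (8 * y * M) := by
    have h3 := two_pow_ell_lt (y := y) (by omega)
    have e1 : 2 ^ y = 2 ^ v * (2 * 2 ^ ell y) := by
      have : y = v + (1 + ell y) := by omega
      conv_lhs => rw [this]
      rw [pow_add, pow_add, pow_one]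
    have h4 : 2 ^ y ≤ 2 ^ v * (8 * y) := by
      rw [e1]
      exact Nat.mul_le_mul_left _ (by omega)
    have e2 : 640 * y * (8 * y * M) = 80 * y * (2 * M * (32 * y)) := by ring
    have h5 : 80 * y * 2 ^ v ≤ 640 * y * (8 * y * M) := by
      rw [e2]
      exact Nat.mul_le_mul_left _ hgain
    nlinarith
  obtain ⟨used, _, _, hR, hrep⟩ := h1.mono_x h2
  refine ⟨2 ^ (y * 2 ^ 8 + 6) * ∏ q ∈ used, q, hR, ?_⟩
  have : K0 + 4 * (640 * y) = Ktot y := rfl
  rw [← this]
  exact hrep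

end Vale.Agent.Lib.P012
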