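import Vale.Agent.Lib.P012.Greedy

open Finset

namespace Vale.Agent.Lib.P012

theorem egyptian_y {y a b : ℕ} (hy : 100 ≤ y) (ha1 : 1 ≤ a) (hab : a < b) (hb : b ≤ 2 ^ 2 ^ y) :
    ∃ T : Finset ℕ, (∀ t ∈ T, 2 ≤ t) ∧ T.card ≤ (y + 4) + 2 * Ktot y ∧
      ∑ t ∈ T, (1 : ℚ) / t = (a : ℚ) / b := by
  obtain ⟨R, hR, hrep⟩ := main_rep hy
  have hZ1 : 1 ≤ Zed y := le_trans (by norm_num) (Zed_ge y)
  have h2y : 22 ≤ 2 ^ y := by
    calc 22 ≤ 2 ^ 5 := by norm_num
      _ ≤ 2 ^ y := Nat.pow_le_pow_right (by norm_num) (by omega)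
  have hZle := Zed_le y
  have hbR : b * (Zed y * Zed y) ≤ R := by
    refine le_trans ?_ hR
    calc b * (Zed y * Zed y) ≤ 2 ^ 2 ^ y * (2 ^ (11 + 4 * 2 ^ y) * 2 ^ (11 + 4 * 2 ^ y)) :=
          Nat.mul_le_mul hb (Nat.mul_le_mul hZle hZle)
      _ = 2 ^ (2 ^ y + (11 + 4 * 2 ^ y + (11 + 4 * 2 ^ y))) := by
          rw [pow_add 2 (2 ^ y), pow_add 2 (11 + 4 * 2 ^ y)]
      _ ≤ 2 ^ (10 * 2 ^ y) := Nat.pow_le_pow_right (by norm_num) (by omega)
  have hn : Zed y ≤ sylv (y + 4) := by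
    refine le_trans hZle (le_trans ?_ (sylv_ge (y + 3)))
    apply Nat.pow_le_pow_right (by norm_num)
    have : 2 ^ (y + 3) = 8 * 2 ^ y := by rw [pow_add]; ring
    omega
  exact egyptian_of_rep hZ1 hrep hbR ha1 hab hn

lemma Ktot_le_real {y : ℕ} (hy : 100 ≤ y) :
    (Ktot y : ℝ) ≤ 2890 * y * (1 + Real.log y) := by
  have hy' : (100 : ℝ) ≤ y := by exact_mod_cast hy
  have hl := ell_le hy
  set D := y - ell y - 7 with hD
  have hD1 : 1 ≤ D := by omega
  have hDy : (D : ℝ) ≤ y := by exact_mod_cast (by omega : D ≤ y)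
  have hD0 : (0 : ℝ) < D := by exact_mod_cast hD1
  have hlog : Real.log D ≤ Real.log y := Real.log_le_log hD0 hDy
  have hlogy : 0 ≤ Real.log y := Real.log_nonneg (by linarith)
  have hharm : ((harmonic D : ℚ) : ℝ) ≤ 1 + Real.log y :=
    (harmonic_le_one_add_log D).trans (by linarith)
  have hsum : ((∑ i ∈ Finset.range D, 4 * (16 * y / (i + 1) + 1) : ℕ) : ℝ)
      ≤ 64 * y * (1 + Real.log y) + 4 * y := by
    have h1 : ((∑ i ∈ Finset.range D, 4 * (16 * y / (i + 1) + 1) : ℕ) : ℝ)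
        ≤ ∑ i ∈ Finset.range D, (64 * (y : ℝ) * ((i + 1 : ℕ) : ℝ)⁻¹ + 4) := by
      push_cast
      refine Finset.sum_le_sum fun i _ => ?_
      have h2 : ((16 * y / (i + 1) : ℕ) : ℝ) ≤ (16 * y : ℕ) / ((i + 1 : ℕ) : ℝ) := Nat.cast_div_le
      push_cast at h2
      have h3 : (16 * (y : ℝ)) / ((i : ℝ) + 1) = 16 * y * ((i : ℝ) + 1)⁻¹ := by rw [div_eq_mul_inv]
      rw [h3] at h2
      nlinarith
    refine h1.trans ?_
    rw [Finset.sum_add_distrib, ← Finset.mul_sum, Finset.sum_const, Finset.card_range, nsmul_eq_mul]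
    have h4 : ∑ i ∈ Finset.range D, (((i + 1 : ℕ) : ℝ))⁻¹ = ((harmonic D : ℚ) : ℝ) := by
      rw [harmonic]
      push_cast
      rfl
    rw [h4]
    have hy0 : (0 : ℝ) ≤ 64 * y := by positivity
    have := mul_le_mul_of_nonneg_left hharm hy0
    nlinarith
  have hK : (Ktot y : ℝ) = ((y * 2 ^ 8 + 6 : ℕ) : ℝ)
      + ((∑ i ∈ Finset.range D, 4 * (16 * y / (i + 1) + 1) : ℕ) : ℝ) + ((4 * (640 * y) : ℕ) : ℝ) := by
    unfold Ktot
    push_cast
    rfl
  rw [hK]
  have h5 : 0 ≤ (y : ℝ) * Real.log y := by positivity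
  push_cast at hsum ⊢
  nlinarith

/-- The main theorem: a bound of order `log log b * log log log b`. -/
theorem main_bound {a b : ℕ} (hb : 100 ≤ Real.log (Real.log b)) (ha1 : 1 ≤ a) (hab : a < b) :
    ∃ S : Finset ℕ, (∀ n ∈ S, 2 ≤ n) ∧
      (S.card : ℝ) ≤ 24000 * Real.log (Real.log b) * Real.log (Real.log (Real.log b)) ∧
      ∑ n ∈ S, (1 : ℚ) / n = (a : ℚ) / b := by
  have hb1 : 1 < b := by omega
  set c := Nat.clog 2 b with hc
  set y := Nat.clog 2 c with hy
  -- real estimates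
  have hl2a : (0.6931 : ℝ) < Real.log 2 := by
    have := Real.log_two_gt_d9
    norm_num at this ⊢
    linarith
  have hl2b : Real.log 2 < 0.6932 := by
    have := Real.log_two_lt_d9
    norm_num at this ⊢
    linarith
  set X := Real.log (b : ℝ) with hX
  set W := Real.log X with hW
  have hbR : (1 : ℝ) < b := by exact_mod_cast hb1
  have hX0 : 0 < X := Real.log_pos hbR
  have hWlow : 100 ≤ W := hb
  have hXlow : (2 : ℝ) ^ 100 ≤ X := by
    have h1 : Real.exp 100 ≤ X := (Real.le_log_iff_exp_le hX0).mp hWlow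
    have h2 : (2 : ℝ) ≤ Real.exp 1 := by
      have := Real.add_one_le_exp (1 : ℝ)
      linarith
    have h3 : Real.exp 100 = Real.exp 1 ^ 100 := by
      rw [← Real.exp_nat_mul]
      norm_num
    rw [h3] at h1
    calc (2 : ℝ) ^ 100 ≤ Real.exp 1 ^ 100 := by gcongr
      _ ≤ X := h1
  have hbc : b ≤ 2 ^ c := Nat.le_pow_clog (by norm_num) b
  have hc100 : 2 ^ 100 ≤ c := by
    have h1 : X ≤ Real.log ((2 ^ c : ℕ) : ℝ) := by
      apply Real.log_le_log (by positivity)
      exact_mod_cast hbc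
    have h2 : Real.log ((2 ^ c : ℕ) : ℝ) = (c : ℝ) * Real.log 2 := by
      push_cast
      rw [Real.log_pow]
    rw [h2] at h1
    have h3 : (c : ℝ) * Real.log 2 ≤ c := by
      have h4 : (0 : ℝ) ≤ c := by positivity
      nlinarith
    have h5 : ((2 ^ 100 : ℕ) : ℝ) ≤ c := by
      push_cast
      linarith
    exact_mod_cast h5
  have hy100 : 100 ≤ y := by
    have h1 := Nat.clog_mono_right 2 hc100
    rwa [Nat.clog_pow 2 _ (by norm_num)] at h1
  have hcy : c ≤ 2 ^ y := Nat.le_pow_clog (by norm_num) c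
  have hb2y : b ≤ 2 ^ 2 ^ y := hbc.trans (Nat.pow_le_pow_right (by norm_num) hcy)
  obtain ⟨T, hT1, hT2, hT3⟩ := egyptian_y hy100 ha1 hab hb2y
  refine ⟨T, hT1, ?_, hT3⟩
  have hlogW : 2 ≤ Real.log W := by
    have h1 : Real.log 8 ≤ Real.log W := Real.log_le_log (by norm_num) (by linarith)
    have h2 : Real.log 8 = 3 * Real.log 2 := by
      rw [show (8 : ℝ) = 2 ^ 3 by norm_num, Real.log_pow]
      push_cast
      ring
    nlinarith
  -- upper bound for `c`
  have hc1 : (c : ℝ) ≤ 2 * X := by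
    have h1 : 2 ^ c.pred < b := Nat.pow_pred_clog_lt_self (by norm_num) hb1
    have h2 : Real.log ((2 ^ c.pred : ℕ) : ℝ) ≤ X := by
      apply Real.log_le_log (by positivity)
      exact_mod_cast h1.le
    have h3 : Real.log ((2 ^ c.pred : ℕ) : ℝ) = (c.pred : ℝ) * Real.log 2 := by
      push_cast
      rw [Real.log_pow]
    rw [h3] at h2
    have hcpos : 1 ≤ c := le_trans Nat.one_le_two_pow hc100
    have h4 : (c : ℝ) = (c.pred : ℝ) + 1 := by
      have : c = c.pred + 1 := (Nat.succ_pred_eq_of_pos hcpos).symm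
      exact_mod_cast this
    have h5 : (c.pred : ℝ) ≤ 1.5 * X := by
      have hnn : (0 : ℝ) ≤ c.pred := by positivity
      nlinarith
    have h6 : (2 : ℝ) ≤ X := by
      have : (2 : ℝ) ≤ 2 ^ 100 := by norm_num
      linarith
    linarith
  -- upper bound for `y`
  have hy1 : (y : ℝ) ≤ 2 * W := by
    have hc1' : 1 < c := lt_of_lt_of_le (by norm_num) hc100
    have h1 : 2 ^ y.pred < c := Nat.pow_pred_clog_lt_self (by norm_num) hc1'
    have h2 : Real.log ((2 ^ y.pred : ℕ) : ℝ) ≤ Real.log (c : ℝ) := by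
      apply Real.log_le_log (by positivity)
      exact_mod_cast h1.le
    have h3 : Real.log ((2 ^ y.pred : ℕ) : ℝ) = (y.pred : ℝ) * Real.log 2 := by
      push_cast
      rw [Real.log_pow]
    rw [h3] at h2
    have hcpos : (0 : ℝ) < c := by
      have : 0 < c := by omega
      exact_mod_cast this
    have h4 : Real.log (c : ℝ) ≤ Real.log 2 + W := by
      have h5 : Real.log (c : ℝ) ≤ Real.log (2 * X) := Real.log_le_log hcpos hc1
      rw [Real.log_mul (by norm_num) hX0.ne'] at h5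
      exact h5
    have hypos : 1 ≤ y := by omega
    have h6 : (y : ℝ) = (y.pred : ℝ) + 1 := by
      have : y = y.pred + 1 := (Nat.succ_pred_eq_of_pos hypos).symm
      exact_mod_cast this
    have h7 : (y.pred : ℝ) ≤ 1 + 1.5 * W := by
      have hnn : (0 : ℝ) ≤ y.pred := by positivity
      nlinarith
    linarith
  have hyR : (100 : ℝ) ≤ y := by exact_mod_cast hy100
  have hlogy : 1 + Real.log y ≤ 2 * Real.log W := by
    have h1 : Real.log y ≤ Real.log (2 * W) := Real.log_le_log (by linarith) hy1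
    rw [Real.log_mul (by norm_num) (by linarith)] at h1
    linarith
  have hlogy0 : 0 ≤ Real.log y := Real.log_nonneg (by linarith)
  have hK := Ktot_le_real hy100
  have hcard : (T.card : ℝ) ≤ ((y : ℝ) + 4) + 2 * (Ktot y : ℝ) := by exact_mod_cast hT2
  have hfinal : (T.card : ℝ) ≤ 5782 * y * (1 + Real.log y) := by
    have h1 : (y : ℝ) + 4 ≤ 2 * y * (1 + Real.log y) := by nlinarith
    linarith
  have hW0 : 0 ≤ W := by linarith
  have hlW0 : 0 ≤ Real.log W := by linarith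
  calc (T.card : ℝ) ≤ 5782 * y * (1 + Real.log y) := hfinal
    _ ≤ 5782 * (2 * W) * (2 * Real.log W) := by
        have : (0 : ℝ) ≤ 1 + Real.log y := by linarith
        gcongr
    _ ≤ 24000 * W * Real.log W := by
        have : 0 ≤ W * Real.log W := by positivity
        nlinarith

end Vale.Agent.Lib.P012
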