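import Mathlib

open Finset

namespace Vale.Agent.Lib.P012

/-- The number of ordered pairs of elements of `A` that are congruent modulo `n`. -/
def collisions (A : Finset ℕ) (n : ℕ) : ℕ :=
  ((A ×ˢ A).filter (fun p => (p.1 : ZMod n) = (p.2 : ZMod n))).card

section bilinear

variable {n : ℕ} [NeZero n]

lemma sum_norm_sq_eq (A : Finset ℕ) (y : ZMod n) (hy : IsUnit y) :
    ∑ r : ZMod n, ‖∑ b ∈ A, (ZMod.stdAddChar (y * r * (b : ZMod n)) : ℂ)‖ ^ 2
      = (n : ℝ) * collisions A n := by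
  have key : ∀ r : ZMod n, ((‖∑ b ∈ A, (ZMod.stdAddChar (y * r * (b : ZMod n)) : ℂ)‖ ^ 2 : ℝ) : ℂ)
      = ∑ p ∈ A ×ˢ A, (ZMod.stdAddChar (r * (y * ((p.2 : ZMod n) - (p.1 : ZMod n)))) : ℂ) := by
    intro r
    rw [← Complex.normSq_eq_norm_sq, Complex.normSq_eq_conj_mul_self, map_sum, Finset.sum_mul_sum,
      ← Finset.sum_product']
    refine Finset.sum_congr rfl fun p _ => ?_
    rw [← AddChar.map_neg_eq_conj, ← AddChar.map_add_eq_mul]
    congr 1
    ring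
  apply Complex.ofReal_injective
  rw [Complex.ofReal_sum, Finset.sum_congr rfl (fun r _ => key r), Finset.sum_comm]
  have h2 : ∀ p : ℕ × ℕ, ∑ r : ZMod n, (ZMod.stdAddChar (r * (y * ((p.2 : ZMod n) - (p.1 : ZMod n)))) : ℂ)
      = if (p.1 : ZMod n) = (p.2 : ZMod n) then (n : ℂ) else 0 := by
    intro p
    rw [AddChar.sum_mulShift _ (ZMod.isPrimitive_stdAddChar n)]
    have : y * ((p.2 : ZMod n) - (p.1 : ZMod n)) = 0 ↔ (p.1 : ZMod n) = (p.2 : ZMod n) := by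
      rw [hy.mul_right_eq_zero, sub_eq_zero, eq_comm]
    simp only [this, ZMod.card]
    split_ifs <;> simp
  simp_rw [h2]
  rw [Finset.sum_ite, Finset.sum_const_zero, add_zero, Finset.sum_const, collisions]
  simp [mul_comm]

lemma norm_bilinear_sq_le (A : Finset ℕ) (y : ZMod n) (hy : IsUnit y) :
    ‖∑ a ∈ A, ∑ b ∈ A, (ZMod.stdAddChar (y * (a : ZMod n) * (b : ZMod n)) : ℂ)‖ ^ 2
      ≤ (n : ℝ) * (collisions A n : ℝ) ^ 2 := by
  classical
  set G : ZMod n → ℂ := fun r => ∑ b ∈ A, (ZMod.stdAddChar (y * r * (b : ZMod n)) : ℂ) with hG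
  set w : ZMod n → ℝ := fun r => ((A.filter (fun a : ℕ => (a : ZMod n) = r)).card : ℝ) with hw
  have h1 : ∑ a ∈ A, G (a : ZMod n) = ∑ r : ZMod n, (w r : ℂ) * G r := by
    have := Finset.sum_fiberwise (s := A) (g := fun a : ℕ => (a : ZMod n)) (f := fun a => G (a : ZMod n))
    rw [← this]
    refine Finset.sum_congr rfl fun r _ => ?_
    rw [Finset.sum_congr rfl (g := fun _ => G r)]
    · simp [hw]
    · intro a ha
      rw [(Finset.mem_filter.mp ha).2]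
  have h2 : ∑ r : ZMod n, w r ^ 2 = (collisions A n : ℝ) := by
    have h3 : ∀ r : ZMod n, w r ^ 2 =
        (((A ×ˢ A).filter (fun p => (p.1 : ZMod n) = r ∧ (p.2 : ZMod n) = r)).card : ℝ) := by
      intro r
      have : (A ×ˢ A).filter (fun p => (p.1 : ZMod n) = r ∧ (p.2 : ZMod n) = r)
          = (A.filter (fun a : ℕ => (a : ZMod n) = r)) ×ˢ (A.filter (fun a : ℕ => (a : ZMod n) = r)) := by
        ext p
        simp only [mem_filter, mem_product]
        tauto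
      rw [this, Finset.card_product]
      simp [hw, sq]
    simp_rw [h3]
    rw [← Nat.cast_sum, collisions]
    congr 1
    rw [Finset.card_eq_sum_card_fiberwise (f := fun p : ℕ × ℕ => (p.1 : ZMod n)) (t := Finset.univ)
      (fun _ _ => Finset.mem_coe.mpr (Finset.mem_univ _))]
    refine Finset.sum_congr rfl fun r _ => ?_
    congr 1
    ext p
    simp only [mem_filter]
    constructor
    · rintro ⟨h, h1, h2⟩
      exact ⟨⟨h, by rw [h1, h2]⟩, h1⟩
    · rintro ⟨⟨h, h1⟩, h2⟩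
      exact ⟨h, h2, by rw [← h1, h2]⟩
  have h3 : ‖∑ r : ZMod n, (w r : ℂ) * G r‖ ≤ ∑ r : ZMod n, w r * ‖G r‖ := by
    refine (norm_sum_le _ _).trans (le_of_eq ?_)
    refine Finset.sum_congr rfl fun r _ => ?_
    simp [hw]
  have h4 := Finset.sum_mul_sq_le_sq_mul_sq (Finset.univ : Finset (ZMod n)) w (fun r => ‖G r‖)
  have h5 := sum_norm_sq_eq A y hy
  have h6 : ∑ a ∈ A, ∑ b ∈ A, (ZMod.stdAddChar (y * (a : ZMod n) * (b : ZMod n)) : ℂ)
      = ∑ a ∈ A, G (a : ZMod n) := rfl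
  rw [h6, h1]
  calc ‖∑ r : ZMod n, (w r : ℂ) * G r‖ ^ 2 ≤ (∑ r : ZMod n, w r * ‖G r‖) ^ 2 := by
        gcongr
    _ ≤ (∑ r, w r ^ 2) * ∑ r, ‖G r‖ ^ 2 := h4
    _ = (n : ℝ) * (collisions A n : ℝ) ^ 2 := by
        rw [h2, h5]; ring

end bilinear

section covering

lemma stdAddChar_natCast_mul {P n : ℕ} [NeZero P] [NeZero n] (c : ℕ) (hP : P = c * n) (m : ℕ) :
    (ZMod.stdAddChar ((c * m : ℕ) : ZMod P) : ℂ) = ZMod.stdAddChar ((m : ℕ) : ZMod n) := by
  have h1 := ZMod.stdAddChar_coe (N := P) ((c * m : ℕ) : ℤ)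
  have h2 := ZMod.stdAddChar_coe (N := n) ((m : ℕ) : ℤ)
  simp only [Int.cast_natCast] at h1 h2
  rw [h1, h2]
  congr 1
  have hc : (c : ℂ) ≠ 0 := by
    intro h
    have : c = 0 := by exact_mod_cast h
    subst this
    exact NeZero.ne P (by simpa using hP)
  have hn : (n : ℂ) ≠ 0 := Nat.cast_ne_zero.mpr (NeZero.ne n)
  subst hP
  push_cast
  field_simp

/-- The primes of `Q` not dividing `v`. -/
def supp (Q : Finset ℕ) (v : ℕ) : Finset ℕ := Q.filter (fun q => ¬ q ∣ v)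

lemma prod_sdiff_supp_dvd {Q : Finset ℕ} (hQ : ∀ q ∈ Q, q.Prime) (v : ℕ) :
    ∏ q ∈ Q \ supp Q v, q ∣ v := by
  apply Finset.prod_primes_dvd
  · intro a ha
    exact (hQ a (Finset.mem_sdiff.mp ha).1).prime
  · intro a ha
    obtain ⟨h1, h2⟩ := Finset.mem_sdiff.mp ha
    by_contra h3
    exact h2 (Finset.mem_filter.mpr ⟨h1, h3⟩)

lemma prod_sdiff_mul_prod {Q J : Finset ℕ} (hJ : J ⊆ Q) :
    ∏ q ∈ Q, q = (∏ q ∈ Q \ J, q) * ∏ q ∈ J, q :=
  (Finset.prod_sdiff hJ).symm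

lemma prod_pos_of_primes {Q : Finset ℕ} (hQ : ∀ q ∈ Q, q.Prime) : 0 < ∏ q ∈ Q, q :=
  Finset.prod_pos fun q hq => (hQ q hq).pos

lemma supp_nonempty {Q : Finset ℕ} (hQ : ∀ q ∈ Q, q.Prime) {v : ℕ} (hv0 : v ≠ 0)
    (hv : v < ∏ q ∈ Q, q) : (supp Q v).Nonempty := by
  by_contra h
  rw [Finset.not_nonempty_iff_eq_empty] at h
  have h1 := prod_sdiff_supp_dvd hQ v
  rw [h, Finset.sdiff_empty] at h1
  exact absurd (Nat.le_of_dvd (Nat.pos_of_ne_zero hv0) h1) (not_le.mpr hv)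

/-- The bilinear bound for a nonzero frequency in `ZMod P`, `P` a product of distinct primes. -/
lemma norm_T_sq_le {Q : Finset ℕ} (hQ : ∀ q ∈ Q, q.Prime) [NeZero (∏ q ∈ Q, q)]
    (A : Finset ℕ) (s : ℕ) (hs : ∀ q ∈ Q, ¬ q ∣ s) (x : ZMod (∏ q ∈ Q, q)) :
    ‖∑ a ∈ A, ∑ b ∈ A, (ZMod.stdAddChar (x * (s : ZMod (∏ q ∈ Q, q)) * (a : ZMod (∏ q ∈ Q, q))
        * (b : ZMod (∏ q ∈ Q, q))) : ℂ)‖ ^ 2
      ≤ ((∏ q ∈ supp Q x.val, q : ℕ) : ℝ) * (collisions A (∏ q ∈ supp Q x.val, q) : ℝ) ^ 2 := by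
  set J := supp Q x.val with hJ
  set n := ∏ q ∈ J, q with hn
  set c := ∏ q ∈ Q \ J, q with hc
  have hJQ : J ⊆ Q := Finset.filter_subset _ _
  have hP : ∏ q ∈ Q, q = c * n := prod_sdiff_mul_prod hJQ
  have hcv : c ∣ x.val := prod_sdiff_supp_dvd hQ x.val
  obtain ⟨Y, hY⟩ := hcv
  have : NeZero n := ⟨(prod_pos_of_primes fun q hq => hQ q (hJQ hq)).ne'⟩
  have hx : x = ((c * Y : ℕ) : ZMod (∏ q ∈ Q, q)) := by
    rw [← hY, ZMod.natCast_zmod_val]
  have hchar : ∀ a b : ℕ, (ZMod.stdAddChar (x * (s : ZMod (∏ q ∈ Q, q)) * (a : ZMod (∏ q ∈ Q, q))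
        * (b : ZMod (∏ q ∈ Q, q))) : ℂ)
      = ZMod.stdAddChar (((Y * s : ℕ) : ZMod n) * (a : ZMod n) * (b : ZMod n)) := by
    intro a b
    have h1 := stdAddChar_natCast_mul (P := ∏ q ∈ Q, q) (n := n) c hP (Y * s * a * b)
    have h2 : x * (s : ZMod (∏ q ∈ Q, q)) * (a : ZMod (∏ q ∈ Q, q)) * (b : ZMod (∏ q ∈ Q, q))
        = ((c * (Y * s * a * b) : ℕ) : ZMod (∏ q ∈ Q, q)) := by
      rw [hx]; push_cast; ring
    rw [h2, h1]
    congr 1
    push_cast
    ring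
  simp_rw [hchar]
  apply norm_bilinear_sq_le
  rw [ZMod.isUnit_iff_coprime]
  apply Nat.Coprime.prod_right
  intro q hq
  have hqp := hQ q (hJQ hq)
  rw [Nat.coprime_comm, hqp.coprime_iff_not_dvd]
  intro h
  rcases (Nat.Prime.dvd_mul hqp).mp h with h | h
  · have : q ∣ x.val := by rw [hY]; exact h.mul_left _
    exact (Finset.mem_filter.mp hq).2 this
  · exact hs q (hJQ hq) h

/-- Counting the frequencies with a given support. -/
lemma card_supp_eq_le {Q : Finset ℕ} (hQ : ∀ q ∈ Q, q.Prime) [NeZero (∏ q ∈ Q, q)]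
    {J : Finset ℕ} (hJ : J ⊆ Q) :
    ((Finset.univ : Finset (ZMod (∏ q ∈ Q, q))).filter (fun x => supp Q x.val = J)).card
      ≤ ∏ q ∈ J, q := by
  set n := ∏ q ∈ J, q with hn
  set c := ∏ q ∈ Q \ J, q with hc
  have hP : ∏ q ∈ Q, q = c * n := prod_sdiff_mul_prod hJ
  have hcpos : 0 < c := prod_pos_of_primes fun q hq => hQ q (Finset.mem_sdiff.mp hq).1
  have hcard : (Finset.range n).card = n := Finset.card_range n
  rw [← hcard]
  apply Finset.card_le_card_of_injOn (fun x => x.val / c)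
  · intro x _
    have hlt : x.val < c * n := lt_of_lt_of_eq (ZMod.val_lt x) hP
    exact Finset.mem_coe.mpr (Finset.mem_range.mpr (Nat.div_lt_of_lt_mul hlt))
  · intro x hx y hy hxy
    have hx' := (Finset.mem_filter.mp (Finset.mem_coe.mp hx)).2
    have hy' := (Finset.mem_filter.mp (Finset.mem_coe.mp hy)).2
    have h1 : c ∣ x.val := by
      have := prod_sdiff_supp_dvd hQ x.val
      rwa [hx'] at this
    have h2 : c ∣ y.val := by
      have := prod_sdiff_supp_dvd hQ y.val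
      rwa [hy'] at this
    have h3 : x.val = y.val := by
      have h4 : x.val / c = y.val / c := hxy
      rw [← Nat.div_mul_cancel h1, ← Nat.div_mul_cancel h2, h4]
    exact ZMod.val_injective _ h3

/-- The covering lemma: if the collision sum is small, every residue modulo the product of `Q` is a
sum of four elements of the form `s i * a * b`, with `a, b` in `A`. -/
theorem covering {Q : Finset ℕ} (hQ : ∀ q ∈ Q, q.Prime) (A : Finset ℕ)
    (s : Fin 4 → ℕ) (hs : ∀ i, ∀ q ∈ Q, ¬ q ∣ s i)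
    (h : ∑ J ∈ Q.powerset.erase ∅, ((∏ q ∈ J, q : ℕ) : ℝ) ^ 3 * (collisions A (∏ q ∈ J, q) : ℝ) ^ 4
      < (A.card : ℝ) ^ 8) (r : ℕ) :
    ∃ f : Fin 4 → ℕ × ℕ, (∀ i, f i ∈ A ×ˢ A) ∧
      ((∑ i, s i * (f i).1 * (f i).2 : ℕ) : ZMod (∏ q ∈ Q, q)) = (r : ZMod (∏ q ∈ Q, q)) := by
  classical
  have hPpos : 0 < ∏ q ∈ Q, q := prod_pos_of_primes hQ
  have : NeZero (∏ q ∈ Q, q) := ⟨hPpos.ne'⟩
  set P := ∏ q ∈ Q, q with hPdef
  by_contra hno
  push Not at hno
  -- the character sums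
  set T : ZMod P → Fin 4 → ℂ := fun x i => ∑ p ∈ A ×ˢ A,
      (ZMod.stdAddChar (x * (s i : ZMod P) * (p.1 : ZMod P) * (p.2 : ZMod P)) : ℂ) with hT
  have hsum : ∑ x : ZMod P, (ZMod.stdAddChar (x * (- (r : ZMod P))) : ℂ) * ∏ i, T x i = 0 := by
    have h1 : ∀ x : ZMod P, (ZMod.stdAddChar (x * (- (r : ZMod P))) : ℂ) * ∏ i, T x i
        = ∑ f ∈ Fintype.piFinset (fun _ : Fin 4 => A ×ˢ A),
          (ZMod.stdAddChar (x * (((∑ i, s i * (f i).1 * (f i).2 : ℕ) : ZMod P) - (r : ZMod P))) : ℂ) := by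
      intro x
      simp only [hT]
      rw [Finset.prod_univ_sum, Finset.mul_sum]
      refine Finset.sum_congr rfl fun f _ => ?_
      simp only [Fin.prod_univ_four]
      simp only [← AddChar.map_add_eq_mul, Fin.sum_univ_four]
      congr 1
      push_cast
      ring
    simp_rw [h1]
    rw [Finset.sum_comm]
    apply Finset.sum_eq_zero
    intro f hf
    rw [AddChar.sum_mulShift _ (ZMod.isPrimitive_stdAddChar P)]
    have hf' : ∀ i, f i ∈ A ×ˢ A := fun i => Fintype.mem_piFinset.mp hf i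
    have hne : ((∑ i, s i * (f i).1 * (f i).2 : ℕ) : ZMod P) - (r : ZMod P) ≠ 0 :=
      fun h0 => hno f hf' (sub_eq_zero.mp h0)
    rw [if_neg hne]
    simp
  -- the zero frequency
  have hzero : ∏ i, T 0 i = ((A.card : ℂ)) ^ 8 := by
    have : ∀ i, T 0 i = (A.card : ℂ) ^ 2 := by
      intro i
      simp [hT, sq]
    simp [this]
    ring
  -- the bound for each nonzero frequency
  set B : ZMod P → ℝ := fun x => ((∏ q ∈ supp Q x.val, q : ℕ) : ℝ)
      * (collisions A (∏ q ∈ supp Q x.val, q) : ℝ) ^ 2 with hB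
  have hB0 : ∀ x, 0 ≤ B x := fun x => by positivity
  have hTle : ∀ x i, ‖T x i‖ ^ 2 ≤ B x := by
    intro x i
    have := norm_T_sq_le hQ A (s i) (hs i) x
    simp only [hT, hB]
    rw [Finset.sum_product]
    exact this
  have hprod : ∀ x, ‖∏ i, T x i‖ ≤ B x ^ 2 := by
    intro x
    rw [norm_prod, Fin.prod_univ_four]
    have h0 := hTle x 0
    have h1 := hTle x 1
    have h2 := hTle x 2
    have h3 := hTle x 3
    have hn0 := norm_nonneg (T x 0)
    have hn1 := norm_nonneg (T x 1)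
    have hn2 := norm_nonneg (T x 2)
    have hn3 := norm_nonneg (T x 3)
    have h4 : ‖T x 0‖ * ‖T x 1‖ ≤ B x := by nlinarith [sq_nonneg (‖T x 0‖ - ‖T x 1‖)]
    have h5 : ‖T x 2‖ * ‖T x 3‖ ≤ B x := by nlinarith [sq_nonneg (‖T x 2‖ - ‖T x 3‖)]
    calc ‖T x 0‖ * ‖T x 1‖ * ‖T x 2‖ * ‖T x 3‖ = (‖T x 0‖ * ‖T x 1‖) * (‖T x 2‖ * ‖T x 3‖) := by ring
      _ ≤ B x * B x := by gcongr
      _ = B x ^ 2 := by ring
  -- assemble
  have hsplit := Finset.add_sum_erase (Finset.univ : Finset (ZMod P))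
    (fun x => (ZMod.stdAddChar (x * (- (r : ZMod P))) : ℂ) * ∏ i, T x i) (Finset.mem_univ 0)
  rw [hsum] at hsplit
  simp only [zero_mul, AddChar.map_zero_eq_one, one_mul, hzero] at hsplit
  have hnorm : (A.card : ℝ) ^ 8 ≤ ∑ x ∈ (Finset.univ : Finset (ZMod P)).erase 0, B x ^ 2 := by
    have h1 : ((A.card : ℂ)) ^ 8 = - ∑ x ∈ (Finset.univ : Finset (ZMod P)).erase 0,
        (ZMod.stdAddChar (x * (- (r : ZMod P))) : ℂ) * ∏ i, T x i := by
      rw [eq_neg_iff_add_eq_zero]; exact hsplit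
    have h2 : ‖((A.card : ℂ)) ^ 8‖ = (A.card : ℝ) ^ 8 := by simp
    rw [← h2, h1, norm_neg]
    refine (norm_sum_le _ _).trans (Finset.sum_le_sum fun x _ => ?_)
    rw [norm_mul, AddChar.norm_apply, one_mul]
    exact hprod x
  -- group by support
  have hgroup : ∑ x ∈ (Finset.univ : Finset (ZMod P)).erase 0, B x ^ 2
      ≤ ∑ J ∈ Q.powerset.erase ∅, ((∏ q ∈ J, q : ℕ) : ℝ) ^ 3 * (collisions A (∏ q ∈ J, q) : ℝ) ^ 4 := by
    have hmaps : ∀ x ∈ (Finset.univ : Finset (ZMod P)).erase 0,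
        supp Q x.val ∈ Q.powerset.erase ∅ := by
      intro x hx
      have hx0 : x ≠ 0 := (Finset.mem_erase.mp hx).1
      rw [Finset.mem_erase, Finset.mem_powerset]
      refine ⟨?_, Finset.filter_subset _ _⟩
      have := supp_nonempty hQ (v := x.val) (by simpa [ZMod.val_eq_zero] using hx0) (ZMod.val_lt x)
      exact this.ne_empty
    rw [← Finset.sum_fiberwise_of_maps_to hmaps]
    refine Finset.sum_le_sum fun J hJ => ?_
    have hJQ : J ⊆ Q := Finset.mem_powerset.mp (Finset.mem_of_mem_erase hJ)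
    have hval : ∀ x ∈ ((Finset.univ : Finset (ZMod P)).erase 0).filter (fun x => supp Q x.val = J),
        B x ^ 2 = (((∏ q ∈ J, q : ℕ) : ℝ) * (collisions A (∏ q ∈ J, q) : ℝ) ^ 2) ^ 2 := by
      intro x hx
      have := (Finset.mem_filter.mp hx).2
      simp only [hB, this]
    rw [Finset.sum_congr rfl hval, Finset.sum_const, nsmul_eq_mul]
    have hcard : (((Finset.univ : Finset (ZMod P)).erase 0).filter (fun x => supp Q x.val = J)).card
        ≤ ∏ q ∈ J, q := by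
      refine le_trans (Finset.card_le_card ?_) (card_supp_eq_le hQ hJQ)
      intro x hx
      exact Finset.mem_filter.mpr ⟨Finset.mem_univ _, (Finset.mem_filter.mp hx).2⟩
    have hcard' : (((((Finset.univ : Finset (ZMod P)).erase 0).filter (fun x => supp Q x.val = J)).card : ℕ) : ℝ)
        ≤ ((∏ q ∈ J, q : ℕ) : ℝ) := by exact_mod_cast hcard
    calc _ ≤ ((∏ q ∈ J, q : ℕ) : ℝ) * (((∏ q ∈ J, q : ℕ) : ℝ) * (collisions A (∏ q ∈ J, q) : ℝ) ^ 2) ^ 2 := by
          gcongr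
      _ = _ := by ring
  exact absurd (hnorm.trans hgroup) (not_le.mpr h)

end covering

end Vale.Agent.Lib.P012
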