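import Vale.Agent.Lib.P012.Chain

open Finset

namespace Vale.Agent.Lib.P012

/-- The Sylvester-type growth sequence. -/
def sylv : ℕ → ℕ
  | 0 => 1
  | n + 1 => sylv n * (sylv n + 1)

lemma sylv_pos (n : ℕ) : 0 < sylv n := by
  induction n with
  | zero => simp [sylv]
  | succ n ih => simp only [sylv]; positivity

lemma sylv_ge (n : ℕ) : 2 ^ 2 ^ n ≤ sylv (n + 1) := by
  induction n with
  | zero => simp [sylv]
  | succ n ih =>
    have h1 : sylv (n + 2) = sylv (n + 1) * (sylv (n + 1) + 1) := rfl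
    rw [h1, pow_succ 2 n, pow_mul]
    calc (2 ^ 2 ^ n) ^ 2 = 2 ^ 2 ^ n * 2 ^ 2 ^ n := by ring
      _ ≤ sylv (n + 1) * (sylv (n + 1) + 1) := Nat.mul_le_mul ih (by omega)

/-- The greedy algorithm, with numerators kept below `b`. -/
lemma greedy (b Z : ℕ) (hb : 0 < b) (n : ℕ) :
    ∀ (i a p : ℕ), Z ≤ sylv (i + n) → a < b → sylv i ≤ p →
    ∃ (S : Finset ℕ) (a' p' : ℕ), a' < b ∧ p ≤ p' ∧ p' ≤ max p (Z * Z) ∧ S.card ≤ n ∧
      (∀ e ∈ S, p < e ∧ e ≤ p') ∧ a' * Z < b * p' ∧
      ∑ e ∈ S, (1 : ℚ) / e + (a' : ℚ) / ((b : ℚ) * p') = (a : ℚ) / ((b : ℚ) * p) := by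
  induction n with
  | zero =>
    intro i a p hZi ha hp
    have hZp : Z ≤ p := hZi.trans hp
    have hppos : 0 < p := (sylv_pos i).trans_le hp
    refine ⟨∅, a, p, ha, le_rfl, le_max_left _ _, by simp, by simp, ?_, by simp⟩
    calc a * Z ≤ a * p := Nat.mul_le_mul_left _ hZp
      _ < b * p := Nat.mul_lt_mul_of_pos_right ha hppos
  | succ n ih =>
    intro i a p hZi ha hp
    have hppos : 0 < p := (sylv_pos i).trans_le hp
    by_cases hstop : a * Z < b * p
    · exact ⟨∅, a, p, ha, le_rfl, le_max_left _ _, by simp, by simp, hstop, by simp⟩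
    · have hge : b * p ≤ a * Z := by omega
      have ha0 : 0 < a := by
        rcases Nat.eq_zero_or_pos a with h | h
        · subst h
          have : 0 < b * p := Nat.mul_pos hb hppos
          omega
        · exact h
      -- the greedy denominator
      obtain ⟨e, he1, he2⟩ : ∃ e, b * p ≤ a * e ∧ a * e < b * p + a := by
        refine ⟨(b * p + a - 1) / a, ?_, ?_⟩
        · have h1 := Nat.lt_mul_div_succ (b * p + a - 1) ha0
          have h2 : b * p + a - 1 < a * ((b * p + a - 1) / a) + a := by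
            calc _ < a * ((b * p + a - 1) / a + 1) := h1
              _ = _ := by ring
          omega
        · have h1 := Nat.mul_div_le (b * p + a - 1) a
          omega
      have hep : p < e := by
        by_contra hcon
        have h1 : e ≤ p := by omega
        have h2 : a * e ≤ a * p := Nat.mul_le_mul_left _ h1
        have h3 : a * p < b * p := Nat.mul_lt_mul_of_pos_right ha hppos
        omega
      have heZ : e ≤ Z := by
        by_contra hcon
        have h1 : Z + 1 ≤ e := by omega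
        have h2 : a * (Z + 1) ≤ a * e := Nat.mul_le_mul_left _ h1
        have h3 : a * (Z + 1) = a * Z + a := by ring
        omega
      set a2 := a * e - b * p with ha2
      have ha2lt : a2 < a := by omega
      have he0 : 0 < e := by omega
      have hp2 : sylv (i + 1) ≤ p * e := by
        have : sylv (i + 1) = sylv i * (sylv i + 1) := rfl
        rw [this]
        exact Nat.mul_le_mul hp (by omega)
      have hZi' : Z ≤ sylv (i + 1 + n) := by
        have : i + 1 + n = i + (n + 1) := by ring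
        rw [this]; exact hZi
      obtain ⟨S, a', p', h1, h2, h3, h4, h5, h6, h7⟩ :=
        ih (i + 1) a2 (p * e) hZi' (by omega) hp2
      have heS : e ∉ S := by
        intro hmem
        have h8 := (h5 e hmem).1
        have h9 : e ≤ p * e := Nat.le_mul_of_pos_left _ hppos
        omega
      have hpeZ : p * e ≤ Z * Z := by
        have h8 : p < Z := by omega
        exact Nat.mul_le_mul h8.le heZ
      refine ⟨insert e S, a', p', h1, ?_, ?_, ?_, ?_, h6, ?_⟩
      · have : p ≤ p * e := Nat.le_mul_of_pos_right _ he0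
        omega
      · refine h3.trans (max_le ?_ (le_max_right _ _))
        exact hpeZ.trans (le_max_right _ _)
      · rw [Finset.card_insert_of_notMem heS]; omega
      · intro e' he'
        rcases Finset.mem_insert.mp he' with rfl | he'
        · refine ⟨hep, ?_⟩
          have h8 : e' ≤ p * e' := Nat.le_mul_of_pos_left _ hppos
          omega
        · have h8 := h5 e' he'
          have h9 : p ≤ p * e := Nat.le_mul_of_pos_right _ he0
          exact ⟨by omega, h8.2⟩
      · rw [Finset.sum_insert heS]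
        have hbq : (b : ℚ) ≠ 0 := by positivity
        have hpq : (p : ℚ) ≠ 0 := by positivity
        have heq : (e : ℚ) ≠ 0 := by positivity
        have ha2q : (a2 : ℚ) = (a : ℚ) * e - (b : ℚ) * p := by
          rw [ha2, Nat.cast_sub he1]
          push_cast
          ring
        have h8 : ∑ e ∈ S, (1 : ℚ) / e + (a' : ℚ) / ((b : ℚ) * p')
            = (a2 : ℚ) / ((b : ℚ) * ((p * e : ℕ) : ℚ)) := h7
        rw [add_assoc, h8, ha2q]
        push_cast
        field_simp
        ring

lemma div_inj_of_dvd {N d d' : ℕ} (hN : 0 < N) (hd : d ∣ N) (hd' : d' ∣ N) (h : N / d = N / d') :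
    d = d' := by
  have h1 : d * (N / d) = N := Nat.mul_div_cancel' hd
  have h2 : d' * (N / d') = N := Nat.mul_div_cancel' hd'
  have h3 : 0 < N / d := Nat.div_pos (Nat.le_of_dvd hN hd) (Nat.pos_of_dvd_of_pos hd hN)
  rw [← h] at h2
  exact Nat.eq_of_mul_eq_mul_right h3 (h1.trans h2.symm)

lemma one_div_div_cast {N d : ℕ} (hN : 0 < N) (hd : d ∣ N) :
    (1 : ℚ) / ((N / d : ℕ) : ℚ) = (d : ℚ) / N := by
  have hd0 : (d : ℚ) ≠ 0 := by
    have := Nat.pos_of_dvd_of_pos hd hN
    positivity
  have hN0 : (N : ℚ) ≠ 0 := by positivity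
  rw [Nat.cast_div hd hd0]
  field_simp

/-- From the representation property to Egyptian fractions. -/
theorem egyptian_of_rep {Z R K a b n : ℕ} (hZ : 1 ≤ Z) (hrep : Rep (Z * R) R K)
    (hbR : b * (Z * Z) ≤ R) (ha1 : 1 ≤ a) (hab : a < b) (hn : Z ≤ sylv n) :
    ∃ T : Finset ℕ, (∀ t ∈ T, 2 ≤ t) ∧ T.card ≤ n + 2 * K ∧
      ∑ t ∈ T, (1 : ℚ) / t = (a : ℚ) / b := by
  classical
  have hb : 0 < b := by omega
  have hZZ : 1 ≤ Z * Z := Nat.mul_pos hZ hZ
  have hR : 0 < R := by nlinarith
  obtain ⟨S, a', p', h1, h2, h3, h4, h5, h6, h7⟩ := greedy b Z hb n 0 a 1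
    (by simpa using hn) hab (by simp [sylv])
  have hp'pos : 0 < p' := by omega
  have hp'le : p' ≤ Z * Z := by
    refine h3.trans (max_le hZZ le_rfl)
  set b' := b * p' with hb'
  have hb'pos : 0 < b' := Nat.mul_pos hb hp'pos
  have hb'R : b' ≤ R := (Nat.mul_le_mul_left _ hp'le).trans hbR
  set N := Z * R with hN
  have hNpos : 0 < N := Nat.mul_pos hZ hR
  set q := a' * N / b' with hq
  set r := a' * N % b' with hr
  have hqr : q * b' + r = a' * N := by
    rw [hq, hr, mul_comm]
    exact Nat.div_add_mod _ _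
  have hrlt : r < b' := Nat.mod_lt _ hb'pos
  have hqR : q < R := by
    have h8 : q * b' ≤ a' * N := by omega
    have h9 : a' * N < R * b' := by
      calc a' * N = (a' * Z) * R := by rw [hN]; ring
        _ < b' * R := Nat.mul_lt_mul_of_pos_right h6 hR
        _ = R * b' := by ring
    exact Nat.lt_of_mul_lt_mul_right (lt_of_le_of_lt h8 h9)
  obtain ⟨Sq, hSq1, hSq2, hSq3⟩ := hrep q hqR
  obtain ⟨Sr, hSr1, hSr2, hSr3⟩ := hrep r (lt_of_lt_of_le hrlt hb'R)
  have hdpos : ∀ d, d ∣ N → 0 < d := fun d hd => Nat.pos_of_dvd_of_pos hd hNpos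
  have hNd : ∀ d, d ∣ N → 0 < N / d := fun d hd =>
    Nat.div_pos (Nat.le_of_dvd hNpos hd) (hdpos d hd)
  have hb2 : 2 ≤ b := by omega
  -- size of the denominators coming from `q`
  have hbig : ∀ d ∈ Sq, p' < N / d := by
    intro d hd
    have hdN := hSq1 d hd
    have hdq : d ≤ q := by
      rw [← hSq3]
      exact Finset.single_le_sum (f := fun d : ℕ => d) (fun _ _ => Nat.zero_le _) hd
    have h8 : d * b' ≤ a' * N := by
      calc d * b' ≤ q * b' := Nat.mul_le_mul_right _ hdq
        _ ≤ a' * N := by omega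
    have h9 : d * (N / d) = N := Nat.mul_div_cancel' hdN
    have h10 : d * b' ≤ d * (a' * (N / d)) := by
      calc d * b' ≤ a' * N := h8
        _ = a' * (d * (N / d)) := by rw [h9]
        _ = d * (a' * (N / d)) := by ring
    have h11 : b' ≤ a' * (N / d) := Nat.le_of_mul_le_mul_left h10 (hdpos d hdN)
    have h12 : a' * (N / d) < b * (N / d) := Nat.mul_lt_mul_of_pos_right h1 (hNd d hdN)
    have h13 : b * p' < b * (N / d) := lt_of_le_of_lt h11 h12
    exact Nat.lt_of_mul_lt_mul_left h13
  set T1 := Sq.image (fun d => N / d) with hT1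
  set T2 := Sr.image (fun d => b' * (N / d)) with hT2
  have hinj1 : Set.InjOn (fun d => N / d) (Sq : Set ℕ) := by
    intro x hx y hy hxy
    exact div_inj_of_dvd hNpos (hSq1 x hx) (hSq1 y hy) hxy
  have hinj2 : Set.InjOn (fun d => b' * (N / d)) (Sr : Set ℕ) := by
    intro x hx y hy hxy
    have h8 : N / x = N / y := Nat.eq_of_mul_eq_mul_left hb'pos hxy
    exact div_inj_of_dvd hNpos (hSr1 x hx) (hSr1 y hy) h8
  have hdisj1 : Disjoint S T1 := by
    rw [Finset.disjoint_left]
    intro t ht ht'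
    obtain ⟨d, hd, rfl⟩ := Finset.mem_image.mp ht'
    have h8 := (h5 _ ht).2
    have h9 := hbig d hd
    omega
  have hdisj2 : Disjoint S T2 := by
    rw [Finset.disjoint_left]
    intro t ht ht'
    obtain ⟨d, hd, rfl⟩ := Finset.mem_image.mp ht'
    have h8 := (h5 _ ht).2
    have h9 : 0 < N / d := hNd d (hSr1 d hd)
    have h10 : b' ≤ b' * (N / d) := Nat.le_mul_of_pos_right _ h9
    have h11 : 2 * p' ≤ b' := by rw [hb']; exact Nat.mul_le_mul_right _ hb2
    omega
  have hdisj3 : Disjoint T1 T2 := by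
    rw [Finset.disjoint_left]
    intro t ht ht'
    obtain ⟨d, hd, rfl⟩ := Finset.mem_image.mp ht
    obtain ⟨d', hd', heq⟩ := Finset.mem_image.mp ht'
    have hdN := hSq1 d hd
    have hd'N := hSr1 d' hd'
    have h8 : d' * (N / d') = N := Nat.mul_div_cancel' hd'N
    have h9 : d * (N / d) = N := Nat.mul_div_cancel' hdN
    have h10 : d' = d * b' := by
      have h11 : d' * (N / d') = (d * b') * (N / d') := by
        rw [h8]
        calc N = d * (N / d) := h9.symm
          _ = d * (b' * (N / d')) := by rw [← heq]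
          _ = _ := by ring
      exact Nat.eq_of_mul_eq_mul_right (hNd d' hd'N) h11
    have h12 : d' ≤ r := by
      rw [← hSr3]
      exact Finset.single_le_sum (f := fun d : ℕ => d) (fun _ _ => Nat.zero_le _) hd'
    have h13 : b' ≤ d * b' := Nat.le_mul_of_pos_left _ (hdpos d hdN)
    omega
  refine ⟨S ∪ (T1 ∪ T2), ?_, ?_, ?_⟩
  · intro t ht
    rcases Finset.mem_union.mp ht with ht | ht
    · have := (h5 t ht).1
      omega
    · rcases Finset.mem_union.mp ht with ht | ht
      · obtain ⟨d, hd, rfl⟩ := Finset.mem_image.mp ht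
        have := hbig d hd
        omega
      · obtain ⟨d, hd, rfl⟩ := Finset.mem_image.mp ht
        have h9 : 0 < N / d := hNd d (hSr1 d hd)
        have h10 : b' ≤ b' * (N / d) := Nat.le_mul_of_pos_right _ h9
        have h11 : 2 * p' ≤ b' := by rw [hb']; exact Nat.mul_le_mul_right _ hb2
        omega
  · calc (S ∪ (T1 ∪ T2)).card ≤ S.card + (T1 ∪ T2).card := Finset.card_union_le _ _
      _ ≤ S.card + (T1.card + T2.card) := Nat.add_le_add_left (Finset.card_union_le _ _) _
      _ ≤ S.card + (Sq.card + Sr.card) :=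
          Nat.add_le_add_left (Nat.add_le_add Finset.card_image_le Finset.card_image_le) _
      _ ≤ n + 2 * K := by omega
  · rw [Finset.sum_union (Finset.disjoint_union_right.mpr ⟨hdisj1, hdisj2⟩),
      Finset.sum_union hdisj3, Finset.sum_image hinj1, Finset.sum_image hinj2]
    have hNq : (N : ℚ) ≠ 0 := by positivity
    have hb'q : (b' : ℚ) ≠ 0 := by positivity
    have hs1 : ∑ x ∈ Sq, (1 : ℚ) / ((N / x : ℕ) : ℚ) = (q : ℚ) / N := by
      rw [Finset.sum_congr rfl (fun x hx => one_div_div_cast hNpos (hSq1 x hx)),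
        ← Finset.sum_div, ← Nat.cast_sum, hSq3]
    have hs2 : ∑ x ∈ Sr, (1 : ℚ) / ((b' * (N / x) : ℕ) : ℚ) = (r : ℚ) / (b' * N) := by
      have h8 : ∀ x ∈ Sr, (1 : ℚ) / ((b' * (N / x) : ℕ) : ℚ) = (x : ℚ) / (b' * N) := by
        intro x hx
        have h11 := one_div_div_cast hNpos (hSr1 x hx)
        have h12 : (1 : ℚ) / ((b' * (N / x) : ℕ) : ℚ) = (1 / (b' : ℚ)) * (1 / ((N / x : ℕ) : ℚ)) := by
          rw [one_div_mul_one_div]
          push_cast
          rfl
        rw [h12, h11]
        field_simp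
      rw [Finset.sum_congr rfl h8, ← Finset.sum_div, ← Nat.cast_sum, hSr3]
    rw [hs1, hs2]
    have h9 : (q : ℚ) / N + (r : ℚ) / (b' * N) = (a' : ℚ) / b' := by
      have h10 : (q : ℚ) * b' + r = a' * N := by exact_mod_cast hqr
      field_simp
      linarith
    rw [h9]
    have h10 : ((b' : ℕ) : ℚ) = (b : ℚ) * p' := by rw [hb']; push_cast; ring
    rw [h10, h7]
    simp

end Vale.Agent.Lib.P012
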