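import Vale.Agent.Lib.P012.Select

open Finset

namespace Vale.Agent.Lib.P012

lemma one_add_pow_le {ρ : ℝ} (hρ : 0 ≤ ρ) {M : ℕ} (h : 2 * (M : ℝ) * ρ ≤ 1) :
    ∀ m, m ≤ M → (1 + ρ) ^ m ≤ 1 + 2 * (m : ℝ) * ρ := by
  intro m
  induction m with
  | zero => intro _; simp
  | succ m ih =>
    intro hm
    have h1 := ih (by omega)
    have hm' : (m : ℝ) ≤ M := by exact_mod_cast (by omega : m ≤ M)
    have h2 : 2 * (m : ℝ) * ρ ≤ 1 := by
      have : 2 * (m : ℝ) * ρ ≤ 2 * (M : ℝ) * ρ := by gcongr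
      linarith
    have h3 : 0 ≤ 1 + ρ := by linarith
    calc (1 + ρ) ^ (m + 1) = (1 + ρ) ^ m * (1 + ρ) := by ring
      _ ≤ (1 + 2 * (m : ℝ) * ρ) * (1 + ρ) := by gcongr
      _ ≤ 1 + 2 * ((m + 1 : ℕ) : ℝ) * ρ := by
        push_cast
        nlinarith [mul_nonneg hρ hρ]

lemma sum_powerset_erase_pow (B : Finset ℕ) (ρ : ℝ) :
    ∑ J ∈ B.powerset.erase ∅, ρ ^ J.card = (1 + ρ) ^ B.card - 1 := by
  have h1 := Finset.prod_one_add (f := fun _ : ℕ => ρ) B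
  simp only [Finset.prod_const] at h1
  rw [h1, ← Finset.add_sum_erase _ _ (Finset.empty_mem_powerset B)]
  simp

/-- Powers of two: the hypothesis of the covering lemma holds for a good batch. -/
lemma covering_hyp {A B : Finset ℕ} {y : ℕ} (hy : 5 ≤ y)
    (hprime : ∀ q ∈ B, q.Prime ∧ q ≤ 2 ^ (16 * y)) (hM : B.card ≤ 2 ^ y)
    (hcard : 2 ^ (32 * y * B.card) ≤ A.card) (hA6 : 6 ≤ A.card)
    (hcoll : ∀ J ⊆ B, ((2 : ℝ) ^ (13 * y)) ^ J.card * (collisions A (∏ q ∈ J, q) : ℝ)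
        ≤ ((2 : ℝ) ^ (13 * y)) ^ J.card * (A.card : ℝ) + 3 * (A.card : ℝ) ^ 2) :
    ∑ J ∈ B.powerset.erase ∅, ((∏ q ∈ J, q : ℕ) : ℝ) ^ 3 * (collisions A (∏ q ∈ J, q) : ℝ) ^ 4
      < (A.card : ℝ) ^ 8 := by
  set a : ℝ := (A.card : ℝ) with ha
  have ha6 : (6 : ℝ) ≤ a := by rw [ha]; exact_mod_cast hA6
  have ha0 : 0 < a := by linarith
  set P : ℕ := ∏ q ∈ B, q with hP
  have hPle : P ≤ 2 ^ (16 * y * B.card) := by
    calc P ≤ ∏ _q ∈ B, 2 ^ (16 * y) := Finset.prod_le_prod' fun q hq => (hprime q hq).2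
      _ = 2 ^ (16 * y * B.card) := by rw [Finset.prod_const, ← pow_mul]
  have hPsq : ((P : ℝ)) ^ 2 ≤ a := by
    have h1 : P ^ 2 ≤ A.card := by
      refine le_trans ?_ hcard
      calc P ^ 2 ≤ (2 ^ (16 * y * B.card)) ^ 2 := by gcongr
        _ = 2 ^ (32 * y * B.card) := by rw [← pow_mul]; congr 1; ring
    rw [ha]; exact_mod_cast h1
  have hPpos : 0 < P := Finset.prod_pos fun q hq => (hprime q hq).1.pos
  have h2M : (2 : ℝ) ^ B.card ≤ P := by
    have : 2 ^ B.card ≤ P := by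
      rw [← Finset.prod_const]
      exact Finset.prod_le_prod' fun q hq => (hprime q hq).1.two_le
    exact_mod_cast this
  -- bound for each term
  have hterm : ∀ J ∈ B.powerset.erase ∅,
      ((∏ q ∈ J, q : ℕ) : ℝ) ^ 3 * (collisions A (∏ q ∈ J, q) : ℝ) ^ 4
        ≤ 8 * (P : ℝ) ^ 3 * a ^ 4 + 648 * a ^ 8 * (((2 : ℝ) ^ (4 * y))⁻¹) ^ J.card := by
    intro J hJ
    have hJB : J ⊆ B := Finset.mem_powerset.mp (Finset.mem_of_mem_erase hJ)
    set p : ℕ := ∏ q ∈ J, q with hp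
    set c : ℝ := (collisions A p : ℝ) with hc
    have hc0 : 0 ≤ c := by rw [hc]; positivity
    have hp0 : (0 : ℝ) ≤ p := by positivity
    have hpP : (p : ℝ) ≤ P := by
      have : p ≤ P := by
        apply Nat.le_of_dvd hPpos
        exact Finset.prod_dvd_prod_of_subset _ _ _ hJB
      exact_mod_cast this
    have hpj : (p : ℝ) ≤ ((2 : ℝ) ^ (16 * y)) ^ J.card := by
      have : p ≤ (2 ^ (16 * y)) ^ J.card := by
        rw [← Finset.prod_const]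
        exact Finset.prod_le_prod' fun q hq => (hprime q (hJB hq)).2
      exact_mod_cast this
    set W : ℝ := ((2 : ℝ) ^ (13 * y)) ^ J.card with hW
    have hWpos : 0 < W := by positivity
    have hcW := hcoll J hJB
    rw [← hW] at hcW
    have hc1 : c ≤ a + 3 * a ^ 2 / W := by
      rw [← mul_le_mul_iff_right₀ hWpos]
      have : W * (a + 3 * a ^ 2 / W) = W * a + 3 * a ^ 2 := by field_simp
      rw [this]
      exact hcW
    have hc2 : c ^ 4 ≤ 8 * a ^ 4 + 648 * a ^ 8 / W ^ 4 := by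
      have hx : 0 ≤ 3 * a ^ 2 / W := by positivity
      have h3 : c ^ 4 ≤ (a + 3 * a ^ 2 / W) ^ 4 := by gcongr
      have h4 : ∀ u v : ℝ, 0 ≤ u → 0 ≤ v → (u + v) ^ 4 ≤ 8 * (u ^ 4 + v ^ 4) := by
        intro u v hu hv
        nlinarith [sq_nonneg (u - v), sq_nonneg (u + v), mul_nonneg hu hv, sq_nonneg (u ^ 2 - v ^ 2),
          mul_nonneg (mul_nonneg hu hv) (sq_nonneg (u - v))]
      have h5 := h4 a (3 * a ^ 2 / W) ha0.le hx
      have h6 : (3 * a ^ 2 / W) ^ 4 = 81 * a ^ 8 / W ^ 4 := by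
        field_simp
        ring
      rw [h6] at h5
      calc c ^ 4 ≤ _ := h3
        _ ≤ _ := h5
        _ = _ := by ring
    have hp3 : (p : ℝ) ^ 3 * (1 / W ^ 4) ≤ (((2 : ℝ) ^ (4 * y))⁻¹) ^ J.card := by
      have h7 : (p : ℝ) ^ 3 ≤ (((2 : ℝ) ^ (16 * y)) ^ J.card) ^ 3 := by gcongr
      have h8 : (((2 : ℝ) ^ (16 * y)) ^ J.card) ^ 3 * (1 / W ^ 4) = (((2 : ℝ) ^ (4 * y))⁻¹) ^ J.card := by
        rw [hW]
        have e1 : (((2 : ℝ) ^ (16 * y)) ^ J.card) ^ 3 = 2 ^ (48 * y * J.card) := by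
          rw [← pow_mul, ← pow_mul]; congr 1; ring
        have e2 : (((2 : ℝ) ^ (13 * y)) ^ J.card) ^ 4 = 2 ^ (48 * y * J.card) * 2 ^ (4 * y * J.card) := by
          rw [← pow_mul, ← pow_mul, ← pow_add]; congr 1; ring
        have e3 : (((2 : ℝ) ^ (4 * y))⁻¹) ^ J.card = (2 ^ (4 * y * J.card))⁻¹ := by
          rw [inv_pow, ← pow_mul]
        rw [e1, e2, e3]
        field_simp
      calc (p : ℝ) ^ 3 * (1 / W ^ 4) ≤ (((2 : ℝ) ^ (16 * y)) ^ J.card) ^ 3 * (1 / W ^ 4) := by gcongr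
        _ = _ := h8
    have hp3' : (p : ℝ) ^ 3 ≤ (P : ℝ) ^ 3 := by gcongr
    calc (p : ℝ) ^ 3 * c ^ 4 ≤ (p : ℝ) ^ 3 * (8 * a ^ 4 + 648 * a ^ 8 / W ^ 4) := by gcongr
      _ = 8 * (p : ℝ) ^ 3 * a ^ 4 + 648 * a ^ 8 * ((p : ℝ) ^ 3 * (1 / W ^ 4)) := by
          field_simp
      _ ≤ 8 * (P : ℝ) ^ 3 * a ^ 4 + 648 * a ^ 8 * (((2 : ℝ) ^ (4 * y))⁻¹) ^ J.card := by
          gcongr
  refine lt_of_le_of_lt (Finset.sum_le_sum hterm) ?_
  rw [Finset.sum_add_distrib, Finset.sum_const, nsmul_eq_mul, ← Finset.mul_sum,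
    sum_powerset_erase_pow]
  set ρ : ℝ := ((2 : ℝ) ^ (4 * y))⁻¹ with hρ
  have hρ0 : 0 ≤ ρ := by rw [hρ]; positivity
  have hMR : (B.card : ℝ) ≤ 2 ^ y := by exact_mod_cast hM
  have h2y : (32 : ℝ) ≤ 2 ^ y := by
    calc (32 : ℝ) = 2 ^ 5 := by norm_num
      _ ≤ 2 ^ y := pow_le_pow_right₀ (by norm_num) hy
  have hρe : (B.card : ℝ) * ρ * (2 ^ y) ^ 3 ≤ 1 := by
    have e : ρ * ((2 : ℝ) ^ y) ^ 3 * (2 : ℝ) ^ y = 1 := by
      rw [hρ]
      have : ((2 : ℝ) ^ y) ^ 3 * (2 : ℝ) ^ y = 2 ^ (4 * y) := by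
        rw [← pow_mul, ← pow_add]; congr 1; ring
      field_simp
      rw [← this]
      ring
    have h2ypos : (0 : ℝ) < 2 ^ y := by positivity
    have e2 : (B.card : ℝ) * ρ * (2 ^ y) ^ 3 ≤ (2 ^ y) * ρ * (2 ^ y) ^ 3 := by gcongr
    calc (B.card : ℝ) * ρ * (2 ^ y) ^ 3 ≤ (2 ^ y) * ρ * (2 ^ y) ^ 3 := e2
      _ = ρ * ((2 : ℝ) ^ y) ^ 3 * (2 : ℝ) ^ y := by ring
      _ = 1 := e
  have h2y3 : (32768 : ℝ) ≤ (2 ^ y) ^ 3 := by
    calc (32768 : ℝ) = 32 ^ 3 := by norm_num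
      _ ≤ (2 ^ y) ^ 3 := by gcongr
  have hMρ : (B.card : ℝ) * ρ ≤ 1 / 32768 := by
    have h0 : 0 ≤ (B.card : ℝ) * ρ := by positivity
    have : (B.card : ℝ) * ρ * 32768 ≤ 1 := by
      calc (B.card : ℝ) * ρ * 32768 ≤ (B.card : ℝ) * ρ * (2 ^ y) ^ 3 := by gcongr
        _ ≤ 1 := hρe
    linarith
  have hpow := one_add_pow_le hρ0 (M := B.card) (by linarith) B.card le_rfl
  have hsum2 : 648 * a ^ 8 * ((1 + ρ) ^ B.card - 1) ≤ a ^ 8 / 4 := by
    have h1 : (1 + ρ) ^ B.card - 1 ≤ 2 * (B.card : ℝ) * ρ := by linarith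
    have h2 : 2 * (B.card : ℝ) * ρ ≤ 1 / 16384 := by linarith
    have h3 : 0 ≤ a ^ 8 := by positivity
    nlinarith
  have hcardJ : (((B.powerset.erase ∅).card : ℕ) : ℝ) ≤ P := by
    have h1 : (B.powerset.erase ∅).card ≤ 2 ^ B.card := by
      calc _ ≤ B.powerset.card := Finset.card_le_card (Finset.erase_subset _ _)
        _ = 2 ^ B.card := Finset.card_powerset B
    have h2 : (((B.powerset.erase ∅).card : ℕ) : ℝ) ≤ (2 : ℝ) ^ B.card := by exact_mod_cast h1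
    linarith
  have hsum1 : (((B.powerset.erase ∅).card : ℕ) : ℝ) * (8 * (P : ℝ) ^ 3 * a ^ 4) ≤ 8 * a ^ 6 := by
    have hP4 : (P : ℝ) ^ 4 ≤ a ^ 2 := by
      calc (P : ℝ) ^ 4 = ((P : ℝ) ^ 2) ^ 2 := by ring
        _ ≤ a ^ 2 := by gcongr
    calc (((B.powerset.erase ∅).card : ℕ) : ℝ) * (8 * (P : ℝ) ^ 3 * a ^ 4)
        ≤ (P : ℝ) * (8 * (P : ℝ) ^ 3 * a ^ 4) := by gcongr
      _ = 8 * (P : ℝ) ^ 4 * a ^ 4 := by ring
      _ ≤ 8 * a ^ 2 * a ^ 4 := by gcongr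
      _ = 8 * a ^ 6 := by ring
  have ha8 : 8 * a ^ 6 ≤ a ^ 8 / 4 := by
    have h1 : 36 ≤ a ^ 2 := by nlinarith
    have h2 : 0 < a ^ 6 := by positivity
    have : a ^ 8 = a ^ 2 * a ^ 6 := by ring
    rw [this]
    nlinarith
  have ha8pos : 0 < a ^ 8 := by positivity
  linarith

/-- Every `m < R` is a sum of at most `k` distinct divisors of `N`. -/
def Rep (N R k : ℕ) : Prop :=
  ∀ m < R, ∃ S : Finset ℕ, (∀ d ∈ S, d ∣ N) ∧ S.card ≤ k ∧ ∑ d ∈ S, d = m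

lemma rep_step {N R k t P : ℕ} (hrep : Rep N R k) (hP : 2 ≤ P) (hcop : Nat.Coprime N P)
    (hcover : ∀ r : ℕ, ∃ S : Finset ℕ, (∀ d ∈ S, d ∣ N) ∧ S.card ≤ t ∧ ∑ d ∈ S, d ≤ R ∧
      ((∑ d ∈ S, d : ℕ) : ZMod P) = (r : ZMod P)) :
    Rep (N * P) (R * P) (k + t) := by
  intro m hm
  by_cases hmR : m < R
  · obtain ⟨S, hS, hc, hs⟩ := hrep m hmR
    exact ⟨S, fun d hd => (hS d hd).mul_right P, by omega, hs⟩
  · obtain ⟨S, hS, hc, hle, hcong⟩ := hcover m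
    have hRm : ∑ d ∈ S, d ≤ m := by omega
    have hdvd : P ∣ m - ∑ d ∈ S, d := by
      have := (ZMod.natCast_eq_natCast_iff _ _ _).mp hcong
      exact (Nat.modEq_iff_dvd' hRm).mp this
    obtain ⟨m', hm'⟩ := hdvd
    have hPpos : 0 < P := by omega
    have hm'R : m' < R := by
      have h1 : P * m' < R * P := by
        calc P * m' = m - ∑ d ∈ S, d := hm'.symm
          _ ≤ m := Nat.sub_le _ _
          _ < R * P := hm
      rw [mul_comm] at h1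
      exact Nat.lt_of_mul_lt_mul_right h1
    obtain ⟨S', hS', hc', hs'⟩ := hrep m' hm'R
    classical
    refine ⟨S ∪ S'.image (fun d => P * d), ?_, ?_, ?_⟩
    · intro d hd
      rcases Finset.mem_union.mp hd with hd | hd
      · exact (hS d hd).mul_right P
      · obtain ⟨e, he, rfl⟩ := Finset.mem_image.mp hd
        rw [mul_comm]
        exact Nat.mul_dvd_mul_right (hS' e he) P
    · calc (S ∪ S'.image (fun d => P * d)).card ≤ S.card + (S'.image (fun d => P * d)).card :=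
            Finset.card_union_le _ _
        _ ≤ S.card + S'.card := Nat.add_le_add_left Finset.card_image_le _
        _ ≤ k + t := by omega
    · have hdisj : Disjoint S (S'.image (fun d => P * d)) := by
        rw [Finset.disjoint_left]
        intro d hd hd'
        obtain ⟨e, he, rfl⟩ := Finset.mem_image.mp hd'
        have h1 : P ∣ N := (Dvd.intro e rfl).trans (hS _ hd)
        have h2 : Nat.Coprime P P := Nat.Coprime.coprime_dvd_left h1 hcop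
        have h3 : P = 1 := by simpa using h2
        omega
      rw [Finset.sum_union hdisj, Finset.sum_image (by
        intro x _ y _ hxy
        exact Nat.eq_of_mul_eq_mul_left hPpos hxy), ← Finset.mul_sum, hs', ← hm']
      omega

/-- One level of the construction: a batch of `M` new primes multiplies the range `R`
by their product at the cost of four more divisors. -/
theorem level_step {N R k y W M : ℕ} {A pool : Finset ℕ} (hrep : Rep N R k) (hy : 5 ≤ y)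
    (hpool : ∀ q ∈ pool, q.Prime ∧ 2 ^ (8 * y) ≤ q ∧ q ≤ 2 ^ (16 * y))
    (hpoolc : 2 ^ (15 * y + 1) ≤ pool.card)
    (hA : ∀ a ∈ A, a < (2 ^ (8 * y)) ^ (W + 1)) (hW : W ≤ 2 ^ y)
    (hM1 : 1 ≤ M) (hM : M ≤ 2 ^ y) (hcard : 2 ^ (32 * y * M) ≤ A.card) (hA6 : 6 ≤ A.card)
    (s : Fin 4 → ℕ) (hsp : ∀ i, (s i).Prime) (hsinj : Function.Injective s)
    (hsq : ∀ i, ∀ q ∈ pool, ¬ q ∣ s i) (hsa : ∀ a ∈ A, ∀ i, ¬ s i ∣ a)
    (hdiv : ∀ a ∈ A, ∀ b ∈ A, ∀ i, s i * a * b ∣ N)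
    (hsize : ∀ a ∈ A, ∀ b ∈ A, ∀ i, 4 * (s i * a * b) ≤ R)
    (hcop : ∀ q ∈ pool, Nat.Coprime N q) :
    ∃ B ⊆ pool, B.card = M ∧ Rep (N * ∏ q ∈ B, q) (R * ∏ q ∈ B, q) (k + 4) := by
  classical
  have hQ2 : 2 ≤ 2 ^ (8 * y) := by
    calc 2 = 2 ^ 1 := by norm_num
      _ ≤ 2 ^ (8 * y) := Nat.pow_le_pow_right (by norm_num) (by omega)
  have h15 : (2 : ℕ) ^ (15 * y + 1) = 2 * 2 ^ (13 * y) * 2 ^ y * 2 ^ y := by
    rw [show 15 * y + 1 = 1 + 13 * y + y + y by ring, pow_add, pow_add, pow_add, pow_one]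
  have hwM : 2 * ((2 : ℝ) ^ (13 * y)) * W * M ≤ pool.card := by
    have h1 : 2 * 2 ^ (13 * y) * W * M ≤ pool.card := by
      refine le_trans ?_ hpoolc
      rw [h15]
      gcongr
    exact_mod_cast h1
  have hM2 : 2 * M ≤ pool.card := by
    refine le_trans ?_ hpoolc
    have : 2 ^ y ≤ 2 ^ (15 * y) := Nat.pow_le_pow_right (by norm_num) (by omega)
    rw [pow_succ]
    omega
  obtain ⟨B, hB, hBc, hgood⟩ := exists_good_batch A pool (Q := 2 ^ (8 * y)) (W := W) (M := M)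
    (w := (2 : ℝ) ^ (13 * y)) (by positivity) hQ2 (fun q hq => ⟨(hpool q hq).1, (hpool q hq).2.1⟩)
    hA hM2 hwM
  refine ⟨B, hB, hBc, ?_⟩
  have hhyp := covering_hyp (A := A) (B := B) hy (fun q hq => ⟨(hpool q (hB hq)).1, (hpool q (hB hq)).2.2⟩)
    (by omega) (by rw [hBc]; exact hcard) hA6 hgood
  have hcov := covering (Q := B) (fun q hq => (hpool q (hB hq)).1) A s
    (fun i q hq => hsq i q (hB hq)) hhyp
  have hP2 : 2 ≤ ∏ q ∈ B, q := by
    have h1 : 2 ^ B.card ≤ ∏ q ∈ B, q := by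
      rw [← Finset.prod_const]
      exact Finset.prod_le_prod' fun q hq => (hpool q (hB hq)).1.two_le
    have h2 : 2 ^ 1 ≤ 2 ^ B.card := Nat.pow_le_pow_right (by norm_num) (by omega)
    omega
  apply rep_step hrep hP2
  · exact Nat.Coprime.prod_right fun q hq => hcop q (hB hq)
  · intro r
    obtain ⟨f, hf, hcong⟩ := hcov r
    have hfmem : ∀ i, (f i).1 ∈ A ∧ (f i).2 ∈ A := fun i => Finset.mem_product.mp (hf i)
    set d : Fin 4 → ℕ := fun i => s i * (f i).1 * (f i).2 with hd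
    have hdinj : Function.Injective d := by
      intro i j hij
      by_contra hne
      have h1 : s i ∣ d j := by
        rw [← hij]
        exact ⟨(f i).1 * (f i).2, by simp [hd, mul_assoc]⟩
      have h2 : s i ∣ s j * (f j).1 * (f j).2 := h1
      rcases (Nat.Prime.dvd_mul (hsp i)).mp h2 with h3 | h3
      · rcases (Nat.Prime.dvd_mul (hsp i)).mp h3 with h4 | h4
        · have := (Nat.prime_dvd_prime_iff_eq (hsp i) (hsp j)).mp h4
          exact hne (hsinj this)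
        · exact hsa _ (hfmem j).1 i h4
      · exact hsa _ (hfmem j).2 i h3
    refine ⟨Finset.univ.image d, ?_, ?_, ?_, ?_⟩
    · intro e he
      obtain ⟨i, _, rfl⟩ := Finset.mem_image.mp he
      exact hdiv _ (hfmem i).1 _ (hfmem i).2 i
    · exact Finset.card_image_le.trans (by simp)
    · rw [Finset.sum_image (fun x _ y _ h => hdinj h)]
      have h4 : ∀ i ∈ (Finset.univ : Finset (Fin 4)), 4 * d i ≤ R := fun i _ =>
        hsize _ (hfmem i).1 _ (hfmem i).2 i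
      have h5 : ∑ i, 4 * d i ≤ ∑ _i : Fin 4, R := Finset.sum_le_sum h4
      simp only [Finset.sum_const, Finset.card_univ, Fintype.card_fin, smul_eq_mul] at h5
      rw [← Finset.mul_sum] at h5
      omega
    · rw [Finset.sum_image (fun x _ y _ h => hdinj h)]
      exact hcong

end Vale.Agent.Lib.P012
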