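import Vale.Agent.Lib.P012.MExpand

open Finset

namespace Vale.Agent.Lib.P012.M

/-- The Sylvester-type growth sequence. -/
def sylv : ℕ → ℕ
  | 0 => 1
  | n + 1 => sylv n * (sylv n + 1)

lemma sylv_pos (n : ℕ) : 0 < sylv n := by
  induction n with
  | zero => simp [sylv]
  | succ n ih => simp only [sylv]; positivity

lemma sylv_ge (n : ℕ) : 2 ^ 2 ^ n ≤ sylv (n + 1) := by
  induction n with
  | zero => simp [sylv]
  | succ n ih =>
    have h1 : sylv (n + 2) = sylv (n + 1) * (sylv (n + 1) + 1) := rfl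
    rw [h1, pow_succ 2 n, pow_mul]
    calc (2 ^ 2 ^ n) ^ 2 = 2 ^ 2 ^ n * 2 ^ 2 ^ n := by ring
      _ ≤ sylv (n + 1) * (sylv (n + 1) + 1) := Nat.mul_le_mul ih (by omega)

/-- The greedy algorithm, with numerators kept below `b`. -/
lemma greedy (b Z : ℕ) (hb : 0 < b) (n : ℕ) :
    ∀ (i a p : ℕ), Z ≤ sylv (i + n) → a < b → sylv i ≤ p →
    ∃ (S : Finset ℕ) (a' p' : ℕ), a' < b ∧ p ≤ p' ∧ p' ≤ max p (Z * Z) ∧ S.card ≤ n ∧
      (∀ e ∈ S, p < e ∧ e ≤ p') ∧ a' * Z < b * p' ∧
      ∑ e ∈ S, (1 : ℚ) / e + (a' : ℚ) / ((b : ℚ) * p') = (a : ℚ) / ((b : ℚ) * p) := by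
  induction n with
  | zero =>
    intro i a p hZi ha hp
    have hZp : Z ≤ p := hZi.trans hp
    have hppos : 0 < p := (sylv_pos i).trans_le hp
    refine ⟨∅, a, p, ha, le_rfl, le_max_left _ _, by simp, by simp, ?_, by simp⟩
    calc a * Z ≤ a * p := Nat.mul_le_mul_left _ hZp
      _ < b * p := Nat.mul_lt_mul_of_pos_right ha hppos
  | succ n ih =>
    intro i a p hZi ha hp
    have hppos : 0 < p := (sylv_pos i).trans_le hp
    by_cases hstop : a * Z < b * p
    · exact ⟨∅, a, p, ha, le_rfl, le_max_left _ _, by simp, by simp, hstop, by simp⟩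
    · have hge : b * p ≤ a * Z := by omega
      have ha0 : 0 < a := by
        rcases Nat.eq_zero_or_pos a with h | h
        · subst h
          have : 0 < b * p := Nat.mul_pos hb hppos
          omega
        · exact h
      -- the greedy denominator
      obtain ⟨e, he1, he2⟩ : ∃ e, b * p ≤ a * e ∧ a * e < b * p + a := by
        refine ⟨(b * p + a - 1) / a, ?_, ?_⟩
        · have h1 := Nat.lt_mul_div_succ (b * p + a - 1) ha0
          have h2 : b * p + a - 1 < a * ((b * p + a - 1) / a) + a := by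
            calc _ < a * ((b * p + a - 1) / a + 1) := h1
              _ = _ := by ring
          omega
        · have h1 := Nat.mul_div_le (b * p + a - 1) a
          omega
      have hep : p < e := by
        by_contra hcon
        have h1 : e ≤ p := by omega
        have h2 : a * e ≤ a * p := Nat.mul_le_mul_left _ h1
        have h3 : a * p < b * p := Nat.mul_lt_mul_of_pos_right ha hppos
        omega
      have heZ : e ≤ Z := by
        by_contra hcon
        have h1 : Z + 1 ≤ e := by omega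
        have h2 : a * (Z + 1) ≤ a * e := Nat.mul_le_mul_left _ h1
        have h3 : a * (Z + 1) = a * Z + a := by ring
        omega
      set a2 := a * e - b * p with ha2
      have ha2lt : a2 < a := by omega
      have he0 : 0 < e := by omega
      have hp2 : sylv (i + 1) ≤ p * e := by
        have : sylv (i + 1) = sylv i * (sylv i + 1) := rfl
        rw [this]
        exact Nat.mul_le_mul hp (by omega)
      have hZi' : Z ≤ sylv (i + 1 + n) := by
        have : i + 1 + n = i + (n + 1) := by ring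
        rw [this]; exact hZi
      obtain ⟨S, a', p', h1, h2, h3, h4, h5, h6, h7⟩ :=
        ih (i + 1) a2 (p * e) hZi' (by omega) hp2
      have heS : e ∉ S := by
        intro hmem
        have h8 := (h5 e hmem).1
        have h9 : e ≤ p * e := Nat.le_mul_of_pos_left _ hppos
        omega
      have hpeZ : p * e ≤ Z * Z := by
        have h8 : p < Z := by omega
        exact Nat.mul_le_mul h8.le heZ
      refine ⟨insert e S, a', p', h1, ?_, ?_, ?_, ?_, h6, ?_⟩
      · have : p ≤ p * e := Nat.le_mul_of_pos_right _ he0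
        omega
      · refine h3.trans (max_le ?_ (le_max_right _ _))
        exact hpeZ.trans (le_max_right _ _)
      · rw [Finset.card_insert_of_notMem heS]; omega
      · intro e' he'
        rcases Finset.mem_insert.mp he' with rfl | he'
        · refine ⟨hep, ?_⟩
          have h8 : e' ≤ p * e' := Nat.le_mul_of_pos_left _ hppos
          omega
        · have h8 := h5 e' he'
          have h9 : p ≤ p * e := Nat.le_mul_of_pos_right _ he0
          exact ⟨by omega, h8.2⟩
      · rw [Finset.sum_insert heS]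
        have hbq : (b : ℚ) ≠ 0 := by positivity
        have hpq : (p : ℚ) ≠ 0 := by positivity
        have heq : (e : ℚ) ≠ 0 := by positivity
        have ha2q : (a2 : ℚ) = (a : ℚ) * e - (b : ℚ) * p := by
          rw [ha2, Nat.cast_sub he1]
          push_cast
          ring
        have h8 : ∑ e ∈ S, (1 : ℚ) / e + (a' : ℚ) / ((b : ℚ) * p')
            = (a2 : ℚ) / ((b : ℚ) * ((p * e : ℕ) : ℚ)) := h7
        rw [add_assoc, h8, ha2q]
        push_cast
        field_simp
        ring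


/-- Assembling the greedy part and the two expansions. -/
theorem assemble {Z Θ K L L' g a b : ℕ} (hZo : Odd Z) (hZ841 : ¬ 841 ∣ Z)
    (hexp : ∀ D w x, Z ∣ D → Odd D → Odd x → Θ ≤ x → x < 2 ^ w → w ≤ 2 * L + L' →
      ∃ T : Finset ℕ, (∀ t ∈ T, ∃ u ≤ w, Form Z D u t) ∧ T.card ≤ K ∧
        ∑ t ∈ T, (1 : ℚ) / t = (x : ℚ) / (2 ^ w * D))
    (hL : b * (Z * Z) ≤ 2 ^ L) (hL' : 841 * (2 * Θ + 3) ≤ 2 ^ L')
    (hg : Z ≤ sylv g) (ha1 : 1 ≤ a) (hab : a < b) :
    ∃ T : Finset ℕ, (∀ t ∈ T, 2 ≤ t) ∧ T.card ≤ g + 2 * K ∧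
      ∑ t ∈ T, (1 : ℚ) / t = (a : ℚ) / b := by
  classical
  have hb : 0 < b := by omega
  have hZpos : 0 < Z := hZo.pos
  obtain ⟨S, a', p', h1, h2, h3, h4, h5, h6, h7⟩ := greedy b Z hb g 0 a 1
    (by simpa using hg) hab (by simp [sylv])
  have hp'pos : 0 < p' := by omega
  have hp'le : p' ≤ Z * Z := h3.trans (max_le (Nat.mul_pos hZpos hZpos) le_rfl)
  have h7' : ∑ e ∈ S, (1 : ℚ) / e + (a' : ℚ) / ((b : ℚ) * p') = (a : ℚ) / b := by
    rw [h7]
    simp
  by_cases ha'0 : a' = 0
  · subst ha'0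
    refine ⟨S, fun t ht => by have := (h5 t ht).1; omega, by omega, ?_⟩
    simpa using h7'
  have ha'pos : 0 < a' := Nat.pos_of_ne_zero ha'0
  set b' := b * p' with hb'
  have hb'pos : 0 < b' := Nat.mul_pos hb hp'pos
  have hb'le : b' ≤ 2 ^ L := (Nat.mul_le_mul_left _ hp'le).trans hL
  obtain ⟨e', b'', hb''odd, hb''⟩ := Nat.exists_eq_two_pow_mul_odd hb'pos.ne'
  have hb''pos : 0 < b'' := hb''odd.pos
  have he'L : e' ≤ L := by
    have h8 : 2 ^ e' ≤ 2 ^ L := by
      refine le_trans ?_ hb'le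
      rw [hb'']
      exact Nat.le_mul_of_pos_right _ hb''pos
    exact (Nat.pow_le_pow_iff_right (by norm_num)).mp h8
  have hb''le : b'' ≤ b' := by
    rw [hb'']
    exact Nat.le_mul_of_pos_left _ (by positivity)
  set w := L + L' with hw
  have hLpos : 1 ≤ L' := by
    by_contra hcon
    have : L' = 0 := by omega
    subst this
    simp at hL'
    omega
  have hpow : 841 * (2 * Θ + 3) * b' ≤ 2 ^ w := by
    rw [hw, pow_add, mul_comm]
    exact Nat.mul_le_mul hb'le hL'
  set A := a' * Z * 2 ^ w with hA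
  set q := A / b'' with hq
  set r := A % b'' with hr
  have hqr : q * b'' + r = A := by
    rw [hq, hr, mul_comm]
    exact Nat.div_add_mod _ _
  have hrlt : r < b'' := Nat.mod_lt _ hb''pos
  have hAge : 2 ^ w ≤ A := by
    rw [hA]
    exact Nat.le_mul_of_pos_left _ (Nat.mul_pos ha'pos hZpos)
  have hqge : 2 * Θ + 2 ≤ q := by
    by_contra hcon
    have h8 : q + 1 ≤ 2 * Θ + 2 := by omega
    have h9 : A < (2 * Θ + 3) * b'' := by
      calc A = q * b'' + r := hqr.symm
        _ < q * b'' + b'' := by omega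
        _ = (q + 1) * b'' := by ring
        _ ≤ (2 * Θ + 2) * b'' := Nat.mul_le_mul_right _ h8
        _ ≤ (2 * Θ + 3) * b'' := Nat.mul_le_mul_right _ (by omega)
    have h10 : (2 * Θ + 3) * b'' ≤ 841 * (2 * Θ + 3) * b' := by
      calc (2 * Θ + 3) * b'' ≤ (2 * Θ + 3) * b' := Nat.mul_le_mul_left _ hb''le
        _ ≤ 841 * ((2 * Θ + 3) * b') := Nat.le_mul_of_pos_left _ (by norm_num)
        _ = _ := by ring
    omega
  obtain ⟨t₁, ht₁a, ht₁b, ht₁odd⟩ : ∃ t₁, Θ ≤ t₁ ∧ t₁ ≤ Θ + 1 ∧ Odd (q - t₁) := by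
    rcases Nat.even_or_odd (q - Θ) with he | ho
    · refine ⟨Θ + 1, by omega, le_rfl, ?_⟩
      rw [Nat.odd_iff]
      rw [Nat.even_iff] at he
      omega
    · exact ⟨Θ, le_rfl, by omega, ho⟩
  set q' := q - t₁ with hq'
  set r' := r + t₁ * b'' with hr'
  have hq'r' : q' * b'' + r' = A := by
    have h8 : q' * b'' + t₁ * b'' = q * b'' := by
      rw [← add_mul, hq', Nat.sub_add_cancel (by omega)]
    rw [hr', ← hqr]
    omega
  have hwpos : 1 ≤ w := by omega
  have hAeven : Even A := by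
    rw [hA, Nat.even_mul]
    right
    rw [Nat.even_pow]
    exact ⟨even_two, by omega⟩
  have hr'odd : Odd r' := by
    have h8 : Odd (q' * b'') := ht₁odd.mul hb''odd
    rw [← hq'r'] at hAeven
    rcases Nat.even_or_odd r' with he | ho
    · exact absurd (h8.add_even he) (Nat.not_odd_iff_even.mpr hAeven)
    · exact ho
  have hr'ge : Θ ≤ r' := by
    have h8 : t₁ ≤ t₁ * b'' := Nat.le_mul_of_pos_right _ hb''pos
    omega
  have hr'lt : r' < (Θ + 2) * b'' := by
    have h8 : t₁ * b'' ≤ (Θ + 1) * b'' := Nat.mul_le_mul_right _ ht₁b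
    have h9 : (Θ + 2) * b'' = (Θ + 1) * b'' + b'' := by ring
    omega
  set w₀ := w + e' with hw₀
  have hw₀le : w₀ ≤ 2 * L + L' := by omega
  have hpoww₀ : (2 : ℕ) ^ w ≤ 2 ^ w₀ := Nat.pow_le_pow_right (by norm_num) (by omega)
  have hx2lt : 841 * r' < 2 ^ w₀ := by
    have h8 : 841 * r' < 841 * ((Θ + 2) * b'') := Nat.mul_lt_mul_of_pos_left hr'lt (by norm_num)
    have h9 : 841 * ((Θ + 2) * b'') ≤ 841 * (2 * Θ + 3) * b' := by
      calc 841 * ((Θ + 2) * b'') ≤ 841 * ((2 * Θ + 3) * b') :=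
            Nat.mul_le_mul_left _ (Nat.mul_le_mul (by omega) hb''le)
        _ = _ := by ring
    omega
  have hx1lt : q' < 2 ^ w₀ := by
    have h8 : q * b'' ≤ A := by omega
    have h9 : A < 2 ^ w₀ * b'' := by
      have h10 : 2 ^ w₀ * b'' = b' * 2 ^ w := by
        rw [hb'', hw₀, pow_add]
        ring
      rw [h10, hA]
      exact Nat.mul_lt_mul_of_pos_right h6 (by positivity)
    have h10 : q < 2 ^ w₀ := Nat.lt_of_mul_lt_mul_right (lt_of_le_of_lt h8 h9)
    omega
  obtain ⟨Tq, hq1, hq2, hq3⟩ := hexp Z w₀ q' dvd_rfl hZo ht₁odd (by omega) hx1lt hw₀le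
  have hD2 : Odd (841 * b'' * Z) := ((by decide : Odd 841).mul hb''odd).mul hZo
  obtain ⟨Tr, hr1, hr2, hr3⟩ := hexp (841 * b'' * Z) w₀ (841 * r') (Dvd.intro_left _ rfl) hD2
    ((by decide : Odd 841).mul hr'odd) (by omega) hx2lt hw₀le
  -- the second part has the same size
  have hZq : (Z : ℚ) ≠ 0 := by positivity
  have hb''q : (b'' : ℚ) ≠ 0 := by positivity
  have hid : (q' : ℚ) / (2 ^ w₀ * Z) + ((841 * r' : ℕ) : ℚ) / (2 ^ w₀ * ((841 * b'' * Z : ℕ) : ℚ))
      = (a' : ℚ) / ((b : ℚ) * p') := by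
    have h8 : ((q' : ℚ)) * b'' + r' = a' * Z * 2 ^ w := by exact_mod_cast hq'r'
    have h9 : ((b : ℚ) * p') = 2 ^ e' * b'' := by exact_mod_cast hb''
    rw [h9, hw₀, pow_add]
    push_cast
    field_simp
    linear_combination (1 : ℚ) * h8
  have hdisjqr : Disjoint Tq Tr := by
    rw [Finset.disjoint_left]
    intro t ht ht'
    obtain ⟨u, -, k, N, hN, hte, -, hk⟩ := hq1 t ht
    obtain ⟨u', -, k', N', hN', hte', -, -⟩ := hr1 t ht'
    have h8 : 841 ∣ t := by
      rw [hte']
      have h9 : 841 * b'' * Z / N' = 841 * b'' * (Z / N') := Nat.mul_div_assoc _ hN'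
      rw [h9]
      exact Dvd.dvd.mul_left (Dvd.dvd.mul_left (Dvd.intro _ (by rw [mul_assoc])) _) _
    rw [hte] at h8
    have h9 : Nat.Coprime 841 (2 ^ u) := Nat.Coprime.pow_right _ (by norm_num)
    have h10 : Nat.Coprime 841 k := by
      have : (841 : ℕ) = 29 ^ 2 := by norm_num
      rw [this]
      exact Nat.Coprime.pow_left _ hk.symm
    have h11 : 841 ∣ k * (Z / N) := h9.dvd_of_dvd_mul_left h8
    have h12 : 841 ∣ Z / N := h10.dvd_of_dvd_mul_left h11
    exact hZ841 (h12.trans (Nat.div_dvd_of_dvd hN))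
  have hsumall : ∑ t ∈ Tq ∪ Tr, (1 : ℚ) / t = (a' : ℚ) / ((b : ℚ) * p') := by
    rw [Finset.sum_union hdisjqr, hq3, hr3, hid]
  have htpos : ∀ t ∈ Tq ∪ Tr, 0 < t := by
    intro t ht
    rcases Finset.mem_union.mp ht with ht | ht
    · obtain ⟨u, -, k, N, -, hte, ho, -⟩ := hq1 t ht
      rw [hte]
      exact Nat.mul_pos (by positivity) ho.pos
    · obtain ⟨u, -, k, N, -, hte, ho, -⟩ := hr1 t ht
      rw [hte]
      exact Nat.mul_pos (by positivity) ho.pos
  have hbigt : ∀ t ∈ Tq ∪ Tr, p' < t := by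
    intro t ht
    have h8 : (1 : ℚ) / t ≤ (a' : ℚ) / ((b : ℚ) * p') := by
      rw [← hsumall]
      exact Finset.single_le_sum (f := fun t : ℕ => (1 : ℚ) / t) (fun _ _ => by positivity) ht
    by_contra hcon
    have h9 : t ≤ p' := by omega
    have hbq : (0 : ℚ) < b := by exact_mod_cast hb
    have hpq : (0 : ℚ) < p' := by exact_mod_cast hp'pos
    have h10 : (a' : ℚ) < b := by exact_mod_cast h1
    have h11 : (a' : ℚ) / ((b : ℚ) * p') < 1 / p' := by
      rw [div_lt_div_iff₀ (by positivity) hpq]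
      nlinarith
    have h12 : (1 : ℚ) / p' ≤ 1 / t := by
      apply one_div_le_one_div_of_le
      · exact_mod_cast htpos t ht
      · exact_mod_cast h9
    linarith
  have hdisjS : Disjoint S (Tq ∪ Tr) := by
    rw [Finset.disjoint_left]
    intro t ht ht'
    have h8 := (h5 t ht).2
    have h9 := hbigt t ht'
    omega
  refine ⟨S ∪ (Tq ∪ Tr), ?_, ?_, ?_⟩
  · intro t ht
    rcases Finset.mem_union.mp ht with ht | ht
    · have := (h5 t ht).1
      omega
    · have := hbigt t ht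
      omega
  · calc (S ∪ (Tq ∪ Tr)).card ≤ S.card + (Tq ∪ Tr).card := Finset.card_union_le _ _
      _ ≤ S.card + (Tq.card + Tr.card) := Nat.add_le_add_left (Finset.card_union_le _ _) _
      _ ≤ g + 2 * K := by omega
  · rw [Finset.sum_union hdisjS, hsumall]
    exact h7'

end Vale.Agent.Lib.P012.M
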