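import Vale.Agent.Lib.P012.MFiber

open Finset

namespace Vale.Agent.Lib.P012.M

lemma pow_two_le_mul_primeCounting' (m : ℕ) (hm : 1 ≤ m) :
    2 ^ m ≤ m * (Nat.primeCounting (2 ^ m) + 2) := by
  have h := Chebyshev.pi_ge (2 ^ m)
  have hlog2 : 0 < Real.log 2 := Real.log_pos (by norm_num)
  have hm' : (0 : ℝ) < m := by exact_mod_cast hm
  have hlogn : Real.log ((2 ^ m : ℕ) : ℝ) = m * Real.log 2 := by
    push_cast
    rw [Real.log_pow]
  rw [hlogn, div_le_iff₀ (by positivity)] at h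
  have h1 : Real.log (((2 ^ m : ℕ) : ℝ) + 1) ≤ (m + 1) * Real.log 2 := by
    have h2 : ((2 ^ m : ℕ) : ℝ) + 1 ≤ 2 ^ (m + 1) := by
      push_cast
      have : (1 : ℝ) ≤ 2 ^ m := one_le_pow₀ (by norm_num)
      rw [pow_succ]
      linarith
    calc Real.log (((2 ^ m : ℕ) : ℝ) + 1) ≤ Real.log (2 ^ (m + 1)) :=
          Real.log_le_log (by positivity) h2
      _ = (m + 1) * Real.log 2 := by rw [Real.log_pow]; push_cast; ring
  have h3 : ((2 ^ m : ℕ) : ℝ) * Real.log 2 ≤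
      ((Nat.primeCounting (2 ^ m) : ℝ) * m + m + 1) * Real.log 2 := by
    have h4 : ((Nat.primeCounting (2 ^ m) : ℝ) * m + m + 1) * Real.log 2
        = (Nat.primeCounting (2 ^ m) : ℝ) * (m * Real.log 2) + (m + 1) * Real.log 2 := by ring
    rw [h4]
    linarith
  have h5 : ((2 ^ m : ℕ) : ℝ) ≤ (Nat.primeCounting (2 ^ m) : ℝ) * m + m + 1 :=
    le_of_mul_le_mul_right h3 hlog2
  have h6 : 2 ^ m ≤ Nat.primeCounting (2 ^ m) * m + m + 1 := by exact_mod_cast h5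
  nlinarith

/-- `π(N)` is at most `L + 1 + #(primes in (L, N])`. -/
lemma primeCounting_le_pool (L N : ℕ) (hLN : L ≤ N) :
    Nat.primeCounting N ≤ L + 1 + ((Ioc L N).filter Nat.Prime).card := by
  rw [Nat.primeCounting, Nat.primeCounting', Nat.count_eq_card_filter_range]
  have hsub : (range (N + 1)).filter Nat.Prime ⊆ range (L + 1) ∪ (Ioc L N).filter Nat.Prime := by
    intro p hp
    rw [mem_filter, mem_range] at hp
    by_cases h : p ≤ L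
    · exact mem_union_left _ (mem_range.mpr (Nat.lt_succ_of_le h))
    · exact mem_union_right _ (mem_filter.mpr ⟨mem_Ioc.mpr ⟨by omega, by omega⟩, hp.2⟩)
  calc _ ≤ _ := card_le_card hsub
    _ ≤ _ := card_union_le _ _
    _ = _ := by rw [card_range]

lemma pool_card {ν : ℕ} (hν : 200 ≤ ν) :
    2 ^ (40 * ν) ≤ (Pool ν).card * (2 * (40 * ν)) := by
  set m := 40 * ν with hm
  have hm1 : 1 ≤ m := by omega
  have h1 := pow_two_le_mul_primeCounting' m hm1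
  have h2 := primeCounting_le_pool (2 ^ (20 * ν)) (2 ^ m)
    (Nat.pow_le_pow_right (by norm_num) (by omega))
  have h3 : (Ioc (2 ^ (20 * ν)) (2 ^ m)).filter Nat.Prime = Pool ν := rfl
  rw [h3] at h2
  set L := 2 ^ (20 * ν) with hL
  have hLL : 2 ^ m = L * L := by
    rw [hL, ← pow_add]; congr 1; omega
  have hLm : 4 * m ≤ L := by
    have h5 : ν < 2 ^ ν := Nat.lt_two_pow_self
    have h6 : 2 ^ (ν + 8) ≤ L := Nat.pow_le_pow_right (by norm_num) (by omega)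
    have h7 : 2 ^ (ν + 8) = 2 ^ ν * 256 := by rw [pow_add]; norm_num
    omega
  have hL1 : 3 ≤ L := by omega
  have h8 : 2 ^ m ≤ m * (L + 3 + (Pool ν).card) := by
    calc 2 ^ m ≤ m * (Nat.primeCounting (2 ^ m) + 2) := h1
      _ ≤ m * (L + 3 + (Pool ν).card) := Nat.mul_le_mul_left _ (by omega)
  have h9 : m * L * 4 ≤ L * L := by nlinarith
  have h10 : 2 ^ m * 1 ≤ (Pool ν).card * (2 * m) := by
    nlinarith
  omega

/-- Selection of the scale `k`. -/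
lemma exists_scale (e K d : ℕ) (hd1 : 1 < d) (hd : d ≤ 2 ^ (e * K)) :
    ∃ k, 1 ≤ k ∧ k ≤ K ∧ d ≤ 2 ^ (e * k) ∧ (k = 1 ∨ 2 ^ (e * (k - 1)) < d) := by
  classical
  have hex : ∃ k, d ≤ 2 ^ (e * k) := ⟨K, hd⟩
  refine ⟨Nat.find hex, ?_, Nat.find_min' hex hd, Nat.find_spec hex, ?_⟩
  · by_contra h
    have h0 : Nat.find hex = 0 := by omega
    have := Nat.find_spec hex
    rw [h0] at this
    simp at this
    omega
  · by_cases h : Nat.find hex = 1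
    · exact Or.inl h
    · right
      have h1 : Nat.find hex - 1 < Nat.find hex := by
        have : Nat.find hex ≠ 0 := by
          intro h0
          have := Nat.find_spec hex
          rw [h0] at this
          simp at this
          omega
        omega
      have := Nat.find_min hex h1
      omega

/-- The pointwise inequality behind the tail bound. -/
lemma scale_pointwise {ν : ℕ} (hν : 200 ≤ ν) {d k : ℕ} (hY : Ymax ν < d)
    (h1 : 1 ≤ k) (hk : k ≤ 2 ^ (ν - 5)) (hc : k = 1 ∨ 2 ^ (40 * ν * (k - 1)) < d) :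
    2 ^ 17 * (2 * (40 * ν) * k) ^ (8 * k) ≤ d := by
  by_cases hk1 : k = 1
  · subst hk1
    have : Ymax ν = 2 ^ 17 * (80 * ν) ^ 8 := rfl
    have h2 : (2 * (40 * ν) * 1) ^ (8 * 1) = (80 * ν) ^ 8 := by
      congr 1; ring
    rw [h2, ← this]
    exact hY.le
  · have hlt : 2 ^ (40 * ν * (k - 1)) < d := hc.resolve_left hk1
    have hk2 : 2 ≤ k := by omega
    have hb : 2 * (40 * ν) * k ≤ 2 ^ (2 * ν) := by
      have h3 : 2 * (40 * ν) * k ≤ 80 * ν * 2 ^ (ν - 5) := by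
        calc 2 * (40 * ν) * k = 80 * ν * k := by ring
          _ ≤ _ := Nat.mul_le_mul_left _ hk
      have h4 : 2 ^ (2 * ν) = 2 ^ (ν - 5) * 2 ^ (ν + 5) := by
        rw [← pow_add]; congr 1; omega
      have h5 : 80 * ν ≤ 2 ^ (ν + 5) := by
        have h6 : ν < 2 ^ ν := Nat.lt_two_pow_self
        have h7 : 2 ^ (ν + 5) = 2 ^ ν * 32 := by rw [pow_add]; norm_num
        have h8 : (ν - 2) < 2 ^ (ν - 2) := Nat.lt_two_pow_self
        have h9 : 2 ^ ν = 2 ^ (ν - 2) * 4 := by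
          rw [show (4 : ℕ) = 2 ^ 2 by norm_num, ← pow_add]; congr 1; omega
        omega
      rw [h4]
      calc _ ≤ 80 * ν * 2 ^ (ν - 5) := h3
        _ = 2 ^ (ν - 5) * (80 * ν) := by ring
        _ ≤ _ := Nat.mul_le_mul_left _ h5
    have hp : 2 ^ 17 * (2 * (40 * ν) * k) ^ (8 * k) ≤ 2 ^ (40 * ν * (k - 1)) := by
      calc 2 ^ 17 * (2 * (40 * ν) * k) ^ (8 * k)
          ≤ 2 ^ 17 * (2 ^ (2 * ν)) ^ (8 * k) :=
            Nat.mul_le_mul_left _ (Nat.pow_le_pow_left hb _)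
        _ = 2 ^ (17 + 2 * ν * (8 * k)) := by rw [← pow_mul, ← pow_add]
        _ ≤ _ := by
            apply Nat.pow_le_pow_right (by norm_num)
            obtain ⟨j, rfl⟩ : ∃ j, k = j + 2 := ⟨k - 2, by omega⟩
            simp only [Nat.add_sub_cancel, show j + 2 - 1 = j + 1 by omega]
            have : 17 ≤ ν * 8 := by omega
            nlinarith [Nat.zero_le (ν * j)]
    omega

lemma pow8_add_le {u v : ℝ} (hu : 0 ≤ u) (hv : 0 ≤ v) :
    (u + v) ^ 8 ≤ 256 * (u ^ 8 + v ^ 8) := by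
  rcases le_total u v with h | h
  · have h1 : (u + v) ^ 8 ≤ (2 * v) ^ 8 := pow_le_pow_left₀ (by positivity) (by linarith) _
    have h2 : (0 : ℝ) ≤ u ^ 8 := by positivity
    have h3 : (2 * v) ^ 8 = 256 * v ^ 8 := by ring
    linarith
  · have h1 : (u + v) ^ 8 ≤ (2 * u) ^ 8 := pow_le_pow_left₀ (by positivity) (by linarith) _
    have h2 : (0 : ℝ) ≤ v ^ 8 := by positivity
    have h3 : (2 * u) ^ 8 = 256 * u ^ 8 := by ring
    linarith

/-- The average of `psi` over the generators, as a count over pairs. -/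
lemma A_le {n : ℕ} (P : Finset ℕ) (hP : ∀ p ∈ P, p.Prime) {Q : ℕ} (hQ : ∀ p ∈ P, p ≤ Q)
    {d k k0 : ℕ} (hd : 0 < d) (hk : k ≤ k0) :
    ∑ g ∈ Fintype.piFinset (fun _ : Fin n => P), psi g d
      ≤ (univ.filter (fun p : Pairs n => (p.1 \ p.2).card < k0)).card * P.card ^ n
        + 4 ^ n * (P.card ^ (n - k) * ((Q ^ k / d + 1) * k ^ k)) := by
  classical
  set GG := Fintype.piFinset (fun _ : Fin n => P) with hGG
  have hGGc : GG.card = P.card ^ n := by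
    rw [hGG, Fintype.card_piFinset]; simp
  set c : Pairs n → ℕ := fun p =>
    (GG.filter (fun g => (∀ t, Nat.Coprime d (g t)) ∧ aP g p.1 ≡ aP g p.2 [MOD d])).card with hc
  have h1 : ∑ g ∈ GG, psi g d ≤ ∑ p : Pairs n, c p := by
    have h2 : ∀ g ∈ GG, psi g d ≤ ∑ p : Pairs n,
        if (∀ t, Nat.Coprime d (g t)) ∧ aP g p.1 ≡ aP g p.2 [MOD d] then 1 else 0 := by
      intro g _
      unfold psi coll
      split_ifs with h
      · rw [Finset.card_filter]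
        apply le_of_eq
        apply Finset.sum_congr rfl
        intro p _
        by_cases hm : aP g p.1 ≡ aP g p.2 [MOD d]
        · rw [if_pos hm, if_pos ⟨h, hm⟩]
        · rw [if_neg hm, if_neg (fun h' => hm h'.2)]
      · exact Nat.zero_le _
    calc _ ≤ _ := Finset.sum_le_sum h2
      _ = ∑ p : Pairs n, ∑ g ∈ GG,
          if (∀ t, Nat.Coprime d (g t)) ∧ aP g p.1 ≡ aP g p.2 [MOD d] then 1 else 0 :=
          Finset.sum_comm
      _ = _ := by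
        apply Finset.sum_congr rfl
        intro p _
        exact (Finset.card_filter _ _).symm
  set B := P.card ^ (n - k) * ((Q ^ k / d + 1) * k ^ k) with hB
  have h3 : ∀ p : Pairs n, c p ≤ (if (p.1 \ p.2).card < k0 then P.card ^ n else 0) + B := by
    intro p
    split_ifs with h
    · have : c p ≤ GG.card := card_filter_le _ _
      omega
    · have hle : k ≤ (p.1 \ p.2).card := by omega
      obtain ⟨I, hI, hIc⟩ := Finset.exists_subset_card_eq hle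
      have := fiber_count P hP hQ p.1 p.2 I hI hd
      rw [hIc] at this
      simpa [hc] using this
  calc _ ≤ _ := h1
    _ ≤ ∑ p : Pairs n, ((if (p.1 \ p.2).card < k0 then P.card ^ n else 0) + B) :=
        Finset.sum_le_sum (fun p _ => h3 p)
    _ = _ := by
        rw [Finset.sum_add_distrib, Finset.sum_ite, Finset.sum_const_zero, add_zero,
          Finset.sum_const, Finset.sum_const, smul_eq_mul, smul_eq_mul]
        congr 1
        congr 1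
        rw [Finset.card_univ, Fintype.card_prod, Fintype.card_finset, Fintype.card_fin,
          ← mul_pow]
        norm_num

/-- The real form of the fibre bound. -/
lemma B_real {n k d e Q p : ℕ} (hp : 0 < p) (hk : k ≤ n) (hd : 0 < d)
    (hdQ : d ≤ Q ^ k) (hQ : Q ≤ p * (2 * e)) :
    ((p ^ (n - k) * ((Q ^ k / d + 1) * k ^ k) : ℕ) : ℝ)
      ≤ (p : ℝ) ^ n * (2 * ((2 * e * k : ℕ) : ℝ) ^ k / d) := by
  have hd' : (0 : ℝ) < d := by exact_mod_cast hd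
  have hp' : (0 : ℝ) < p := by exact_mod_cast hp
  have h1 : ((Q ^ k / d + 1 : ℕ) : ℝ) ≤ 2 * ((Q : ℝ) ^ k / d) := by
    push_cast
    have h2 : ((Q ^ k / d : ℕ) : ℝ) ≤ ((Q ^ k : ℕ) : ℝ) / d := Nat.cast_div_le
    have h3 : (1 : ℝ) ≤ ((Q ^ k : ℕ) : ℝ) / d := by
      rw [one_le_div hd']
      exact_mod_cast hdQ
    push_cast at h2 h3
    linarith
  have h4 : (Q : ℝ) ^ k ≤ ((p : ℝ) * (2 * e)) ^ k := by
    apply pow_le_pow_left₀ (by positivity)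
    exact_mod_cast hQ
  have h5 : (p : ℝ) ^ n = (p : ℝ) ^ (n - k) * (p : ℝ) ^ k := by
    rw [← pow_add, Nat.sub_add_cancel hk]
  have h8 : ((p ^ (n - k) * ((Q ^ k / d + 1) * k ^ k) : ℕ) : ℝ)
      = (p : ℝ) ^ (n - k) * (((Q ^ k / d + 1 : ℕ) : ℝ) * (k : ℝ) ^ k) := by
    push_cast; ring
  have h9 : ((2 * e * k : ℕ) : ℝ) = (2 * (e : ℝ)) * k := by push_cast; ring
  rw [h8, h5, h9]
  calc (p : ℝ) ^ (n - k) * (((Q ^ k / d + 1 : ℕ) : ℝ) * (k : ℝ) ^ k)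
      ≤ (p : ℝ) ^ (n - k) * ((2 * (((p : ℝ) * (2 * e)) ^ k / d)) * (k : ℝ) ^ k) := by
        apply mul_le_mul_of_nonneg_left _ (by positivity)
        apply mul_le_mul_of_nonneg_right _ (by positivity)
        have : ((Q : ℝ) ^ k / d) ≤ (((p : ℝ) * (2 * e)) ^ k / d) :=
          div_le_div_of_nonneg_right h4 hd'.le
        linarith
    _ = _ := by
        rw [mul_pow (p : ℝ) (2 * (e : ℝ)) k, mul_pow (2 * (e : ℝ)) (k : ℝ) k]
        ring

lemma numeric_top {k0 : ℕ} (hk0 : 1 ≤ k0) :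
    256 * (((2 : ℝ) ^ (4 * k0)) ^ 6 * ((2 : ℝ) ^ k0 * (7 / 8 : ℝ) ^ (32 * k0)) ^ 8) ≤ 1 / 4 := by
  have h1 : ((2 : ℝ) ^ (4 * k0)) ^ 6 * ((2 : ℝ) ^ k0 * (7 / 8 : ℝ) ^ (32 * k0)) ^ 8
      = ((2 : ℝ) ^ 32 * (7 / 8 : ℝ) ^ 256) ^ k0 := by
    rw [mul_pow, mul_pow, ← pow_mul, ← pow_mul, ← pow_mul, ← pow_mul, ← pow_mul, ← mul_assoc]
    rw [← pow_add]
    congr 2 <;> ring
  rw [h1]
  have hc0 : (0 : ℝ) ≤ (2 : ℝ) ^ 32 * (7 / 8 : ℝ) ^ 256 := by positivity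
  have hc1 : (2 : ℝ) ^ 32 * (7 / 8 : ℝ) ^ 256 ≤ 1 / 1024 := by norm_num
  have h2 : ((2 : ℝ) ^ 32 * (7 / 8 : ℝ) ^ 256) ^ k0 ≤ (2 : ℝ) ^ 32 * (7 / 8 : ℝ) ^ 256 :=
    pow_le_of_le_one hc0 (by linarith) (by omega)
  linarith

/-- The averaged bound at a single `d`. -/
lemma term_bound {ν : ℕ} (hν : 200 ≤ ν) {d : ℕ} (hY : Ymax ν < d) (hC : d ≤ Cmax ν) :
    ((d : ℝ) ^ 5 * (((∑ g ∈ Fintype.piFinset (fun _ : Fin (2 ^ ν) => Pool ν), psi g d : ℕ) : ℝ)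
        / (((Pool ν).card : ℝ) ^ (2 ^ ν) * 4 ^ (2 ^ ν))) ^ 8)
      ≤ 256 * ((d : ℝ) ^ 5 * ((2 : ℝ) ^ (2 ^ (ν - 5)) * (7 / 8 : ℝ) ^ (2 ^ ν)) ^ 8)
        + 1 / 2 * ((d : ℝ) ^ 2)⁻¹ := by
  classical
  set n := 2 ^ ν with hn
  set k0 := 2 ^ (ν - 5) with hk0
  have hn32 : n = 32 * k0 := by
    rw [hn, hk0, show (32 : ℕ) = 2 ^ 5 by norm_num, ← pow_add]
    congr 1; omega
  have hk0n : k0 ≤ n := by omega
  have hk01 : 1 ≤ k0 := Nat.one_le_two_pow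
  set P := Pool ν with hP
  have hPprime : ∀ p ∈ P, p.Prime := fun p hp => (mem_filter.mp hp).2
  have hPQ : ∀ p ∈ P, p ≤ 2 ^ (40 * ν) := fun p hp => (mem_Ioc.mp (mem_filter.mp hp).1).2
  have hcard : 2 ^ (40 * ν) ≤ P.card * (2 * (40 * ν)) := pool_card hν
  have hPpos : 0 < P.card := by
    rcases Nat.eq_zero_or_pos P.card with h | h
    · rw [h] at hcard
      simp at hcard
    · exact h
  have hY1 : 1 ≤ Ymax ν := by
    unfold Ymax
    have : 0 < (80 * ν) ^ 8 := by positivity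
    have h2 : 0 < 2 ^ 17 := by positivity
    exact Nat.mul_pos h2 this
  have hd0 : 0 < d := by omega
  have hd1 : 1 < d := by omega
  have hCle : Cmax ν ≤ 2 ^ (40 * ν * k0) := by
    unfold Cmax
    apply Nat.pow_le_pow_right (by norm_num)
    have h2 : 2 ^ (ν - 3) = k0 * 4 := by
      rw [hk0, show (4 : ℕ) = 2 ^ 2 by norm_num, ← pow_add]
      congr 1; omega
    rw [h2]
    have : 4 ≤ 40 * ν := by omega
    calc k0 * 4 ≤ k0 * (40 * ν) := Nat.mul_le_mul_left _ this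
      _ = _ := by ring
  obtain ⟨k, hk1, hkK, hdk, hcase⟩ := exists_scale (40 * ν) k0 d hd1 (hC.trans hCle)
  have hpt := scale_pointwise hν hY hk1 hkK hcase
  have hQk : (2 ^ (40 * ν)) ^ k = 2 ^ (40 * ν * k) := by rw [← pow_mul]
  have hAle := A_le (n := n) P hPprime hPQ (d := d) (k := k) (k0 := k0) hd0 hkK
  have htail := tail_count n k0 hk0n
  set T := (univ.filter (fun p : Pairs n => (p.1 \ p.2).card < k0)).card with hT
  have hB := B_real (n := n) (k := k) (d := d) (e := 40 * ν) (Q := 2 ^ (40 * ν)) (p := P.card)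
    hPpos (by omega) hd0 (by rw [hQk]; exact hdk) hcard
  set A := ∑ g ∈ Fintype.piFinset (fun _ : Fin n => P), psi g d with hA
  set w : ℝ := ((2 * (40 * ν) * k : ℕ) : ℝ) ^ k with hw
  have hw0 : 0 ≤ w := by positivity
  set τ : ℝ := (2 : ℝ) ^ k0 * (7 / 8 : ℝ) ^ n with hτ
  have hτ0 : 0 ≤ τ := by positivity
  have hXpos : (0 : ℝ) < (P.card : ℝ) ^ n := by
    have : (0 : ℝ) < P.card := by exact_mod_cast hPpos
    positivity
  set X : ℝ := (P.card : ℝ) ^ n with hX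
  have hd' : (0 : ℝ) < d := by exact_mod_cast hd0
  have h4pos : (0 : ℝ) < 4 ^ n := by positivity
  -- the tail part
  have hT' : (T : ℝ) ≤ 4 ^ n * τ := by
    have h1 : (T : ℝ) * 2 ^ (n - k0) ≤ 7 ^ n := by exact_mod_cast htail
    have h2 : (2 : ℝ) ^ n = 2 ^ (n - k0) * 2 ^ k0 := by
      rw [← pow_add, Nat.sub_add_cancel hk0n]
    have h3 : (4 : ℝ) ^ n * τ = 7 ^ n * 2 ^ k0 / 2 ^ n := by
      rw [hτ, div_pow]
      have h8 : (8 : ℝ) ^ n = 4 ^ n * 2 ^ n := by rw [← mul_pow]; norm_num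
      rw [h8]
      field_simp
    rw [h3, le_div_iff₀ (by positivity), h2]
    calc (T : ℝ) * (2 ^ (n - k0) * 2 ^ k0) = ((T : ℝ) * 2 ^ (n - k0)) * 2 ^ k0 := by ring
      _ ≤ _ := mul_le_mul_of_nonneg_right h1 (by positivity)
  -- the main bound on A
  have hAreal : (A : ℝ) ≤ X * 4 ^ n * (τ + 2 * w / d) := by
    have h1 : (A : ℝ) ≤ (T : ℝ) * X + 4 ^ n * (X * (2 * w / d)) := by
      have h2 : (A : ℝ) ≤ ((T * P.card ^ n + 4 ^ n * (P.card ^ (n - k) *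
          ((((2 ^ (40 * ν)) ^ k) / d + 1) * k ^ k)) : ℕ) : ℝ) := by
        exact_mod_cast hAle
      have h3 : ((T * P.card ^ n + 4 ^ n * (P.card ^ (n - k) *
          ((((2 ^ (40 * ν)) ^ k) / d + 1) * k ^ k)) : ℕ) : ℝ)
          = (T : ℝ) * X + 4 ^ n * ((P.card ^ (n - k) *
          ((((2 ^ (40 * ν)) ^ k) / d + 1) * k ^ k) : ℕ) : ℝ) := by
        rw [Nat.cast_add, Nat.cast_mul, Nat.cast_mul, Nat.cast_pow, Nat.cast_pow]
        norm_num [hX]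
      rw [h3] at h2
      refine h2.trans ?_
      have := mul_le_mul_of_nonneg_left hB h4pos.le
      linarith
    have h5 : (T : ℝ) * X ≤ (4 ^ n * τ) * X := mul_le_mul_of_nonneg_right hT' hXpos.le
    calc (A : ℝ) ≤ _ := h1
      _ ≤ (4 ^ n * τ) * X + 4 ^ n * (X * (2 * w / d)) := by linarith
      _ = _ := by ring
  have hXn : (0 : ℝ) < X * 4 ^ n := by positivity
  have ha : (A : ℝ) / (X * 4 ^ n) ≤ τ + 2 * w / d := by
    rw [div_le_iff₀ hXn]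
    linarith
  have ha0 : 0 ≤ (A : ℝ) / (X * 4 ^ n) := by positivity
  have hv0 : 0 ≤ 2 * w / (d : ℝ) := by positivity
  have hw8 : (2 : ℝ) ^ 17 * w ^ 8 ≤ d := by
    have h1 : ((2 ^ 17 * (2 * (40 * ν) * k) ^ (8 * k) : ℕ) : ℝ) ≤ d := by exact_mod_cast hpt
    have h2 : ((2 ^ 17 * (2 * (40 * ν) * k) ^ (8 * k) : ℕ) : ℝ) = (2 : ℝ) ^ 17 * w ^ 8 := by
      rw [hw, ← pow_mul, Nat.cast_mul, Nat.cast_pow, Nat.cast_pow]
      norm_num
      ring_nf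
    rwa [h2] at h1
  have hpow : ((A : ℝ) / (X * 4 ^ n)) ^ 8 ≤ 256 * (τ ^ 8 + (2 * w / d) ^ 8) :=
    (pow_le_pow_left₀ ha0 ha 8).trans (pow8_add_le hτ0 hv0)
  have hd5 : (0 : ℝ) ≤ (d : ℝ) ^ 5 := by positivity
  calc (d : ℝ) ^ 5 * ((A : ℝ) / (X * 4 ^ n)) ^ 8
      ≤ (d : ℝ) ^ 5 * (256 * (τ ^ 8 + (2 * w / d) ^ 8)) := mul_le_mul_of_nonneg_left hpow hd5
    _ = 256 * ((d : ℝ) ^ 5 * τ ^ 8) + (2 ^ 17 * w ^ 8) * (1 / 2 * ((d : ℝ) ^ 3)⁻¹) := by
        field_simp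
        ring
    _ ≤ 256 * ((d : ℝ) ^ 5 * τ ^ 8) + (d : ℝ) * (1 / 2 * ((d : ℝ) ^ 3)⁻¹) := by
        have : (0 : ℝ) ≤ 1 / 2 * ((d : ℝ) ^ 3)⁻¹ := by positivity
        have := mul_le_mul_of_nonneg_right hw8 this
        linarith
    _ = _ := by
        field_simp

/-- The sum of the averaged bounds. -/
lemma sum_bound {ν : ℕ} (hν : 200 ≤ ν) :
    ∑ d ∈ Ioc (Ymax ν) (Cmax ν),
      ((d : ℝ) ^ 5 * (((∑ g ∈ Fintype.piFinset (fun _ : Fin (2 ^ ν) => Pool ν), psi g d : ℕ) : ℝ)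
        / (((Pool ν).card : ℝ) ^ (2 ^ ν) * 4 ^ (2 ^ ν))) ^ 8) ≤ 1 / 2 := by
  set k0 := 2 ^ (ν - 5) with hk0
  have hn32 : 2 ^ ν = 32 * k0 := by
    rw [hk0, show (32 : ℕ) = 2 ^ 5 by norm_num, ← pow_add]
    congr 1; omega
  have hk01 : 1 ≤ k0 := Nat.one_le_two_pow
  have hC4 : ((Cmax ν : ℕ) : ℝ) = (2 : ℝ) ^ (4 * k0) := by
    unfold Cmax
    have h2 : 2 ^ (ν - 3) = 4 * k0 := by
      rw [hk0, show (4 : ℕ) = 2 ^ 2 by norm_num, ← pow_add]
      congr 1; omega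
    rw [h2]
    push_cast
    rfl
  set τ : ℝ := (2 : ℝ) ^ k0 * (7 / 8 : ℝ) ^ (2 ^ ν) with hτ
  have hτ0 : 0 ≤ τ := by positivity
  have hY2 : 4 ≤ Ymax ν := by
    unfold Ymax
    have : 0 < (80 * ν) ^ 8 := by positivity
    have h2 : 2 ^ 17 = 131072 := by norm_num
    rw [h2]
    omega
  have hterm := fun d (hd : d ∈ Ioc (Ymax ν) (Cmax ν)) =>
    term_bound hν (mem_Ioc.mp hd).1 (mem_Ioc.mp hd).2
  refine (Finset.sum_le_sum hterm).trans ?_
  rw [Finset.sum_add_distrib, ← Finset.mul_sum, ← Finset.mul_sum, ← Finset.sum_mul]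
  have h1 : ∑ d ∈ Ioc (Ymax ν) (Cmax ν), (d : ℝ) ^ 5 ≤ ((Cmax ν : ℕ) : ℝ) ^ 6 := by
    calc ∑ d ∈ Ioc (Ymax ν) (Cmax ν), (d : ℝ) ^ 5
        ≤ ∑ _d ∈ Ioc (Ymax ν) (Cmax ν), ((Cmax ν : ℕ) : ℝ) ^ 5 := by
          apply Finset.sum_le_sum
          intro d hd
          apply pow_le_pow_left₀ (by positivity)
          exact_mod_cast (mem_Ioc.mp hd).2
      _ = ((Cmax ν - Ymax ν : ℕ) : ℝ) * ((Cmax ν : ℕ) : ℝ) ^ 5 := by
          rw [Finset.sum_const, Nat.card_Ioc, nsmul_eq_mul]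
      _ ≤ ((Cmax ν : ℕ) : ℝ) * ((Cmax ν : ℕ) : ℝ) ^ 5 := by
          apply mul_le_mul_of_nonneg_right _ (by positivity)
          exact_mod_cast Nat.sub_le _ _
      _ = _ := by ring
  have h2 : ∑ d ∈ Ioc (Ymax ν) (Cmax ν), (((d : ℝ) ^ 2)⁻¹) ≤ 1 / 2 := by
    by_cases hle : Ymax ν ≤ Cmax ν
    · have h3 := sum_Ioc_inv_sq_le_sub (α := ℝ) (k := Ymax ν) (n := Cmax ν) (by omega) hle
      have h4 : ((Ymax ν : ℕ) : ℝ)⁻¹ ≤ 1 / 4 := by
        rw [one_div]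
        apply inv_anti₀ (by norm_num)
        exact_mod_cast hY2
      have h5 : 0 ≤ ((Cmax ν : ℕ) : ℝ)⁻¹ := by positivity
      linarith
    · rw [Finset.Ioc_eq_empty (by omega)]
      simp
  have hτ' : τ = (2 : ℝ) ^ k0 * (7 / 8 : ℝ) ^ (32 * k0) := by rw [hτ, hn32]
  have h3 : 256 * (((Cmax ν : ℕ) : ℝ) ^ 6 * τ ^ 8) ≤ 1 / 4 := by
    rw [hC4, hτ']
    exact numeric_top hk01
  have h4 : (∑ d ∈ Ioc (Ymax ν) (Cmax ν), (d : ℝ) ^ 5) * τ ^ 8
      ≤ ((Cmax ν : ℕ) : ℝ) ^ 6 * τ ^ 8 :=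
    mul_le_mul_of_nonneg_right h1 (by positivity)
  linarith

theorem exists_good {ν : ℕ} (hν : 200 ≤ ν) :
    ∃ G : Fin 8 → Fin (2 ^ ν) → ℕ, (∀ i t, G i t ∈ Pool ν) ∧
      ∑ d ∈ Ioc (Ymax ν) (Cmax ν), d ^ 5 * ∏ i, psi (G i) d < (4 ^ (2 ^ ν)) ^ 8 := by
  classical
  set n := 2 ^ ν with hn
  set P := Pool ν with hP
  have hcard : 2 ^ (40 * ν) ≤ P.card * (2 * (40 * ν)) := pool_card hν
  have hPpos : 0 < P.card := by
    rcases Nat.eq_zero_or_pos P.card with h | h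
    · rw [h] at hcard
      simp at hcard
    · exact h
  set GG := Fintype.piFinset (fun _ : Fin n => P) with hGG
  have hGGc : GG.card = P.card ^ n := by
    rw [hGG, Fintype.card_piFinset]; simp
  set GGG := Fintype.piFinset (fun _ : Fin 8 => GG) with hGGG
  have hGGGc : GGG.card = (P.card ^ n) ^ 8 := by
    rw [hGGG, Fintype.card_piFinset, hGGc]; simp
  set A : ℕ → ℕ := fun d => ∑ g ∈ GG, psi g d with hA
  have hswap : ∀ d, ∑ G ∈ GGG, ∏ i, psi (G i) d = A d ^ 8 := by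
    intro d
    have h := Finset.prod_univ_sum (fun _ : Fin 8 => GG) (fun _ g => psi g d)
    rw [← h]
    simp [hA]
  have hsum : ∑ G ∈ GGG, ∑ d ∈ Ioc (Ymax ν) (Cmax ν), d ^ 5 * ∏ i, psi (G i) d
      = ∑ d ∈ Ioc (Ymax ν) (Cmax ν), d ^ 5 * A d ^ 8 := by
    rw [Finset.sum_comm]
    apply Finset.sum_congr rfl
    intro d _
    rw [← Finset.mul_sum, hswap]
  have hlt : ∑ d ∈ Ioc (Ymax ν) (Cmax ν), d ^ 5 * A d ^ 8
      < (P.card ^ n) ^ 8 * (4 ^ n) ^ 8 := by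
    have hb := sum_bound hν
    have hXpos : (0 : ℝ) < (P.card : ℝ) ^ n * 4 ^ n := by
      have : (0 : ℝ) < P.card := by exact_mod_cast hPpos
      positivity
    have hreal : ((∑ d ∈ Ioc (Ymax ν) (Cmax ν), d ^ 5 * A d ^ 8 : ℕ) : ℝ)
        = ((P.card : ℝ) ^ n * 4 ^ n) ^ 8 * ∑ d ∈ Ioc (Ymax ν) (Cmax ν),
          ((d : ℝ) ^ 5 * (((A d : ℕ) : ℝ) / ((P.card : ℝ) ^ n * 4 ^ n)) ^ 8) := by
      push_cast
      rw [Finset.mul_sum]
      apply Finset.sum_congr rfl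
      intro d _
      rw [div_pow]
      field_simp
    have h1 : ((∑ d ∈ Ioc (Ymax ν) (Cmax ν), d ^ 5 * A d ^ 8 : ℕ) : ℝ)
        < (((P.card ^ n) ^ 8 * (4 ^ n) ^ 8 : ℕ) : ℝ) := by
      rw [hreal]
      have h2 : (((P.card ^ n) ^ 8 * (4 ^ n) ^ 8 : ℕ) : ℝ) = ((P.card : ℝ) ^ n * 4 ^ n) ^ 8 := by
        push_cast; ring
      rw [h2]
      have h3 : 0 < ((P.card : ℝ) ^ n * 4 ^ n) ^ 8 := by positivity
      have hb' : ∑ d ∈ Ioc (Ymax ν) (Cmax ν),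
          ((d : ℝ) ^ 5 * (((A d : ℕ) : ℝ) / ((P.card : ℝ) ^ n * 4 ^ n)) ^ 8) ≤ 1 / 2 := hb
      nlinarith
    exact_mod_cast h1
  have hmain : ∑ G ∈ GGG, ∑ d ∈ Ioc (Ymax ν) (Cmax ν), d ^ 5 * ∏ i, psi (G i) d
      < ∑ _G ∈ GGG, (4 ^ n) ^ 8 := by
    rw [hsum, Finset.sum_const, hGGGc, smul_eq_mul]
    exact hlt
  obtain ⟨G, hG, hGlt⟩ := Finset.exists_lt_of_sum_lt hmain
  refine ⟨G, ?_, hGlt⟩
  intro i t
  have h1 := (Fintype.mem_piFinset.mp hG) i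
  exact (Fintype.mem_piFinset.mp h1) t

end Vale.Agent.Lib.P012.M
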