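import Vale.Agent.Lib.P012.MDefs

open Finset

namespace Vale.Agent.Lib.P012.M

section bilinear

variable {N : ℕ} [NeZero N] {ι : Type*}

lemma sum_norm_sq_eq (A : Finset ι) (f : ι → ZMod N) (y : ZMod N) (hy : IsUnit y) :
    ∑ r : ZMod N, ‖∑ b ∈ A, (ZMod.stdAddChar (y * r * f b) : ℂ)‖ ^ 2
      = (N : ℝ) * ((A ×ˢ A).filter (fun p => f p.1 = f p.2)).card := by
  classical
  have key : ∀ r : ZMod N, ((‖∑ b ∈ A, (ZMod.stdAddChar (y * r * f b) : ℂ)‖ ^ 2 : ℝ) : ℂ)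
      = ∑ p ∈ A ×ˢ A, (ZMod.stdAddChar (r * (y * (f p.2 - f p.1))) : ℂ) := by
    intro r
    rw [← Complex.normSq_eq_norm_sq, Complex.normSq_eq_conj_mul_self, map_sum, Finset.sum_mul_sum,
      ← Finset.sum_product']
    refine Finset.sum_congr rfl fun p _ => ?_
    rw [← AddChar.map_neg_eq_conj, ← AddChar.map_add_eq_mul]
    congr 1
    ring
  apply Complex.ofReal_injective
  rw [Complex.ofReal_sum, Finset.sum_congr rfl (fun r _ => key r), Finset.sum_comm]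
  have h2 : ∀ p : ι × ι, ∑ r : ZMod N, (ZMod.stdAddChar (r * (y * (f p.2 - f p.1))) : ℂ)
      = if f p.1 = f p.2 then (N : ℂ) else 0 := by
    intro p
    rw [AddChar.sum_mulShift _ (ZMod.isPrimitive_stdAddChar N)]
    have : y * (f p.2 - f p.1) = 0 ↔ f p.1 = f p.2 := by
      rw [hy.mul_right_eq_zero, sub_eq_zero, eq_comm]
    simp only [this, ZMod.card]
    split_ifs <;> simp
  simp_rw [h2]
  rw [Finset.sum_ite, Finset.sum_const_zero, add_zero, Finset.sum_const]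
  simp [mul_comm]

lemma norm_bilinear_sq_le (A : Finset ι) (f : ι → ZMod N) (y : ZMod N) (hy : IsUnit y) :
    ‖∑ a ∈ A, ∑ b ∈ A, (ZMod.stdAddChar (y * f a * f b) : ℂ)‖ ^ 2
      ≤ (N : ℝ) * (((A ×ˢ A).filter (fun p => f p.1 = f p.2)).card : ℝ) ^ 2 := by
  classical
  set G : ZMod N → ℂ := fun r => ∑ b ∈ A, (ZMod.stdAddChar (y * r * f b) : ℂ) with hG
  set w : ZMod N → ℝ := fun r => ((A.filter (fun a => f a = r)).card : ℝ) with hw
  have h1 : ∑ a ∈ A, G (f a) = ∑ r : ZMod N, (w r : ℂ) * G r := by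
    have := Finset.sum_fiberwise (s := A) (g := f) (f := fun a => G (f a))
    rw [← this]
    refine Finset.sum_congr rfl fun r _ => ?_
    rw [Finset.sum_congr rfl (g := fun _ => G r)]
    · simp [hw]
    · intro a ha
      rw [(Finset.mem_filter.mp ha).2]
  have h2 : ∑ r : ZMod N, w r ^ 2 = (((A ×ˢ A).filter (fun p => f p.1 = f p.2)).card : ℝ) := by
    have h3 : ∀ r : ZMod N, w r ^ 2 =
        (((A ×ˢ A).filter (fun p => f p.1 = r ∧ f p.2 = r)).card : ℝ) := by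
      intro r
      have : (A ×ˢ A).filter (fun p => f p.1 = r ∧ f p.2 = r)
          = (A.filter (fun a => f a = r)) ×ˢ (A.filter (fun a => f a = r)) := by
        ext p
        simp only [mem_filter, mem_product]
        tauto
      rw [this, Finset.card_product]
      simp [hw, sq]
    simp_rw [h3]
    rw [← Nat.cast_sum]
    congr 1
    rw [Finset.card_eq_sum_card_fiberwise (f := fun p : ι × ι => f p.1) (t := Finset.univ)
      (fun _ _ => Finset.mem_coe.mpr (Finset.mem_univ _))]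
    refine Finset.sum_congr rfl fun r _ => ?_
    congr 1
    ext p
    simp only [mem_filter]
    constructor
    · rintro ⟨h, h1, h2⟩
      exact ⟨⟨h, by rw [h1, h2]⟩, h1⟩
    · rintro ⟨⟨h, h1⟩, h2⟩
      exact ⟨h, h2, by rw [← h1, h2]⟩
  have h3 : ‖∑ r : ZMod N, (w r : ℂ) * G r‖ ≤ ∑ r : ZMod N, w r * ‖G r‖ := by
    refine (norm_sum_le _ _).trans (le_of_eq ?_)
    refine Finset.sum_congr rfl fun r _ => ?_
    simp [hw]
  have h4 := Finset.sum_mul_sq_le_sq_mul_sq (Finset.univ : Finset (ZMod N)) w (fun r => ‖G r‖)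
  have h5 := sum_norm_sq_eq A f y hy
  have h6 : ∑ a ∈ A, ∑ b ∈ A, (ZMod.stdAddChar (y * f a * f b) : ℂ)
      = ∑ a ∈ A, G (f a) := rfl
  rw [h6, h1]
  calc ‖∑ r : ZMod N, (w r : ℂ) * G r‖ ^ 2 ≤ (∑ r : ZMod N, w r * ‖G r‖) ^ 2 := by
        gcongr
    _ ≤ (∑ r, w r ^ 2) * ∑ r, ‖G r‖ ^ 2 := h4
    _ = (N : ℝ) * (((A ×ˢ A).filter (fun p => f p.1 = f p.2)).card : ℝ) ^ 2 := by
        rw [h2, h5]; ring

end bilinear

lemma stdAddChar_natCast_mul {P n : ℕ} [NeZero P] [NeZero n] (c : ℕ) (hP : P = c * n) (m : ℕ) :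
    (ZMod.stdAddChar ((c * m : ℕ) : ZMod P) : ℂ) = ZMod.stdAddChar ((m : ℕ) : ZMod n) := by
  have h1 := ZMod.stdAddChar_coe (N := P) ((c * m : ℕ) : ℤ)
  have h2 := ZMod.stdAddChar_coe (N := n) ((m : ℕ) : ℤ)
  simp only [Int.cast_natCast] at h1 h2
  rw [h1, h2]
  congr 1
  have hc : (c : ℂ) ≠ 0 := by
    intro h
    have : c = 0 := by exact_mod_cast h
    subst this
    exact NeZero.ne P (by simpa using hP)
  have hn : (n : ℂ) ≠ 0 := Nat.cast_ne_zero.mpr (NeZero.ne n)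
  subst hP
  push_cast
  field_simp

/-- The additive order of a residue. -/
def ordZ {c : ℕ} (θ : ZMod c) : ℕ := c / Nat.gcd θ.val c

section exp

variable {c : ℕ} [NeZero c]

lemma ordZ_dvd (θ : ZMod c) : ordZ θ ∣ c :=
  Nat.div_dvd_of_dvd (Nat.gcd_dvd_right _ _)

lemma ordZ_gt_one {θ : ZMod c} (hθ : θ ≠ 0) : 1 < ordZ θ := by
  have hc : 0 < c := Nat.pos_of_ne_zero (NeZero.ne c)
  have hval : θ.val ≠ 0 := by
    rwa [Ne, ZMod.val_eq_zero]
  have hlt : θ.val < c := ZMod.val_lt θ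
  have hgle : Nat.gcd θ.val c ≤ θ.val := Nat.gcd_le_left _ (Nat.pos_of_ne_zero hval)
  have hgpos : 0 < Nat.gcd θ.val c := Nat.gcd_pos_of_pos_right _ hc
  have hglt : Nat.gcd θ.val c < c := lt_of_le_of_lt hgle hlt
  unfold ordZ
  rw [Nat.lt_div_iff_mul_lt' (Nat.gcd_dvd_right _ _) 1]
  simpa using hglt

lemma card_ordZ_le (d : ℕ) (hd : d ∣ c) :
    (univ.filter (fun θ : ZMod c => ordZ θ = d)).card ≤ d := by
  classical
  have hc : 0 < c := Nat.pos_of_ne_zero (NeZero.ne c)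
  have hd0 : 0 < d := Nat.pos_of_dvd_of_pos hd hc
  set h := c / d with hh
  have hcd : h * d = c := Nat.div_mul_cancel hd
  have hh0 : 0 < h := Nat.pos_of_ne_zero (by
    intro h0
    rw [h0] at hcd
    omega)
  have hmain : ∀ θ ∈ univ.filter (fun θ : ZMod c => ordZ θ = d), h ∣ θ.val ∧ θ.val / h < d := by
    intro θ hθ
    have hθ' : c / Nat.gcd θ.val c = d := (Finset.mem_filter.mp hθ).2
    have hg : Nat.gcd θ.val c = h := by
      have h1 : Nat.gcd θ.val c ∣ c := Nat.gcd_dvd_right _ _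
      have h2 : c / Nat.gcd θ.val c * Nat.gcd θ.val c = c := Nat.div_mul_cancel h1
      rw [hθ'] at h2
      have h3 : d * Nat.gcd θ.val c = d * h := by
        rw [h2, mul_comm d h, hcd]
      exact Nat.eq_of_mul_eq_mul_left hd0 h3
    have hdvd : h ∣ θ.val := by
      rw [← hg]
      exact Nat.gcd_dvd_left _ _
    refine ⟨hdvd, ?_⟩
    have hlt : θ.val < c := ZMod.val_lt θ
    rw [Nat.div_lt_iff_lt_mul hh0, mul_comm]
    rwa [hcd]
  have hinj : Set.InjOn (fun θ : ZMod c => θ.val / h)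
      (univ.filter (fun θ : ZMod c => ordZ θ = d) : Finset (ZMod c)) := by
    intro x hx y hy hxy
    have h1 := (hmain x hx).1
    have h2 := (hmain y hy).1
    simp only at hxy
    have h3 : x.val = y.val := by
      rw [← Nat.div_mul_cancel h1, ← Nat.div_mul_cancel h2, hxy]
    exact ZMod.val_injective c h3
  calc (univ.filter (fun θ : ZMod c => ordZ θ = d)).card
      ≤ (range d).card := Finset.card_le_card_of_injOn _
        (fun θ hθ => Finset.mem_range.mpr (hmain θ hθ).2) hinj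
    _ = d := Finset.card_range d

end exp

lemma addChar_map_sum {R M ι : Type*} [AddCommMonoid R] [CommMonoid M] (ψ : AddChar R M)
    (s : Finset ι) (f : ι → R) : ψ (∑ i ∈ s, f i) = ∏ i ∈ s, ψ (f i) := by
  classical
  induction s using Finset.induction_on with
  | empty => simp
  | insert a s ha ih => rw [Finset.sum_insert ha, Finset.prod_insert ha, AddChar.map_add_eq_mul, ih]

lemma norm_T_le {n : ℕ} {c : ℕ} [NeZero c] (g : Fin n → ℕ) (μ : ℕ) (hμ : Nat.Coprime c μ)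
    {θ : ZMod c} (hθ : θ ≠ 0) :
    ‖∑ p : Pairs n, (ZMod.stdAddChar (θ * ((μ * (aP g p.1 * aP g p.2) : ℕ) : ZMod c)) : ℂ)‖
      ≤ Real.sqrt (ordZ θ) * coll g (ordZ θ) := by
  classical
  have hc : 0 < c := Nat.pos_of_ne_zero (NeZero.ne c)
  set d := ordZ θ with hd
  have hd1 : 1 < d := ordZ_gt_one hθ
  have : NeZero d := ⟨by omega⟩
  set h := Nat.gcd θ.val c with hh
  have hhpos : 0 < h := Nat.gcd_pos_of_pos_right _ hc
  set v := θ.val / h with hv
  have hcop : Nat.Coprime v d := Nat.coprime_div_gcd_div_gcd hhpos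
  have hcd : c = h * d := by
    rw [hd, ordZ, ← hh, Nat.mul_div_cancel' (Nat.gcd_dvd_right _ _)]
  have hvv : θ.val = h * v := by
    rw [hv, Nat.mul_div_cancel' (Nat.gcd_dvd_left _ _)]
  have hdc : d ∣ c := ⟨h, by rw [hcd]; ring⟩
  have hμd : Nat.Coprime (v * μ) d :=
    Nat.Coprime.mul_left hcop (Nat.Coprime.coprime_dvd_left hdc hμ).symm
  set y : ZMod d := ((v * μ : ℕ) : ZMod d) with hy
  have hyu : IsUnit y := (ZMod.isUnit_iff_coprime _ _).mpr hμd
  set f : Finset (Fin n) → ZMod d := fun S => ((aP g S : ℕ) : ZMod d) with hf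
  have hterm : ∀ p : Pairs n,
      (ZMod.stdAddChar (θ * ((μ * (aP g p.1 * aP g p.2) : ℕ) : ZMod c)) : ℂ)
        = ZMod.stdAddChar (y * f p.1 * f p.2) := by
    intro p
    have h1 : θ * ((μ * (aP g p.1 * aP g p.2) : ℕ) : ZMod c)
        = ((h * (v * (μ * (aP g p.1 * aP g p.2))) : ℕ) : ZMod c) := by
      have h2 : θ = ((h * v : ℕ) : ZMod c) := by
        rw [← hvv]
        exact (ZMod.natCast_zmod_val θ).symm
      rw [h2, ← Nat.cast_mul]
      congr 1
      ring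
    rw [h1, stdAddChar_natCast_mul h hcd]
    congr 1
    simp only [hy, hf]
    push_cast
    ring
  rw [Finset.sum_congr rfl (fun p _ => hterm p)]
  have hsum : ∑ p : Pairs n, (ZMod.stdAddChar (y * f p.1 * f p.2) : ℂ)
      = ∑ S : Finset (Fin n), ∑ S' : Finset (Fin n), (ZMod.stdAddChar (y * f S * f S') : ℂ) := by
    rw [Fintype.sum_prod_type]
  rw [hsum]
  have hb := norm_bilinear_sq_le (N := d) (univ : Finset (Finset (Fin n))) f y hyu
  have hfil : (((univ : Finset (Finset (Fin n))) ×ˢ (univ : Finset (Finset (Fin n)))).filter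
      (fun p => f p.1 = f p.2)).card = coll g d := by
    rw [coll, univ_product_univ]
    congr 1
    ext p
    simp only [mem_filter, mem_univ, true_and, hf]
    exact ZMod.natCast_eq_natCast_iff _ _ _
  rw [hfil] at hb
  have hd0 : (0 : ℝ) ≤ d := by positivity
  have hs := Real.sq_sqrt hd0
  have hnn : (0 : ℝ) ≤ Real.sqrt d * coll g d := by positivity
  refine abs_le_of_sq_le_sq' ?_ hnn |>.2
  calc _ ≤ (d : ℝ) * (coll g d : ℝ) ^ 2 := hb
    _ = (Real.sqrt d * coll g d) ^ 2 := by rw [mul_pow, hs]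

theorem exists_solution {n : ℕ} (G : Fin 8 → Fin n → ℕ) (μ : Fin 8 → ℕ) {c : ℕ} (hc : 0 < c)
    (hμ : ∀ i, Nat.Coprime c (μ i))
    (hsum : ∑ d ∈ c.divisors.filter (1 < ·), d ^ 5 * ∏ i, coll (G i) d < (4 ^ n) ^ 8) :
    ∃ S S' : Fin 8 → Finset (Fin n),
      c ∣ 1 + ∑ i, μ i * (aP (G i) (S i) * aP (G i) (S' i)) := by
  classical
  have : NeZero c := ⟨by omega⟩
  by_contra hno
  push Not at hno
  set x : Fin 8 → Pairs n → ℕ := fun i p => μ i * (aP (G i) p.1 * aP (G i) p.2) with hx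
  set T : Fin 8 → ZMod c → ℂ := fun i θ =>
    ∑ p : Pairs n, (ZMod.stdAddChar (θ * ((x i p : ℕ) : ZMod c)) : ℂ) with hT
  -- the orthogonality computation
  have horth : ∑ θ : ZMod c, (ZMod.stdAddChar θ : ℂ) * ∏ i, T i θ = 0 := by
    have h1 : ∀ θ : ZMod c, (ZMod.stdAddChar θ : ℂ) * ∏ i, T i θ
        = ∑ P ∈ Fintype.piFinset (fun _ : Fin 8 => (univ : Finset (Pairs n))),
          (ZMod.stdAddChar (θ * ((1 + ∑ i, x i (P i) : ℕ) : ZMod c)) : ℂ) := by
      intro θ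
      simp only [hT]
      rw [Finset.prod_univ_sum, Finset.mul_sum]
      refine Finset.sum_congr rfl fun P _ => ?_
      have h2 : θ * ((1 + ∑ i, x i (P i) : ℕ) : ZMod c)
          = θ + ∑ i, θ * ((x i (P i) : ℕ) : ZMod c) := by
        push_cast
        rw [mul_add, mul_one, Finset.mul_sum]
      rw [h2, AddChar.map_add_eq_mul, addChar_map_sum]
    rw [Finset.sum_congr rfl (fun θ _ => h1 θ), Finset.sum_comm]
    refine Finset.sum_eq_zero fun P _ => ?_
    rw [AddChar.sum_mulShift _ (ZMod.isPrimitive_stdAddChar c)]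
    have h3 : ((1 + ∑ i, x i (P i) : ℕ) : ZMod c) ≠ 0 := by
      rw [Ne, ZMod.natCast_eq_zero_iff]
      have := hno (fun i => (P i).1) (fun i => (P i).2)
      simpa [hx] using this
    rw [if_neg h3]
    simp
  -- the main term
  have hzero : (ZMod.stdAddChar (0 : ZMod c) : ℂ) * ∏ i, T i 0 = (((4 ^ n) ^ 8 : ℕ) : ℂ) := by
    have h1 : ∀ i, T i 0 = ((4 ^ n : ℕ) : ℂ) := by
      intro i
      simp only [hT, zero_mul, AddChar.map_zero_eq_one, Finset.sum_const, Finset.card_univ,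
        nsmul_eq_mul, mul_one]
      congr 1
      rw [Fintype.card_prod, Fintype.card_finset, Fintype.card_fin, ← mul_pow]
      norm_num
    simp only [AddChar.map_zero_eq_one, one_mul]
    rw [Finset.prod_congr rfl (fun i _ => h1 i), Finset.prod_const]
    simp
  -- bound on the other terms
  have hother : ∀ θ : ZMod c, θ ≠ 0 →
      ‖(ZMod.stdAddChar θ : ℂ) * ∏ i, T i θ‖
        ≤ (ordZ θ : ℝ) ^ 4 * ∏ i, (coll (G i) (ordZ θ) : ℝ) := by
    intro θ hθ
    rw [norm_mul, AddChar.norm_apply, one_mul, norm_prod]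
    have h1 : ∀ i ∈ (univ : Finset (Fin 8)), ‖T i θ‖
        ≤ Real.sqrt (ordZ θ) * coll (G i) (ordZ θ) := by
      intro i _
      exact norm_T_le (G i) (μ i) (hμ i) hθ
    refine (Finset.prod_le_prod (fun _ _ => norm_nonneg _) h1).trans (le_of_eq ?_)
    rw [Finset.prod_mul_distrib, Finset.prod_const, Finset.card_univ, Fintype.card_fin]
    have hs := Real.sq_sqrt (show (0 : ℝ) ≤ (ordZ θ : ℝ) by positivity)
    have : Real.sqrt (ordZ θ) ^ 8 = (ordZ θ : ℝ) ^ 4 := by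
      calc Real.sqrt (ordZ θ) ^ 8 = (Real.sqrt (ordZ θ) ^ 2) ^ 4 := by ring
        _ = _ := by rw [hs]
    rw [this]
  -- separate the term at zero
  have hsplit : ∑ θ : ZMod c, (ZMod.stdAddChar θ : ℂ) * ∏ i, T i θ
      = (((4 ^ n) ^ 8 : ℕ) : ℂ) + ∑ θ ∈ univ.erase (0 : ZMod c),
          (ZMod.stdAddChar θ : ℂ) * ∏ i, T i θ := by
    rw [← Finset.add_sum_erase _ _ (Finset.mem_univ (0 : ZMod c)), hzero]
  rw [hsplit] at horth
  have hnorm : (((4 ^ n) ^ 8 : ℕ) : ℝ)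
      ≤ ∑ θ ∈ univ.erase (0 : ZMod c), (ordZ θ : ℝ) ^ 4 * ∏ i, (coll (G i) (ordZ θ) : ℝ) := by
    have h1 : (((4 ^ n) ^ 8 : ℕ) : ℂ) = - ∑ θ ∈ univ.erase (0 : ZMod c),
        (ZMod.stdAddChar θ : ℂ) * ∏ i, T i θ := eq_neg_of_add_eq_zero_left horth
    have h2 : ‖(((4 ^ n) ^ 8 : ℕ) : ℂ)‖ = (((4 ^ n) ^ 8 : ℕ) : ℝ) := by
      rw [Complex.norm_natCast]
    rw [← h2, h1, norm_neg]
    refine (norm_sum_le _ _).trans (Finset.sum_le_sum fun θ hθ => ?_)
    exact hother θ (Finset.ne_of_mem_erase hθ)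
  -- group by the order
  have hgroup : ∑ θ ∈ univ.erase (0 : ZMod c), (ordZ θ : ℝ) ^ 4 * ∏ i, (coll (G i) (ordZ θ) : ℝ)
      ≤ ((∑ d ∈ c.divisors.filter (1 < ·), d ^ 5 * ∏ i, coll (G i) d : ℕ) : ℝ) := by
    have hmaps : ∀ θ ∈ univ.erase (0 : ZMod c), ordZ θ ∈ c.divisors.filter (1 < ·) := by
      intro θ hθ
      refine Finset.mem_filter.mpr ⟨Nat.mem_divisors.mpr ⟨ordZ_dvd θ, by omega⟩,
        ordZ_gt_one (Finset.ne_of_mem_erase hθ)⟩
    rw [← Finset.sum_fiberwise_of_maps_to hmaps]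
    push_cast
    refine Finset.sum_le_sum fun d hd => ?_
    have hdc : d ∣ c := Nat.dvd_of_mem_divisors (Finset.mem_filter.mp hd).1
    have h1 : ∑ θ ∈ (univ.erase (0 : ZMod c)).filter (fun θ => ordZ θ = d),
        (ordZ θ : ℝ) ^ 4 * ∏ i, (coll (G i) (ordZ θ) : ℝ)
        = ((((univ.erase (0 : ZMod c)).filter (fun θ => ordZ θ = d)).card : ℕ) : ℝ)
          * ((d : ℝ) ^ 4 * ∏ i, (coll (G i) d : ℝ)) := by
      rw [Finset.sum_congr rfl (g := fun _ => (d : ℝ) ^ 4 * ∏ i, (coll (G i) d : ℝ))]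
      · rw [Finset.sum_const, nsmul_eq_mul]
      · intro θ hθ
        rw [(Finset.mem_filter.mp hθ).2]
    rw [h1]
    have h2 : (((univ.erase (0 : ZMod c)).filter (fun θ => ordZ θ = d)).card : ℕ) ≤ d := by
      refine le_trans (Finset.card_le_card ?_) (card_ordZ_le d hdc)
      intro θ hθ
      exact Finset.mem_filter.mpr ⟨Finset.mem_univ _, (Finset.mem_filter.mp hθ).2⟩
    have h3 : (((((univ.erase (0 : ZMod c)).filter (fun θ => ordZ θ = d)).card : ℕ)) : ℝ)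
        ≤ (d : ℝ) := by exact_mod_cast h2
    have h4 : (0 : ℝ) ≤ (d : ℝ) ^ 4 * ∏ i, (coll (G i) d : ℝ) := by positivity
    calc _ ≤ (d : ℝ) * ((d : ℝ) ^ 4 * ∏ i, (coll (G i) d : ℝ)) :=
          mul_le_mul_of_nonneg_right h3 h4
      _ = (d : ℝ) ^ 5 * ∏ i, (coll (G i) d : ℝ) := by ring
  have hfinal : (((4 ^ n) ^ 8 : ℕ) : ℝ)
      ≤ ((∑ d ∈ c.divisors.filter (1 < ·), d ^ 5 * ∏ i, coll (G i) d : ℕ) : ℝ) := hnorm.trans hgroup
  have hfinal' : (4 ^ n) ^ 8 ≤ ∑ d ∈ c.divisors.filter (1 < ·), d ^ 5 * ∏ i, coll (G i) d := by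
    exact_mod_cast hfinal
  omega

end Vale.Agent.Lib.P012.M
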