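import Mathlib

open Finset

namespace Vale.Agent.Lib.P012.M

/-- The product of `g` along a subset of the ground set. -/
def aP {n : ℕ} (g : Fin n → ℕ) (S : Finset (Fin n)) : ℕ := ∏ t ∈ S, g t

/-- Pairs of subsets of the ground set. -/
abbrev Pairs (n : ℕ) := Finset (Fin n) × Finset (Fin n)

/-- The number of pairs of subsets whose products are congruent modulo `d`. -/
def coll {n : ℕ} (g : Fin n → ℕ) (d : ℕ) : ℕ :=
  (univ.filter (fun p : Pairs n => aP g p.1 ≡ aP g p.2 [MOD d])).card

/-- The collision count, set to zero unless `d` is coprime to all the generators. -/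
def psi {n : ℕ} (g : Fin n → ℕ) (d : ℕ) : ℕ :=
  if ∀ t, Nat.Coprime d (g t) then coll g d else 0

/-- The primes from which the generators are drawn. -/
def Pool (ν : ℕ) : Finset ℕ := (Ioc (2 ^ (20 * ν)) (2 ^ (40 * ν))).filter Nat.Prime

/-- All primes up to this size are avoided by the digits. -/
def Ymax (ν : ℕ) : ℕ := 2 ^ 17 * (80 * ν) ^ 8

/-- The largest size of a digit. -/
def Cmax (ν : ℕ) : ℕ := 2 ^ (2 ^ (ν - 3))

end Vale.Agent.Lib.P012.M
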