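import Mathlib

open Finset

namespace Vale.Agent.Lib.P012.M

/-- Coprime to all primes up to `Y` and to all primes in `B`. -/
def Good (Y : ℕ) (B : Finset ℕ) (x : ℕ) : Prop :=
  (∀ π, π.Prime → π ≤ Y → ¬ π ∣ x) ∧ ∀ π ∈ B, ¬ π ∣ x

lemma Good.odd {Y : ℕ} {B : Finset ℕ} {x : ℕ} (h : Good Y B x) (hY : 2 ≤ Y) : Odd x := by
  have := h.1 2 Nat.prime_two hY
  exact Nat.not_even_iff_odd.mp (fun he => this he.two_dvd)

/-- A good residue for one small prime. -/
lemma exists_residue {π : ℕ} (hπ : π.Prime) {c₀ h₀ m : ℕ} (hc : Odd c₀) (hm : 1 ≤ m) :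
    ∃ γ : ℕ, ∀ t : ℕ, t ≡ γ [MOD π] → t ≤ h₀ →
      ¬ π ∣ c₀ + 2 ^ m * t ∧ ¬ π ∣ h₀ - t := by
  have := Fact.mk hπ
  by_cases h2 : π = 2
  · subst h2
    refine ⟨h₀ + 1, fun t ht hle => ⟨?_, ?_⟩⟩
    · intro hd
      have h3 : 2 ∣ 2 ^ m * t := Dvd.dvd.mul_right (dvd_pow_self 2 (by omega)) t
      have h4 : 2 ∣ c₀ := (Nat.dvd_add_left h3).mp hd
      exact (Nat.not_even_iff_odd.mpr hc) (even_iff_two_dvd.mpr h4)
    · intro hd
      have h3 : h₀ - t + t = h₀ := Nat.sub_add_cancel hle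
      have h4 : t % 2 = (h₀ + 1) % 2 := ht
      omega
  · have h3 : 3 ≤ π := by
      have := hπ.two_le
      omega
    have h2u : (2 : ZMod π) ^ m ≠ 0 := by
      apply pow_ne_zero
      intro h
      have h5 : ((2 : ℕ) : ZMod π) = 0 := by exact_mod_cast h
      rw [ZMod.natCast_eq_zero_iff] at h5
      have := (Nat.prime_dvd_prime_iff_eq hπ Nat.prime_two).mp h5
      exact h2 this
    set bad₁ : ZMod π := - (c₀ : ZMod π) / 2 ^ m with hbad₁
    set bad₂ : ZMod π := (h₀ : ZMod π) with hbad₂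
    have hcard : ({bad₁, bad₂} : Finset (ZMod π)).card < (univ : Finset (ZMod π)).card := by
      rw [Finset.card_univ, ZMod.card]
      exact lt_of_le_of_lt (Finset.card_le_two) (by omega)
    obtain ⟨γ, -, hγ⟩ := Finset.exists_mem_notMem_of_card_lt_card hcard
    simp only [Finset.mem_insert, Finset.mem_singleton, not_or] at hγ
    refine ⟨γ.val, fun t ht hle => ⟨?_, ?_⟩⟩
    · intro hd
      have h5 : ((c₀ + 2 ^ m * t : ℕ) : ZMod π) = 0 := (ZMod.natCast_eq_zero_iff _ _).mpr hd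
      have h6 : (t : ZMod π) = γ := by
        have := (ZMod.natCast_eq_natCast_iff _ _ _).mpr ht
        rwa [ZMod.natCast_zmod_val] at this
      push_cast at h5
      rw [h6] at h5
      apply hγ.1
      rw [hbad₁]
      field_simp
      linear_combination h5
    · intro hd
      have h5 : ((h₀ - t : ℕ) : ZMod π) = 0 := (ZMod.natCast_eq_zero_iff _ _).mpr hd
      have h6 : (t : ZMod π) = γ := by
        have := (ZMod.natCast_eq_natCast_iff _ _ _).mpr ht
        rwa [ZMod.natCast_zmod_val] at this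
      rw [Nat.cast_sub hle, h6] at h5
      apply hγ.2
      rw [hbad₂]
      linear_combination -h5

/-- The small primes, via the Chinese remainder theorem. -/
lemma exists_t0 {Y c₀ h₀ m : ℕ} (hc : Odd c₀) (hm : 1 ≤ m) :
    ∃ t₀ < primorial Y, ∀ π, π.Prime → π ≤ Y → ∀ t, t ≡ t₀ [MOD π] → t ≤ h₀ →
      ¬ π ∣ c₀ + 2 ^ m * t ∧ ¬ π ∣ h₀ - t := by
  classical
  choose! γ hγ using fun (π : ℕ) (hπ : π.Prime) => exists_residue hπ (c₀ := c₀) (h₀ := h₀) hc hm
  set s := (range (Y + 1)).filter Nat.Prime with hs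
  have hs1 : ∀ i ∈ s, i ≠ 0 := fun i hi => (Finset.mem_filter.mp hi).2.ne_zero
  have hpp : Set.Pairwise (s : Set ℕ) (Function.onFun Nat.Coprime (fun i => i)) := by
    intro i hi j hj hij
    exact (Nat.coprime_primes (Finset.mem_filter.mp hi).2 (Finset.mem_filter.mp hj).2).mpr hij
  set k := Nat.chineseRemainderOfFinset γ (fun i => i) s hs1 hpp with hk
  have hlt : (k : ℕ) < primorial Y := by
    have := Nat.chineseRemainderOfFinset_lt_prod γ (fun i => i) hs1 hpp
    rwa [primorial]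
  refine ⟨k, hlt, fun π hπ hπY t ht hle => ?_⟩
  have hmem : π ∈ s := Finset.mem_filter.mpr ⟨Finset.mem_range.mpr (by omega), hπ⟩
  exact hγ π hπ t (ht.trans (k.2 π hmem)) hle

/-- A digit step. -/
theorem digit_step {Y m U : ℕ} (B : Finset ℕ) (hB : ∀ π ∈ B, π.Prime ∧ U < π ∧ Y < π) (hY : 2 ≤ Y)
    (hU : 2 * B.card + 1 ≤ U) (hm : 1 ≤ m) {x : ℕ} (hodd : Odd x)
    (hx : 2 ^ m * (primorial Y * U + 1) ≤ x) :
    ∃ c x', x = c + 2 ^ m * x' ∧ c < 2 ^ m * (primorial Y * U) ∧ Good Y B c ∧ Good Y B x' := by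
  classical
  set W := primorial Y with hW
  have hWpos : 0 < W := primorial_pos Y
  have h2m : 0 < 2 ^ m := by positivity
  set c₀ := x % 2 ^ m with hc₀
  set h₀ := x / 2 ^ m with hh₀
  have hdecomp : x = c₀ + 2 ^ m * h₀ := (Nat.mod_add_div x (2 ^ m)).symm
  have hc₀lt : c₀ < 2 ^ m := Nat.mod_lt _ h2m
  have hc₀odd : Odd c₀ := by
    rw [Nat.odd_iff] at hodd ⊢
    have h3 : 2 ∣ 2 ^ m := dvd_pow_self 2 (by omega)
    have h4 : x % 2 ^ m % 2 = x % 2 := Nat.mod_mod_of_dvd x h3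
    rw [hc₀, h4]
    exact hodd
  have hh₀ge : W * U + 1 ≤ h₀ := by
    rw [hh₀, Nat.le_div_iff_mul_le h2m, mul_comm]
    exact hx
  obtain ⟨t₀, ht₀lt, ht₀⟩ := exists_t0 (Y := Y) (c₀ := c₀) (h₀ := h₀) hc₀odd hm
  -- big primes
  have hUpos : 0 < U := by omega
  have hcastW : ∀ π ∈ B, ((W : ℕ) : ZMod π) ≠ 0 := by
    intro π hπ h0
    have hp := (hB π hπ).1
    rw [ZMod.natCast_eq_zero_iff] at h0
    have h5 := (hB π hπ).2.2
    rw [hW, primorial, hp.prime.dvd_finsetProd_iff] at h0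
    obtain ⟨q, hq, hd⟩ := h0
    have hq' := Finset.mem_filter.mp hq
    have := (Nat.prime_dvd_prime_iff_eq hp hq'.2).mp hd
    have := Finset.mem_range.mp hq'.1
    omega
  have hcast2 : ∀ π ∈ B, ((2 : ℕ) : ZMod π) ≠ 0 := by
    intro π hπ h0
    have hp := (hB π hπ).1
    rw [ZMod.natCast_eq_zero_iff] at h0
    have := (Nat.prime_dvd_prime_iff_eq hp Nat.prime_two).mp h0
    have := (hB π hπ).2.2
    omega
  have hinjU : ∀ π ∈ B, ∀ u u' : ℕ, u < U → u' < U → (u : ZMod π) = u' → u = u' := by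
    intro π hπ u u' hu hu' h
    rw [ZMod.natCast_eq_natCast_iff'] at h
    have := (hB π hπ).2.1
    rwa [Nat.mod_eq_of_lt (by omega), Nat.mod_eq_of_lt (by omega)] at h
  set bad : Finset ℕ := B.biUnion (fun π =>
    ((range U).filter (fun u => π ∣ c₀ + 2 ^ m * (t₀ + W * u))) ∪
    ((range U).filter (fun u => π ∣ h₀ - (t₀ + W * u)))) with hbad
  have htle : ∀ u, u < U → t₀ + W * u ≤ h₀ := by
    intro u hu
    have h5 : W * u + W ≤ W * U := by
      have : W * (u + 1) ≤ W * U := Nat.mul_le_mul_left _ hu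
      linarith [mul_add W u 1, mul_one W]
    omega
  have hcard1 : ∀ π ∈ B, ((range U).filter (fun u => π ∣ c₀ + 2 ^ m * (t₀ + W * u))).card ≤ 1 := by
    intro π hπ
    have := Fact.mk (hB π hπ).1
    refine Finset.card_le_one.mpr fun u hu u' hu' => ?_
    obtain ⟨hu1, hu2⟩ := Finset.mem_filter.mp hu
    obtain ⟨hu1', hu2'⟩ := Finset.mem_filter.mp hu'
    have h1 := (ZMod.natCast_eq_zero_iff _ _).mpr hu2
    have h2 := (ZMod.natCast_eq_zero_iff _ _).mpr hu2'
    push_cast at h1 h2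
    refine hinjU π hπ u u' (Finset.mem_range.mp hu1) (Finset.mem_range.mp hu1') ?_
    have h3 : ((2 : ZMod π) ^ m * (W : ZMod π)) * ((u : ZMod π) - u') = 0 := by
      linear_combination h1 - h2
    have h4 : (2 : ZMod π) ^ m * (W : ZMod π) ≠ 0 := by
      refine mul_ne_zero (pow_ne_zero _ ?_) (hcastW π hπ)
      exact_mod_cast hcast2 π hπ
    exact sub_eq_zero.mp ((mul_eq_zero.mp h3).resolve_left h4)
  have hcard2 : ∀ π ∈ B, ((range U).filter (fun u => π ∣ h₀ - (t₀ + W * u))).card ≤ 1 := by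
    intro π hπ
    have := Fact.mk (hB π hπ).1
    refine Finset.card_le_one.mpr fun u hu u' hu' => ?_
    obtain ⟨hu1, hu2⟩ := Finset.mem_filter.mp hu
    obtain ⟨hu1', hu2'⟩ := Finset.mem_filter.mp hu'
    have hul := Finset.mem_range.mp hu1
    have hul' := Finset.mem_range.mp hu1'
    have h1 := (ZMod.natCast_eq_zero_iff _ _).mpr hu2
    have h2 := (ZMod.natCast_eq_zero_iff _ _).mpr hu2'
    rw [Nat.cast_sub (htle u hul)] at h1
    rw [Nat.cast_sub (htle u' hul')] at h2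
    push_cast at h1 h2
    refine hinjU π hπ u u' hul hul' ?_
    have h3 : (W : ZMod π) * ((u : ZMod π) - u') = 0 := by
      linear_combination h2 - h1
    exact sub_eq_zero.mp ((mul_eq_zero.mp h3).resolve_left (hcastW π hπ))
  have hbadcard : bad.card < (range U).card := by
    rw [Finset.card_range]
    have h1 : bad.card ≤ ∑ π ∈ B, 2 := by
      refine Finset.card_biUnion_le.trans (Finset.sum_le_sum fun π hπ => ?_)
      exact (Finset.card_union_le _ _).trans (by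
        have := hcard1 π hπ
        have := hcard2 π hπ
        omega)
    rw [Finset.sum_const, smul_eq_mul] at h1
    omega
  obtain ⟨u, huU, hubad⟩ := Finset.exists_mem_notMem_of_card_lt_card hbadcard
  have hu := Finset.mem_range.mp huU
  set t := t₀ + W * u with ht
  have htlt : t < W * U := by
    have h5 : W * (u + 1) ≤ W * U := Nat.mul_le_mul_left _ hu
    have h6 : W * (u + 1) = W * u + W := by ring
    omega
  have htle' : t ≤ h₀ := htle u hu
  have htW : ∀ π, π.Prime → π ≤ Y → t ≡ t₀ [MOD π] := by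
    intro π hπ hπY
    have h5 : π ∣ W := by
      rw [hW, primorial]
      exact Finset.dvd_prod_of_mem _ (Finset.mem_filter.mpr ⟨Finset.mem_range.mpr (by omega), hπ⟩)
    have h6 : t₀ + W * u ≡ t₀ + 0 [MOD π] :=
      Nat.ModEq.add_left _ ((Nat.modEq_zero_iff_dvd).mpr (Dvd.dvd.mul_right h5 u))
    simpa only [add_zero] using h6
  have hbigs : ∀ π ∈ B, ¬ π ∣ c₀ + 2 ^ m * t ∧ ¬ π ∣ h₀ - t := by
    intro π hπ
    constructor
    · intro hd
      apply hubad
      refine Finset.mem_biUnion.mpr ⟨π, hπ, Finset.mem_union_left _ ?_⟩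
      exact Finset.mem_filter.mpr ⟨huU, hd⟩
    · intro hd
      apply hubad
      refine Finset.mem_biUnion.mpr ⟨π, hπ, Finset.mem_union_right _ ?_⟩
      exact Finset.mem_filter.mpr ⟨huU, hd⟩
  refine ⟨c₀ + 2 ^ m * t, h₀ - t, ?_, ?_, ⟨fun π hπ hπY => ?_, fun π hπ => (hbigs π hπ).1⟩,
    ⟨fun π hπ hπY => ?_, fun π hπ => (hbigs π hπ).2⟩⟩
  · have h5 : 2 ^ m * (h₀ - t) + 2 ^ m * t = 2 ^ m * h₀ := by
      rw [← mul_add, Nat.sub_add_cancel htle']
    omega
  · have h5 : 2 ^ m * (t + 1) ≤ 2 ^ m * (W * U) := Nat.mul_le_mul_left _ htlt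
    have h6 : 2 ^ m * (t + 1) = 2 ^ m * t + 2 ^ m := by ring
    omega
  · exact (ht₀ π hπ hπY t (htW π hπ hπY) htle').1
  · exact (ht₀ π hπ hπY t (htW π hπ hπY) htle').2

end Vale.Agent.Lib.P012.M
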