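import Vale.Agent.Lib.P012.MDigit

open Finset

namespace Vale.Agent.Lib.P012.M

/-- The shape of the denominators. -/
def Form (Z D u t : ℕ) : Prop :=
  ∃ k N, N ∣ Z ∧ t = 2 ^ u * (k * (D / N)) ∧ Odd (k * (D / N)) ∧ Nat.Coprime k 29

/-- The digit `c` divides a sum of nine distinct divisors of `Z`, with an odd quotient prime to
`29`. -/
def Rep (Z c : ℕ) : Prop :=
  ∃ (k : ℕ) (N : Fin 9 → ℕ), Function.Injective N ∧ (∀ i, N i ∣ Z) ∧
    ∑ i, N i = k * c ∧ Odd k ∧ Nat.Coprime k 29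

lemma div_inj_of_dvd {N d d' : ℕ} (hN : 0 < N) (hd : d ∣ N) (hd' : d' ∣ N) (h : N / d = N / d') :
    d = d' := by
  have h1 : d * (N / d) = N := Nat.mul_div_cancel' hd
  have h2 : d' * (N / d') = N := Nat.mul_div_cancel' hd'
  have h3 : 0 < N / d := Nat.div_pos (Nat.le_of_dvd hN hd) (Nat.pos_of_dvd_of_pos hd hN)
  rw [← h] at h2
  exact Nat.eq_of_mul_eq_mul_right h3 (h1.trans h2.symm)

lemma one_div_div_cast {N d : ℕ} (hN : 0 < N) (hd : d ∣ N) :
    (1 : ℚ) / ((N / d : ℕ) : ℚ) = (d : ℚ) / N := by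
  have hd0 : (d : ℚ) ≠ 0 := by
    have := Nat.pos_of_dvd_of_pos hd hN
    positivity
  have hN0 : (N : ℚ) ≠ 0 := by positivity
  rw [Nat.cast_div hd hd0]
  field_simp

lemma rep_terms {Z c D u : ℕ} (hrep : Rep Z c) (hc : 0 < c) (hZD : Z ∣ D) (hD : Odd D) :
    ∃ T : Finset ℕ, (∀ t ∈ T, Form Z D u t) ∧ T.card ≤ 9 ∧
      ∑ t ∈ T, (1 : ℚ) / t = (c : ℚ) / (2 ^ u * D) := by
  classical
  obtain ⟨k, N, hinj, hdvd, hsum, hk, hk29⟩ := hrep
  have hkpos : 0 < k := hk.pos
  have hDpos : 0 < D := hD.pos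
  have hND : ∀ i, N i ∣ D := fun i => (hdvd i).trans hZD
  have hdpos : ∀ i, 0 < D / N i := fun i =>
    Nat.div_pos (Nat.le_of_dvd hDpos (hND i)) (Nat.pos_of_dvd_of_pos (hND i) hDpos)
  set F : Fin 9 → ℕ := fun i => 2 ^ u * (k * (D / N i)) with hF
  have hFinj : Function.Injective F := by
    intro i j hij
    have h1 : k * (D / N i) = k * (D / N j) :=
      Nat.eq_of_mul_eq_mul_left (by positivity) hij
    have h2 : D / N i = D / N j := Nat.eq_of_mul_eq_mul_left hkpos h1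
    exact hinj (div_inj_of_dvd hDpos (hND i) (hND j) h2)
  refine ⟨univ.image F, ?_, ?_, ?_⟩
  · intro t ht
    obtain ⟨i, -, rfl⟩ := Finset.mem_image.mp ht
    refine ⟨k, N i, hdvd i, rfl, ?_, hk29⟩
    refine hk.mul ?_
    have h1 : N i * (D / N i) = D := Nat.mul_div_cancel' (hND i)
    rw [← h1] at hD
    exact (Nat.odd_mul.mp hD).2
  · exact Finset.card_image_le.trans (by simp)
  · rw [Finset.sum_image (fun x _ y _ h => hFinj h)]
    have hterm : ∀ i, (1 : ℚ) / (F i : ℚ) = (N i : ℚ) / (2 ^ u * k * D) := by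
      intro i
      have h1 := one_div_div_cast hDpos (hND i)
      have hk0 : (k : ℚ) ≠ 0 := by positivity
      have hD0 : (D : ℚ) ≠ 0 := by positivity
      have h2 : (1 : ℚ) / (F i : ℚ) = (1 / (2 ^ u * k)) * (1 / ((D / N i : ℕ) : ℚ)) := by
        simp only [hF]
        push_cast
        rw [one_div_mul_one_div, mul_assoc]
      rw [h2, h1]
      field_simp
    rw [Finset.sum_congr rfl (fun i _ => hterm i), ← Finset.sum_div, ← Nat.cast_sum, hsum]
    have hk0 : (k : ℚ) ≠ 0 := by positivity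
    have hD0 : (D : ℚ) ≠ 0 := by positivity
    push_cast
    field_simp

lemma not_pow_mul_eq {w u o o' : ℕ} (hu : u < w) (ho' : Odd o') (h : 2 ^ w * o = 2 ^ u * o') :
    False := by
  have h1 : 2 ^ w = 2 ^ u * 2 ^ (w - u) := by
    rw [← pow_add]
    congr 1
    omega
  rw [h1, mul_assoc] at h
  have h2 : 2 ^ (w - u) * o = o' := Nat.eq_of_mul_eq_mul_left (by positivity) h
  have h3 : 2 ∣ o' := by
    rw [← h2]
    exact Dvd.dvd.mul_right (dvd_pow_self 2 (by omega)) o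
  exact (Nat.not_even_iff_odd.mpr ho') (even_iff_two_dvd.mpr h3)

theorem expansion {Z D Θ m : ℕ} {Gd : ℕ → Prop} (hm : 1 ≤ m) (hΘ : 2 ^ m ≤ Θ) (hZD : Z ∣ D) (hD : Odd D)
    (hstep : ∀ x, Odd x → Θ ≤ x → ∃ c x', x = c + 2 ^ m * x' ∧ c < Θ ∧ Gd c ∧ Gd x')
    (hrep : ∀ c, Gd c → c < Θ → Rep Z c) (hodd : ∀ x, Gd x → Odd x) :
    ∀ (J x w : ℕ), Odd x → (Gd x ∨ Θ ≤ x) → x < 2 ^ w → x < Θ * 2 ^ (m * J) →
      ∃ T : Finset ℕ, (∀ t ∈ T, ∃ u ≤ w, Form Z D u t) ∧ T.card ≤ 9 * (J + 1) ∧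
        ∑ t ∈ T, (1 : ℚ) / t = (x : ℚ) / (2 ^ w * D) := by
  classical
  intro J
  induction J with
  | zero =>
    intro x w hx hg hxw hxJ
    have hlt : x < Θ := by simpa using hxJ
    have hgx : Gd x := hg.resolve_right (by omega)
    obtain ⟨T, h1, h2, h3⟩ := rep_terms (u := w) (hrep x hgx hlt) hx.pos hZD hD
    exact ⟨T, fun t ht => ⟨w, le_rfl, h1 t ht⟩, by omega, h3⟩
  | succ J ih =>
    intro x w hx hg hxw hxJ
    by_cases hlt : x < Θ
    · have hgx : Gd x := hg.resolve_right (by omega)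
      obtain ⟨T, h1, h2, h3⟩ := rep_terms (u := w) (hrep x hgx hlt) hx.pos hZD hD
      exact ⟨T, fun t ht => ⟨w, le_rfl, h1 t ht⟩, by omega, h3⟩
    · have hge : Θ ≤ x := by omega
      obtain ⟨c, x', hdec, hcΘ, hgc, hgx'⟩ := hstep x hx hge
      have hmw : m < w := by
        have h1 : 2 ^ m < 2 ^ w := by omega
        exact (Nat.pow_lt_pow_iff_right (by norm_num)).mp h1
      have hpow : 2 ^ w = 2 ^ m * 2 ^ (w - m) := by
        rw [← pow_add]
        congr 1
        omega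
      have h2mpos : 0 < 2 ^ m := by positivity
      have hx'w : x' < 2 ^ (w - m) := by
        have h1 : 2 ^ m * x' < 2 ^ m * 2 ^ (w - m) := by
          rw [← hpow]
          omega
        exact Nat.lt_of_mul_lt_mul_left h1
      have hx'J : x' < Θ * 2 ^ (m * J) := by
        have h1 : 2 ^ m * x' < 2 ^ m * (Θ * 2 ^ (m * J)) := by
          have h2 : 2 ^ m * (Θ * 2 ^ (m * J)) = Θ * 2 ^ (m * (J + 1)) := by
            rw [mul_add, pow_add, mul_one]
            ring
          rw [h2]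
          omega
        exact Nat.lt_of_mul_lt_mul_left h1
      obtain ⟨T', h1', h2', h3'⟩ := ih x' (w - m) (hodd x' hgx') (Or.inl hgx') hx'w hx'J
      obtain ⟨T₀, h1, h2, h3⟩ := rep_terms (u := w) (hrep c hgc hcΘ) (hodd c hgc).pos hZD hD
      have hdisj : Disjoint T₀ T' := by
        rw [Finset.disjoint_left]
        intro t ht ht'
        obtain ⟨k, N, -, hte, hod, -⟩ := h1 t ht
        obtain ⟨u, hu, k', N', -, hte', hod', -⟩ := h1' t ht'
        exact not_pow_mul_eq (w := w) (u := u) (by omega) hod' (hte.symm.trans hte')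
      refine ⟨T₀ ∪ T', ?_, ?_, ?_⟩
      · intro t ht
        rcases Finset.mem_union.mp ht with ht | ht
        · exact ⟨w, le_rfl, h1 t ht⟩
        · obtain ⟨u, hu, hf⟩ := h1' t ht
          exact ⟨u, by omega, hf⟩
      · refine (Finset.card_union_le _ _).trans ?_
        omega
      · rw [Finset.sum_union hdisj, h3, h3', hdec]
        have hD0 : (D : ℚ) ≠ 0 := by
          have := hD.pos
          positivity
        have hp : ((2 : ℚ)) ^ w = 2 ^ m * 2 ^ (w - m) := by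
          rw [← pow_add]
          congr 1
          omega
        rw [hp]
        push_cast
        field_simp

end Vale.Agent.Lib.P012.M
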