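import Vale.Agent.Lib.P012.MDefs

open Finset

namespace Vale.Agent.Lib.P012.M

/-- Integers up to `B` in a single residue class modulo `d`. -/
lemma card_le_of_modEq {T : Finset ℕ} {B d : ℕ} (_hd : 0 < d) (hB : ∀ x ∈ T, x ≤ B)
    (hc : ∀ x ∈ T, ∀ y ∈ T, x ≡ y [MOD d]) : T.card ≤ B / d + 1 := by
  have h : T.card ≤ (range (B / d + 1)).card := by
    apply Finset.card_le_card_of_injOn (fun x => x / d)
    · intro x hx
      simp only [coe_range, Set.mem_Iio]
      exact Nat.lt_succ_of_le (Nat.div_le_div_right (hB x hx))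
    · intro x hx y hy hxy
      have h1 := Nat.div_add_mod x d
      have h2 := Nat.div_add_mod y d
      have h3 : x % d = y % d := hc x hx y hy
      simp only at hxy
      rw [← h1, ← h2, hxy, h3]
  simpa using h

lemma card_pi_ite {n : ℕ} (I : Finset (Fin n)) (A : Fin n → Finset ℕ) (a : ℕ)
    (hA : ∀ t, t ∉ I → (A t).card = 1) (hA' : ∀ t, t ∈ I → (A t).card = a) :
    (Fintype.piFinset A).card = a ^ I.card := by
  rw [Fintype.card_piFinset]
  have : ∀ t ∈ (univ : Finset (Fin n)), (A t).card = if t ∈ I then a else 1 := by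
    intro t _
    split_ifs with h
    · exact hA' t h
    · exact hA t h
  rw [Finset.prod_congr rfl this, Finset.prod_ite_mem, Finset.univ_inter, Finset.prod_const]

lemma card_pi_ite' {n : ℕ} (I : Finset (Fin n)) (A : Fin n → Finset ℕ) (a : ℕ)
    (hA : ∀ t, t ∈ I → (A t).card = 1) (hA' : ∀ t, t ∉ I → (A t).card = a) :
    (Fintype.piFinset A).card = a ^ (n - I.card) := by
  have h := card_pi_ite (Iᶜ) A a (fun t ht => hA t (by simpa using ht))
    (fun t ht => hA' t (by simpa using ht))
  rw [h, Finset.card_compl, Fintype.card_fin]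

theorem fiber_count {n : ℕ} (P : Finset ℕ) (hP : ∀ p ∈ P, p.Prime) {Q : ℕ}
    (hQ : ∀ p ∈ P, p ≤ Q) (S S' I : Finset (Fin n)) (hI : I ⊆ S \ S') {d : ℕ} (hd : 0 < d) :
    ((Fintype.piFinset fun _ : Fin n => P).filter
        (fun g => (∀ t, Nat.Coprime d (g t)) ∧ aP g S ≡ aP g S' [MOD d])).card
      ≤ P.card ^ (n - I.card) * ((Q ^ I.card / d + 1) * I.card ^ I.card) := by
  classical
  set s := (Fintype.piFinset fun _ : Fin n => P).filter
        (fun g => (∀ t, Nat.Coprime d (g t)) ∧ aP g S ≡ aP g S' [MOD d]) with hs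
  have hs_mem : ∀ g ∈ s, (∀ t, g t ∈ P) ∧ (∀ t, Nat.Coprime d (g t)) ∧
      aP g S ≡ aP g S' [MOD d] := by
    intro g hg
    rw [hs, mem_filter, Fintype.mem_piFinset] at hg
    exact ⟨hg.1, hg.2.1, hg.2.2⟩
  let f : (Fin n → ℕ) → (Fin n → ℕ) := fun g t => if t ∈ I then 0 else g t
  have himg : (s.image f).card ≤ P.card ^ (n - I.card) := by
    have hsub : s.image f ⊆ Fintype.piFinset (fun t => if t ∈ I then {0} else P) := by
      intro h hh
      obtain ⟨g, hg, rfl⟩ := mem_image.mp hh
      rw [Fintype.mem_piFinset]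
      intro t
      by_cases ht : t ∈ I
      · simp [f, ht]
      · simpa [f, ht] using (hs_mem g hg).1 t
    refine (card_le_card hsub).trans (le_of_eq ?_)
    apply card_pi_ite'
    · intro t ht; simp [ht]
    · intro t ht; simp [ht]
  have hIS : I ⊆ S := fun t ht => (mem_sdiff.mp (hI ht)).1
  have hIS' : ∀ t ∈ S', t ∉ I := fun t ht hti => (mem_sdiff.mp (hI hti)).2 ht
  have hfib : ∀ h ∈ s.image f, (s.filter (fun g => f g = h)).card
      ≤ (Q ^ I.card / d + 1) * I.card ^ I.card := by
    intro h _
    set F := s.filter (fun g => f g = h) with hF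
    have hF_mem : ∀ g ∈ F, g ∈ s ∧ ∀ t, t ∉ I → g t = h t := by
      intro g hg
      rw [hF, mem_filter] at hg
      refine ⟨hg.1, fun t ht => ?_⟩
      have := congrFun hg.2 t
      simpa [f, ht] using this
    let x : (Fin n → ℕ) → ℕ := fun g => ∏ t ∈ I, g t
    -- the congruence
    have hcong : ∀ g ∈ F, (∏ t ∈ S \ I, h t) * x g ≡ ∏ t ∈ S', h t [MOD d] := by
      intro g hg
      obtain ⟨hgs, hgh⟩ := hF_mem g hg
      have h1 : aP g S = (∏ t ∈ S \ I, h t) * x g := by
        unfold aP
        rw [← Finset.prod_sdiff hIS]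
        congr 1
        apply Finset.prod_congr rfl
        intro t ht
        exact hgh t (mem_sdiff.mp ht).2
      have h2 : aP g S' = ∏ t ∈ S', h t := by
        unfold aP
        apply Finset.prod_congr rfl
        intro t ht
        exact hgh t (hIS' t ht)
      have h3 := (hs_mem g hgs).2.2
      rwa [h1, h2] at h3
    have hy : ∀ g ∈ F, Nat.Coprime d (∏ t ∈ S \ I, h t) := by
      intro g hg
      obtain ⟨hgs, hgh⟩ := hF_mem g hg
      apply Nat.Coprime.prod_right
      intro t ht
      rw [← hgh t (mem_sdiff.mp ht).2]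
      exact (hs_mem g hgs).2.1 t
    have himgx : (F.image x).card ≤ Q ^ I.card / d + 1 := by
      apply card_le_of_modEq hd
      · intro v hv
        obtain ⟨g, hg, rfl⟩ := mem_image.mp hv
        apply Finset.prod_le_pow_card
        intro t _
        exact hQ _ ((hs_mem g (hF_mem g hg).1).1 t)
      · intro v hv w hw
        obtain ⟨g, hg, rfl⟩ := mem_image.mp hv
        obtain ⟨g', hg', rfl⟩ := mem_image.mp hw
        exact Nat.ModEq.cancel_left_of_coprime (hy g hg) ((hcong g hg).trans (hcong g' hg').symm)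
    have hfibx : ∀ v ∈ F.image x, (F.filter (fun g => x g = v)).card ≤ I.card ^ I.card := by
      intro v hv
      obtain ⟨g0, hg0, rfl⟩ := mem_image.mp hv
      have hpf : (x g0).primeFactors.card ≤ I.card := by
        have hsub : (x g0).primeFactors ⊆ I.image g0 := by
          intro p hp
          have hpp := Nat.prime_of_mem_primeFactors hp
          have hdvd := Nat.dvd_of_mem_primeFactors hp
          obtain ⟨t, ht, hdt⟩ := (Prime.exists_mem_finset_dvd hpp.prime hdvd)
          have hq := hP _ ((hs_mem g0 (hF_mem g0 hg0).1).1 t)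
          have : p = g0 t := (Nat.prime_dvd_prime_iff_eq hpp hq).mp hdt
          rw [this]
          exact mem_image_of_mem _ ht
        exact (card_le_card hsub).trans card_image_le
      have hsub : F.filter (fun g => x g = x g0) ⊆
          Fintype.piFinset (fun t => if t ∈ I then (x g0).primeFactors else {h t}) := by
        intro g hg
        rw [mem_filter] at hg
        rw [Fintype.mem_piFinset]
        intro t
        by_cases ht : t ∈ I
        · simp only [ht, if_true]
          rw [← hg.2]
          have hgs := (hF_mem g hg.1).1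
          have hq := hP _ ((hs_mem g hgs).1 t)
          refine Nat.mem_primeFactors.mpr ⟨hq, ?_, ?_⟩
          · exact Finset.dvd_prod_of_mem _ ht
          · apply Finset.prod_ne_zero_iff.mpr
            intro u _
            exact (hP _ ((hs_mem g hgs).1 u)).ne_zero
        · simp only [ht, if_false, mem_singleton]
          exact (hF_mem g hg.1).2 t ht
      calc (F.filter (fun g => x g = x g0)).card ≤ _ := card_le_card hsub
        _ = (x g0).primeFactors.card ^ I.card := by
            apply card_pi_ite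
            · intro t ht; simp [ht]
            · intro t ht; simp [ht]
        _ ≤ I.card ^ I.card := Nat.pow_le_pow_left hpf _
    calc F.card ≤ I.card ^ I.card * (F.image x).card := Finset.card_le_mul_card_image F _ hfibx
      _ ≤ I.card ^ I.card * (Q ^ I.card / d + 1) := Nat.mul_le_mul_left _ himgx
      _ = (Q ^ I.card / d + 1) * I.card ^ I.card := Nat.mul_comm _ _
  calc s.card ≤ ((Q ^ I.card / d + 1) * I.card ^ I.card) * (s.image f).card :=
        Finset.card_le_mul_card_image s _ hfib
    _ ≤ ((Q ^ I.card / d + 1) * I.card ^ I.card) * P.card ^ (n - I.card) :=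
        Nat.mul_le_mul_left _ himg
    _ = _ := Nat.mul_comm _ _

/-- The weighted sum over pairs of subsets of `U`. -/
lemma sum_pairs_powerset {α : Type*} [DecidableEq α] (U : Finset α) :
    ∑ S ∈ U.powerset, ∑ S' ∈ U.powerset, ((1 / 2 : ℚ)) ^ (S \ S').card = (7 / 2 : ℚ) ^ U.card := by
  induction U using Finset.induction_on with
  | empty => simp
  | insert a U ha ih =>
    rw [Finset.sum_powerset_insert ha, Finset.card_insert_of_notMem ha, pow_succ, ← ih,
      Finset.sum_mul, ← Finset.sum_add_distrib]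
    apply Finset.sum_congr rfl
    intro S hS
    have haS : a ∉ S := fun h => ha (mem_powerset.mp hS h)
    rw [Finset.sum_powerset_insert ha, Finset.sum_powerset_insert ha, Finset.sum_mul,
      ← Finset.sum_add_distrib, ← Finset.sum_add_distrib, ← Finset.sum_add_distrib]
    apply Finset.sum_congr rfl
    intro S' hS'
    have haS' : a ∉ S' := fun h => ha (mem_powerset.mp hS' h)
    have h2 : S \ insert a S' = S \ S' := by
      ext t
      simp only [mem_sdiff, mem_insert, not_or]
      constructor
      · rintro ⟨h1, _, h3⟩; exact ⟨h1, h3⟩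
      · rintro ⟨h1, h3⟩
        refine ⟨h1, ?_, h3⟩
        rintro rfl
        exact haS h1
    have h3 : insert a S \ insert a S' = S \ S' := by
      ext t
      simp only [mem_sdiff, mem_insert, not_or]
      constructor
      · rintro ⟨h1 | h1, h2, h3⟩
        · exact absurd h1 h2
        · exact ⟨h1, h3⟩
      · rintro ⟨h1, h3⟩
        refine ⟨Or.inr h1, ?_, h3⟩
        rintro rfl
        exact haS h1
    have h4 : insert a S \ S' = insert a (S \ S') := Finset.insert_sdiff_of_notMem _ haS'
    have h5 : a ∉ S \ S' := fun h => haS (mem_sdiff.mp h).1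
    rw [h2, h3, h4, Finset.card_insert_of_notMem h5, pow_succ]
    ring

theorem tail_count (n k0 : ℕ) (hk : k0 ≤ n) :
    (univ.filter (fun p : Pairs n => (p.1 \ p.2).card < k0)).card * 2 ^ (n - k0) ≤ 7 ^ n := by
  classical
  have hsum : ∑ p : Pairs n, ((1 / 2 : ℚ)) ^ (p.1 \ p.2).card = (7 / 2 : ℚ) ^ n := by
    have h := sum_pairs_powerset (univ : Finset (Fin n))
    rw [Finset.powerset_univ, Finset.card_univ, Fintype.card_fin] at h
    rw [← h, ← Finset.univ_product_univ, Finset.sum_product]
  have hlow : ((univ.filter (fun p : Pairs n => (p.1 \ p.2).card < k0)).card : ℚ) * (1 / 2) ^ k0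
      ≤ (7 / 2 : ℚ) ^ n := by
    rw [← hsum, ← nsmul_eq_mul]
    calc _ ≤ ∑ p ∈ univ.filter (fun p : Pairs n => (p.1 \ p.2).card < k0),
            ((1 / 2 : ℚ)) ^ (p.1 \ p.2).card := by
          apply Finset.card_nsmul_le_sum
          intro p hp
          have := (mem_filter.mp hp).2
          exact pow_le_pow_of_le_one (by norm_num) (by norm_num) this.le
      _ ≤ _ := Finset.sum_le_sum_of_subset_of_nonneg (filter_subset _ _)
          (fun _ _ _ => by positivity)
  have h2 : (2 : ℚ) ^ n = 2 ^ (n - k0) * 2 ^ k0 := by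
    rw [← pow_add, Nat.sub_add_cancel hk]
  have hq : (((univ.filter (fun p : Pairs n => (p.1 \ p.2).card < k0)).card * 2 ^ (n - k0) : ℕ) : ℚ)
      ≤ ((7 ^ n : ℕ) : ℚ) := by
    push_cast
    have h7 : (7 : ℚ) ^ n = (7 / 2 : ℚ) ^ n * 2 ^ n := by
      rw [← mul_pow]; norm_num
    rw [h7, h2]
    have hk2 : ((1 / 2 : ℚ)) ^ k0 * 2 ^ k0 = 1 := by
      rw [← mul_pow]; norm_num
    have hpos : (0 : ℚ) < 2 ^ (n - k0) * 2 ^ k0 := by positivity
    calc ((univ.filter (fun p : Pairs n => (p.1 \ p.2).card < k0)).card : ℚ) * 2 ^ (n - k0)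
        = (((univ.filter (fun p : Pairs n => (p.1 \ p.2).card < k0)).card : ℚ) * (1 / 2) ^ k0)
            * (2 ^ (n - k0) * 2 ^ k0) := by
          rw [show ((univ.filter (fun p : Pairs n => (p.1 \ p.2).card < k0)).card : ℚ)
              * (1 / 2) ^ k0 * (2 ^ (n - k0) * 2 ^ k0)
              = ((univ.filter (fun p : Pairs n => (p.1 \ p.2).card < k0)).card : ℚ)
                * 2 ^ (n - k0) * ((1 / 2) ^ k0 * 2 ^ k0) by ring, hk2, mul_one]
      _ ≤ _ := mul_le_mul_of_nonneg_right hlow hpos.le
  exact_mod_cast hq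

end Vale.Agent.Lib.P012.M
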