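import Vale.Agent.Lib.P012.MAssemble
import Vale.Agent.Lib.P012.MBil

open Finset

namespace Vale.Agent.Lib.P012.M

/-- The eight marker primes. -/
def mk : Fin 8 → ℕ := ![3, 5, 7, 11, 13, 17, 19, 23]

lemma mk_prime (i : Fin 8) : (mk i).Prime := by
  fin_cases i <;> simp only [mk] <;> norm_num

lemma mk_le (i : Fin 8) : mk i ≤ 23 := by
  fin_cases i <;> simp [mk]

lemma mk_ne (i : Fin 8) : mk i ≠ 29 := by
  fin_cases i <;> simp [mk]

lemma mk_inj : Function.Injective mk := by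
  decide

lemma mk_prod : ∏ i, mk i = 111546435 := by
  simp [mk, Fin.prod_univ_eight]

lemma prime_29 : Nat.Prime 29 := by norm_num

/-- The product of all the generators of one family. -/
def Gam {n : ℕ} (g : Fin n → ℕ) : ℕ := ∏ t, g t

/-- The common multiple of all the numbers used. -/
def Zd {n : ℕ} (G : Fin 8 → Fin n → ℕ) : ℕ := 29 * (∏ i, mk i) * ∏ i, Gam (G i) ^ 2

lemma aP_dvd_Gam {n : ℕ} (g : Fin n → ℕ) (S : Finset (Fin n)) : aP g S ∣ Gam g :=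
  Finset.prod_dvd_prod_of_subset _ _ _ (Finset.subset_univ S)

lemma N_dvd_Zd {n : ℕ} (G : Fin 8 → Fin n → ℕ) (i : Fin 8) (S S' : Finset (Fin n)) :
    29 * mk i * (aP (G i) S * aP (G i) S') ∣ Zd G := by
  have h1 : aP (G i) S * aP (G i) S' ∣ Gam (G i) ^ 2 := by
    rw [sq]
    exact mul_dvd_mul (aP_dvd_Gam _ _) (aP_dvd_Gam _ _)
  have h2 : Gam (G i) ^ 2 ∣ ∏ i, Gam (G i) ^ 2 :=
    Finset.dvd_prod_of_mem (fun i => Gam (G i) ^ 2) (Finset.mem_univ i)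
  have h3 : mk i ∣ ∏ i, mk i := Finset.dvd_prod_of_mem _ (Finset.mem_univ i)
  have h4 : 29 * mk i ∣ 29 * (∏ i, mk i) := mul_dvd_mul_left _ h3
  exact mul_dvd_mul h4 (h1.trans h2)

section gens

variable {n : ℕ} {G : Fin 8 → Fin n → ℕ}

lemma odd_Gam {g : Fin n → ℕ} (hg : ∀ t, Odd (g t)) : Odd (Gam g) :=
  Finset.prod_induction _ Odd (fun _ _ ha hb => ha.mul hb) odd_one (fun t _ => hg t)

lemma odd_aP {g : Fin n → ℕ} (hg : ∀ t, Odd (g t)) (S : Finset (Fin n)) : Odd (aP g S) :=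
  Finset.prod_induction _ Odd (fun _ _ ha hb => ha.mul hb) odd_one (fun t _ => hg t)

lemma odd_Zd (hG : ∀ i t, Odd (G i t)) : Odd (Zd G) := by
  have h1 : Odd (∏ i, mk i) := by
    rw [mk_prod]
    exact ⟨55773217, by norm_num⟩
  have h2 : Odd (∏ i, Gam (G i) ^ 2) :=
    Finset.prod_induction _ Odd (fun _ _ ha hb => ha.mul hb) odd_one
      (fun i _ => (odd_Gam (hG i)).pow)
  exact ((by decide : Odd 29).mul h1).mul h2

lemma not_841_dvd_Zd (hG : ∀ i t, (G i t).Prime) (hG' : ∀ i t, 29 < G i t) : ¬ 841 ∣ Zd G := by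
  intro hd
  have hc1 : Nat.Coprime 29 (∏ i, mk i) := by rw [mk_prod]; norm_num
  have hc2 : Nat.Coprime 29 (∏ i, Gam (G i) ^ 2) := by
    refine Nat.Coprime.prod_right fun i _ => Nat.Coprime.pow_right _ ?_
    refine Nat.Coprime.prod_right fun t _ => ?_
    exact (Nat.coprime_primes prime_29 (hG i t)).mpr (hG' i t).ne
  have h1 : Zd G = 29 * ((∏ i, mk i) * ∏ i, Gam (G i) ^ 2) := by
    rw [Zd]; ring
  rw [h1, show (841 : ℕ) = 29 * 29 by norm_num] at hd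
  have h2 : 29 ∣ (∏ i, mk i) * ∏ i, Gam (G i) ^ 2 :=
    Nat.dvd_of_mul_dvd_mul_left (by norm_num) hd
  have h3 : Nat.Coprime 29 ((∏ i, mk i) * ∏ i, Gam (G i) ^ 2) := Nat.Coprime.mul_right hc1 hc2
  have h4 := h3.eq_one_of_dvd h2
  omega

lemma Zd_le {Q : ℕ} (hG : ∀ i t, G i t ≤ Q) : Zd G ≤ 2 ^ 32 * Q ^ (16 * n) := by
  have h1 : ∀ i, Gam (G i) ≤ Q ^ n := by
    intro i
    calc Gam (G i) ≤ ∏ _t : Fin n, Q := Finset.prod_le_prod' (fun t _ => hG i t)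
      _ = Q ^ n := by simp
  have h2 : ∏ i, Gam (G i) ^ 2 ≤ Q ^ (16 * n) := by
    calc ∏ i, Gam (G i) ^ 2 ≤ ∏ _i : Fin 8, (Q ^ n) ^ 2 :=
          Finset.prod_le_prod' (fun i _ => Nat.pow_le_pow_left (h1 i) 2)
      _ = Q ^ (16 * n) := by
          simp only [Finset.prod_const, Finset.card_univ, Fintype.card_fin]
          rw [← pow_mul, ← pow_mul]
          congr 1
          ring
  rw [Zd, mk_prod]
  calc 29 * 111546435 * ∏ i, Gam (G i) ^ 2 ≤ 2 ^ 32 * ∏ i, Gam (G i) ^ 2 :=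
        Nat.mul_le_mul_right _ (by norm_num)
    _ ≤ _ := Nat.mul_le_mul_left _ h2

end gens

/-- The set of all generators. -/
def genSet {n : ℕ} (G : Fin 8 → Fin n → ℕ) : Finset ℕ :=
  (univ : Finset (Fin 8 × Fin n)).image (fun p => G p.1 p.2)

lemma mem_genSet {n : ℕ} {G : Fin 8 → Fin n → ℕ} (i : Fin 8) (t : Fin n) : G i t ∈ genSet G :=
  Finset.mem_image.mpr ⟨(i, t), Finset.mem_univ _, rfl⟩

lemma genSet_card {n : ℕ} (G : Fin 8 → Fin n → ℕ) : (genSet G).card ≤ 8 * n := by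
  refine Finset.card_image_le.trans ?_
  simp

/-- From the sum bound to the representation of a good digit. -/
theorem rep_of_good {n Y C c : ℕ} {G : Fin 8 → Fin n → ℕ} (hY : 29 ≤ Y)
    (hprime : ∀ i t, (G i t).Prime) (hbig : ∀ i t, 29 < G i t)
    (hΦ : ∑ d ∈ Ioc Y C, d ^ 5 * ∏ i, psi (G i) d < (4 ^ n) ^ 8)
    (hc : Good Y (genSet G) c) (hcC : c ≤ C) : Rep (Zd G) c := by
  classical
  have hcpos : 0 < c := (hc.odd (by omega)).pos
  have hsmall : ∀ π, π.Prime → π ≤ 29 → Nat.Coprime c π := by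
    intro π hπ hle
    exact ((Nat.Prime.coprime_iff_not_dvd hπ).mpr (hc.1 π hπ (by omega))).symm
  have hμ : ∀ i, Nat.Coprime c (29 * mk i) := fun i =>
    Nat.Coprime.mul_right (hsmall 29 prime_29 le_rfl)
      (hsmall _ (mk_prime i) ((mk_le i).trans (by norm_num)))
  have hsum : ∑ d ∈ c.divisors.filter (1 < ·), d ^ 5 * ∏ i, coll (G i) d < (4 ^ n) ^ 8 := by
    refine lt_of_le_of_lt ?_ hΦ
    have hsub : c.divisors.filter (1 < ·) ⊆ Ioc Y C := by
      intro d hd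
      obtain ⟨hd1, hd2⟩ := Finset.mem_filter.mp hd
      have hdc := Nat.dvd_of_mem_divisors hd1
      refine Finset.mem_Ioc.mpr ⟨?_, (Nat.le_of_dvd hcpos hdc).trans hcC⟩
      by_contra hcon
      obtain ⟨π, hπ, hπd⟩ := Nat.exists_prime_and_dvd (n := d) (by omega)
      have h3 : π ≤ d := Nat.le_of_dvd (by omega) hπd
      exact hc.1 π hπ (by omega) (hπd.trans hdc)
    refine le_trans (le_of_eq ?_) (Finset.sum_le_sum_of_subset hsub)
    refine Finset.sum_congr rfl fun d hd => ?_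
    obtain ⟨hd1, hd2⟩ := Finset.mem_filter.mp hd
    have hdc := Nat.dvd_of_mem_divisors hd1
    congr 1
    refine Finset.prod_congr rfl fun i _ => ?_
    rw [psi, if_pos]
    intro t
    have h5 : ¬ G i t ∣ c := hc.2 _ (mem_genSet i t)
    exact ((Nat.Prime.coprime_iff_not_dvd (hprime i t)).mpr fun h6 => h5 (h6.trans hdc)).symm
  obtain ⟨S, S', hdiv⟩ := exists_solution G (fun i => 29 * mk i) hcpos hμ hsum
  set x : Fin 8 → ℕ := fun i => 29 * mk i * (aP (G i) (S i) * aP (G i) (S' i)) with hx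
  obtain ⟨k, hk⟩ := hdiv
  have hoddG : ∀ i t, Odd (G i t) := fun i t =>
    (hprime i t).odd_of_ne_two (by have := hbig i t; omega)
  have hoddx : ∀ i, Odd (x i) := by
    intro i
    have h1 : Odd (mk i) := (mk_prime i).odd_of_ne_two (by
      fin_cases i <;> simp [mk])
    exact ((by decide : Odd 29).mul h1).mul
      ((odd_aP (hoddG i) _).mul (odd_aP (hoddG i) _))
  have hevensum : Even (∑ i, x i) := by
    simp only [Fin.sum_univ_eight]
    obtain ⟨a0, h0⟩ := hoddx 0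
    obtain ⟨a1, h1⟩ := hoddx 1
    obtain ⟨a2, h2⟩ := hoddx 2
    obtain ⟨a3, h3⟩ := hoddx 3
    obtain ⟨a4, h4⟩ := hoddx 4
    obtain ⟨a5, h5⟩ := hoddx 5
    obtain ⟨a6, h6⟩ := hoddx 6
    obtain ⟨a7, h7⟩ := hoddx 7
    rw [Nat.even_iff]
    omega
  have hodd1 : Odd (1 + ∑ i, x i) := by
    rw [add_comm]
    exact hevensum.add_one
  have hkodd : Odd k := by
    rw [hk] at hodd1
    exact (Nat.odd_mul.mp hodd1).2
  have hsum29 : 29 ∣ ∑ i, x i := by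
    refine Finset.dvd_sum fun i _ => ?_
    simp only [hx]
    rw [mul_assoc]
    exact Dvd.intro _ rfl
  have hk29 : Nat.Coprime k 29 := by
    refine ((Nat.Prime.coprime_iff_not_dvd prime_29).mpr fun h => ?_).symm
    have h1 : 29 ∣ 1 + ∑ i, x i := by
      rw [hk]
      exact Dvd.dvd.mul_left h _
    have h2 : 29 ∣ 1 := (Nat.dvd_add_left hsum29).mp h1
    omega
  refine ⟨k, Fin.cons 1 x, ?_, ?_, ?_, hkodd, hk29⟩
  · rw [Fin.cons_injective_iff]
    refine ⟨?_, ?_⟩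
    · rintro ⟨i, hi⟩
      have h1 : 29 ∣ x i := by
        simp only [hx]
        rw [mul_assoc]
        exact Dvd.intro _ rfl
      rw [hi] at h1
      omega
    · intro i j hij
      by_contra hne
      have h1 : mk i ∣ x i := by
        simp only [hx]
        exact Dvd.dvd.mul_right (Dvd.intro_left _ rfl) _
      rw [hij] at h1
      simp only [hx] at h1
      have hp := mk_prime i
      rcases (Nat.Prime.dvd_mul hp).mp h1 with h2 | h2
      · rcases (Nat.Prime.dvd_mul hp).mp h2 with h3 | h3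
        · exact mk_ne i ((Nat.prime_dvd_prime_iff_eq hp prime_29).mp h3)
        · exact hne (mk_inj ((Nat.prime_dvd_prime_iff_eq hp (mk_prime j)).mp h3))
      · have hA : ∀ T : Finset (Fin n), ¬ mk i ∣ aP (G j) T := by
          intro T hT
          rw [aP, hp.prime.dvd_finsetProd_iff] at hT
          obtain ⟨t, -, ht⟩ := hT
          have h5 := (Nat.prime_dvd_prime_iff_eq hp (hprime j t)).mp ht
          have h6 := hbig j t
          have h7 := mk_le i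
          omega
        rcases (Nat.Prime.dvd_mul hp).mp h2 with h3 | h3
        · exact hA _ h3
        · exact hA _ h3
  · intro i
    refine Fin.cases ?_ (fun j => ?_) i
    · simp
    · simp only [Fin.cons_succ]
      exact N_dvd_Zd G j _ _
  · rw [Fin.sum_univ_succ]
    simp only [Fin.cons_zero, Fin.cons_succ]
    rw [mul_comm k c]
    exact hk

lemma pow_big {ν : ℕ} (hν : 200 ≤ ν) : 2 ^ 74 * ν ^ 8 ≤ 2 ^ ν := by
  induction ν, hν using Nat.le_induction with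
  | base => norm_num
  | succ ν hν ih =>
    have h1 : (ν + 1) ^ 8 ≤ 2 * ν ^ 8 := by
      have h2 : 200 * (ν + 1) ≤ 201 * ν := by omega
      have h3 : (200 * (ν + 1)) ^ 8 ≤ (201 * ν) ^ 8 := Nat.pow_le_pow_left h2 8
      rw [mul_pow, mul_pow] at h3
      have h4 : 201 ^ 8 * ν ^ 8 ≤ 200 ^ 8 * (2 * ν ^ 8) := by
        have h5 : (201 : ℕ) ^ 8 ≤ 200 ^ 8 * 2 := by norm_num
        calc 201 ^ 8 * ν ^ 8 ≤ (200 ^ 8 * 2) * ν ^ 8 := Nat.mul_le_mul_right _ h5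
          _ = _ := by ring
      exact Nat.le_of_mul_le_mul_left (h3.trans h4) (by positivity)
    calc 2 ^ 74 * (ν + 1) ^ 8 ≤ 2 ^ 74 * (2 * ν ^ 8) := Nat.mul_le_mul_left _ h1
      _ = 2 * (2 ^ 74 * ν ^ 8) := by ring
      _ ≤ 2 * 2 ^ ν := Nat.mul_le_mul_left _ ih
      _ = 2 ^ (ν + 1) := by rw [pow_succ]; ring

lemma Ymax_le (ν : ℕ) : Ymax ν ≤ 2 ^ 68 * ν ^ 8 := by
  rw [Ymax, mul_pow, ← mul_assoc]
  exact Nat.mul_le_mul_right _ (by norm_num)

/-- The parameters combined. -/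
theorem main_of_good {ν n a b : ℕ} (hν : 200 ≤ ν) (hn : n = 2 ^ ν) {G : Fin 8 → Fin n → ℕ}
    (hG : ∀ i t, G i t ∈ Pool ν)
    (hΦ : ∑ d ∈ Ioc (Ymax ν) (Cmax ν), d ^ 5 * ∏ i, psi (G i) d < (4 ^ n) ^ 8)
    (ha1 : 1 ≤ a) (hab : a < b) (hb : b ≤ 2 ^ n) :
    ∃ T : Finset ℕ, (∀ t ∈ T, 2 ≤ t) ∧ T.card ≤ 740000 * ν ∧
      ∑ t ∈ T, (1 : ℚ) / t = (a : ℚ) / b := by
  classical
  have hbig0 : 2 ^ 74 * ν ^ 8 ≤ n := hn ▸ pow_big hν
  have hνsq : 1 ≤ ν ^ 8 := Nat.one_le_pow _ _ (by omega)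
  have hνle : ν ≤ ν ^ 8 := by
    calc ν = ν ^ 1 := (pow_one ν).symm
      _ ≤ ν ^ 8 := Nat.pow_le_pow_right (by omega) (by norm_num)
  set m := 2 ^ (ν - 4) with hm
  have hnm : n = 16 * m := by
    rw [hn, hm, show (16 : ℕ) = 2 ^ 4 by norm_num, ← pow_add]
    congr 1
    omega
  have hC : Cmax ν = 2 ^ (2 * m) := by
    rw [Cmax]
    congr 1
    rw [hm, show 2 * 2 ^ (ν - 4) = 2 ^ (ν - 4 + 1) by rw [pow_succ]; ring]
    congr 1
    omega
  have hnbig : 2 ^ 74 * ν ^ 8 ≤ n := hbig0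
  have hnbig2 : 2 ^ 74 * ν ≤ n := (Nat.mul_le_mul_left _ hνle).trans hnbig
  have hnbig3 : 2 ^ 74 ≤ n := by
    calc 2 ^ 74 = 2 ^ 74 * 1 := (mul_one _).symm
      _ ≤ 2 ^ 74 * ν ^ 8 := Nat.mul_le_mul_left _ hνsq
      _ ≤ n := hnbig
  have hmbig : 2 ^ 70 * ν ^ 8 ≤ m := by
    have : 16 * (2 ^ 70 * ν ^ 8) ≤ 16 * m := by
      rw [← hnm]
      calc 16 * (2 ^ 70 * ν ^ 8) = 2 ^ 74 * ν ^ 8 := by ring
        _ ≤ n := hnbig
    omega
  have hm1 : 2 ^ 70 ≤ m := by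
    calc 2 ^ 70 = 2 ^ 70 * 1 := (mul_one _).symm
      _ ≤ 2 ^ 70 * ν ^ 8 := Nat.mul_le_mul_left _ hνsq
      _ ≤ m := hmbig
  set Y := Ymax ν with hY
  have hYle : Y ≤ 2 ^ 68 * ν ^ 8 := Ymax_le ν
  have hYge : 29 ≤ Y := by
    rw [hY, Ymax]
    have : 1 ≤ (80 * ν) ^ 8 := Nat.one_le_pow _ _ (by omega)
    calc 29 ≤ 2 ^ 17 * 1 := by norm_num
      _ ≤ _ := Nat.mul_le_mul_left _ this
  set U := 16 * n + 1 with hU
  set W := primorial Y with hW
  set Θ := 2 ^ m * (W * U + 1) with hΘ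
  set Z := Zd G with hZ
  set B := genSet G with hB
  -- the generators
  have hPool : ∀ i t, 2 ^ (20 * ν) < G i t ∧ G i t ≤ 2 ^ (40 * ν) ∧ (G i t).Prime := by
    intro i t
    have h1 := Finset.mem_filter.mp (hG i t)
    have h2 := Finset.mem_Ioc.mp h1.1
    exact ⟨h2.1, h2.2, h1.2⟩
  have hprime : ∀ i t, (G i t).Prime := fun i t => (hPool i t).2.2
  have hlarge : n ≤ 2 ^ (20 * ν) := by
    rw [hn]
    exact Nat.pow_le_pow_right (by norm_num) (by omega)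
  have hlarge2 : 32 * n ≤ 2 ^ (20 * ν) := by
    calc 32 * n = 2 ^ (ν + 5) := by rw [hn, pow_add]; ring
      _ ≤ 2 ^ (20 * ν) := Nat.pow_le_pow_right (by norm_num) (by omega)
  have hbig : ∀ i t, 29 < G i t := by
    intro i t
    have := (hPool i t).1
    omega
  have hYn : Y ≤ n := by
    calc Y ≤ 2 ^ 68 * ν ^ 8 := hYle
      _ ≤ 2 ^ 74 * ν ^ 8 := Nat.mul_le_mul_right _ (by norm_num)
      _ ≤ n := hnbig
  have hBp : ∀ π ∈ B, π.Prime ∧ U < π ∧ Y < π := by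
    intro π hπ
    obtain ⟨p, -, rfl⟩ := Finset.mem_image.mp hπ
    have h1 := (hPool p.1 p.2).1
    exact ⟨hprime _ _, by omega, by omega⟩
  have hUB : 2 * B.card + 1 ≤ U := by
    have h1 : B.card ≤ 8 * n := genSet_card G
    omega
  have hm1' : 1 ≤ m := by
    have : 1 ≤ 2 ^ 70 := Nat.one_le_two_pow
    omega
  have hY2 : 2 ≤ Y := by omega
  -- the size of the threshold
  have hWle : W ≤ 2 ^ (2 * Y) := by
    rw [pow_mul]
    exact primorial_le_four_pow Y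
  have hWpos : 0 < W := primorial_pos Y
  have hΘC : Θ ≤ 2 ^ (2 * m) := by
    have h1 : W * U + 1 ≤ 2 ^ (2 * Y) * 2 ^ (ν + 6) := by
      have h2 : U + 1 ≤ 2 ^ (ν + 6) := by
        have : 2 ^ (ν + 6) = 64 * n := by rw [hn, pow_add]; ring
        omega
      calc W * U + 1 ≤ W * U + W := by omega
        _ = W * (U + 1) := by ring
        _ ≤ _ := Nat.mul_le_mul hWle h2
    have h3 : 2 * Y + (ν + 6) ≤ m := by
      have h4 : 2 * Y ≤ 2 ^ 69 * ν ^ 8 := by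
        calc 2 * Y ≤ 2 * (2 ^ 68 * ν ^ 8) := Nat.mul_le_mul_left _ hYle
          _ = _ := by ring
      have h5 : 2 ^ 70 * ν ^ 8 = 2 ^ 69 * ν ^ 8 + 2 ^ 69 * ν ^ 8 := by ring
      have h6 : ν + 6 ≤ 2 ^ 69 * ν ^ 8 := by
        calc ν + 6 ≤ ν ^ 8 + 6 * ν ^ 8 := by omega
          _ = 7 * ν ^ 8 := by ring
          _ ≤ _ := Nat.mul_le_mul_right _ (by norm_num)
      omega
    calc Θ = 2 ^ m * (W * U + 1) := rfl
      _ ≤ 2 ^ m * (2 ^ (2 * Y) * 2 ^ (ν + 6)) := Nat.mul_le_mul_left _ h1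
      _ = 2 ^ (m + (2 * Y + (ν + 6))) := by rw [← pow_add, ← pow_add]
      _ ≤ 2 ^ (2 * m) := Nat.pow_le_pow_right (by norm_num) (by omega)
  have hΘge : 2 ^ m ≤ Θ := Nat.le_mul_of_pos_right _ (by omega)
  have hΘpos : 0 < Θ := lt_of_lt_of_le (by positivity) hΘge
  -- the good numbers
  have hstep : ∀ x, Odd x → Θ ≤ x → ∃ c x', x = c + 2 ^ m * x' ∧ c < Θ ∧ Good Y B c ∧ Good Y B x' := by
    intro x hx hxΘ
    obtain ⟨c, x', h1, h2, h3, h4⟩ := digit_step B hBp hY2 hUB hm1' hx hxΘ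
    refine ⟨c, x', h1, lt_of_lt_of_le h2 ?_, h3, h4⟩
    exact Nat.mul_le_mul_left _ (Nat.le_succ _)
  have hrep : ∀ c, Good Y B c → c < Θ → Rep Z c := by
    intro c hc hcΘ
    refine rep_of_good hYge hprime hbig hΦ hc ?_
    rw [hC]
    exact hcΘ.le.trans hΘC
  have hoddg : ∀ x, Good Y B x → Odd x := fun x hx => hx.odd hY2
  -- the assembling
  set LZ := 32 + 640 * ν * n with hLZ
  have hQ : ∀ i t, G i t ≤ 2 ^ (40 * ν) := fun i t => (hPool i t).2.1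
  have hZle : Z ≤ 2 ^ LZ := by
    have h1 := Zd_le hQ
    refine h1.trans (le_of_eq ?_)
    rw [← pow_mul, hLZ, pow_add]
    congr 2
    ring
  set L := n + 2 * LZ with hL
  set L' := 13 + 2 * m with hL'
  set J := 35 + 40960 * ν with hJ
  have hJm : 2 * L + L' ≤ m * J := by
    rw [hL, hL', hLZ, hnm, hJ]
    have h1 : m * (35 + 40960 * ν) = 35 * m + 40960 * (m * ν) := by ring
    have h2 : 2 * (16 * m + 2 * (32 + 640 * ν * (16 * m))) + (13 + 2 * m)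
        = 34 * m + 141 + 40960 * (m * ν) := by ring
    rw [h1, h2]
    omega
  have hbZ : b * (Z * Z) ≤ 2 ^ L := by
    calc b * (Z * Z) ≤ 2 ^ n * (2 ^ LZ * 2 ^ LZ) :=
          Nat.mul_le_mul hb (Nat.mul_le_mul hZle hZle)
      _ = 2 ^ L := by rw [← pow_add, ← pow_add, hL, two_mul]
  have hΘL : 841 * (2 * Θ + 3) ≤ 2 ^ L' := by
    have h1 : 2 ^ L' = 8192 * 2 ^ (2 * m) := by
      rw [hL', pow_add]
      norm_num
    rw [h1]
    omega
  have hg : Z ≤ sylv (2 * ν + 1) := by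
    refine hZle.trans (le_trans ?_ (sylv_ge (2 * ν)))
    apply Nat.pow_le_pow_right (by norm_num)
    have h1 : 2 ^ (2 * ν) = n * n := by rw [hn, two_mul, pow_add]
    rw [h1, hLZ]
    have h2 : 640 * ν + 1 ≤ n := by
      have : 2 ^ 74 * ν = 2 ^ 64 * (1024 * ν) := by ring
      have h3 : 640 * ν + 1 ≤ 2 ^ 74 * ν := by
        have h4 : (1 : ℕ) ≤ 2 ^ 64 := Nat.one_le_two_pow
        nlinarith
      omega
    have h3 : (640 * ν + 1) * n ≤ n * n := Nat.mul_le_mul_right _ h2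
    have h4 : (640 * ν + 1) * n = 640 * ν * n + n := by ring
    omega
  have hexp : ∀ D w x, Z ∣ D → Odd D → Odd x → Θ ≤ x → x < 2 ^ w → w ≤ 2 * L + L' →
      ∃ T : Finset ℕ, (∀ t ∈ T, ∃ u ≤ w, Form Z D u t) ∧ T.card ≤ 9 * (J + 1) ∧
        ∑ t ∈ T, (1 : ℚ) / t = (x : ℚ) / (2 ^ w * D) := by
    intro D w x hZD hD hx hxΘ hxw hw
    refine expansion hm1' hΘge hZD hD hstep hrep hoddg J x w hx (Or.inr hxΘ) hxw ?_
    calc x < 2 ^ w := hxw
      _ ≤ 2 ^ (m * J) := Nat.pow_le_pow_right (by norm_num) (hw.trans hJm)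
      _ ≤ Θ * 2 ^ (m * J) := Nat.le_mul_of_pos_left _ hΘpos
  have hoddGen : ∀ i t, Odd (G i t) := fun i t =>
    (hprime i t).odd_of_ne_two (by have := hbig i t; omega)
  obtain ⟨T, h1, h2, h3⟩ := assemble (odd_Zd hoddGen) (not_841_dvd_Zd hprime hbig) hexp hbZ hΘL hg
    ha1 hab
  refine ⟨T, h1, h2.trans ?_, h3⟩
  rw [hJ]
  omega

end Vale.Agent.Lib.P012.M
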