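import Vale.Agent.Lib.P012.Level

open Finset

namespace Vale.Agent.Lib.P012

lemma pow_two_le_mul_primeCounting (m : ℕ) (hm : 1 ≤ m) :
    2 ^ m ≤ m * (Nat.primeCounting (2 ^ m) + 2) := by
  have h := Chebyshev.pi_ge (2 ^ m)
  have hlog2 : 0 < Real.log 2 := Real.log_pos (by norm_num)
  have hm' : (0 : ℝ) < m := by exact_mod_cast hm
  have hlogn : Real.log ((2 ^ m : ℕ) : ℝ) = m * Real.log 2 := by
    push_cast
    rw [Real.log_pow]
  rw [hlogn, div_le_iff₀ (by positivity)] at h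
  have h1 : Real.log (((2 ^ m : ℕ) : ℝ) + 1) ≤ (m + 1) * Real.log 2 := by
    have h2 : ((2 ^ m : ℕ) : ℝ) + 1 ≤ 2 ^ (m + 1) := by
      push_cast
      have : (1 : ℝ) ≤ 2 ^ m := one_le_pow₀ (by norm_num)
      rw [pow_succ]
      linarith
    calc Real.log (((2 ^ m : ℕ) : ℝ) + 1) ≤ Real.log (2 ^ (m + 1)) :=
          Real.log_le_log (by positivity) h2
      _ = (m + 1) * Real.log 2 := by rw [Real.log_pow]; push_cast; ring
  have h3 : ((2 ^ m : ℕ) : ℝ) * Real.log 2 ≤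
      ((Nat.primeCounting (2 ^ m) : ℝ) * m + m + 1) * Real.log 2 := by
    have h4 : ((Nat.primeCounting (2 ^ m) : ℝ) * m + m + 1) * Real.log 2
        = (Nat.primeCounting (2 ^ m) : ℝ) * (m * Real.log 2) + (m + 1) * Real.log 2 := by ring
    rw [h4]
    linarith
  have h5 : ((2 ^ m : ℕ) : ℝ) ≤ (Nat.primeCounting (2 ^ m) : ℝ) * m + m + 1 :=
    le_of_mul_le_mul_right h3 hlog2
  have h6 : 2 ^ m ≤ Nat.primeCounting (2 ^ m) * m + m + 1 := by exact_mod_cast h5
  nlinarith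

lemma card_primesLE (n : ℕ) : (Nat.primesLE n).card = Nat.primeCounting n := by
  rw [Nat.primeCounting, Nat.primeCounting', Nat.count_eq_card_filter_range]
  rfl

/-- The generators: primes above 11 and up to `2 ^ y`. -/
def gens (y : ℕ) : Finset ℕ := (Nat.primesLE (2 ^ y)).filter (fun p => 11 < p)

/-- The product of the generators. -/
def Gam (y : ℕ) : ℕ := ∏ p ∈ gens y, p

/-- The fixed factor of the final number. -/
def Zed (y : ℕ) : ℕ := 1155 * (Gam y) ^ 2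

/-- The primes available as new moduli. -/
def poolAll (y : ℕ) : Finset ℕ := (Nat.primesLE (2 ^ (16 * y))).filter (fun p => 2 ^ (8 * y) ≤ p)

/-- Products of `r` distinct generators. -/
def setA (y r : ℕ) : Finset ℕ := ((gens y).powersetCard r).image (fun S => ∏ p ∈ S, p)

/-- The four marker primes. -/
def marks : Fin 4 → ℕ := ![3, 5, 7, 11]

lemma marks_prime (i : Fin 4) : (marks i).Prime := by
  fin_cases i <;> simp only [marks] <;> norm_num

lemma marks_inj : Function.Injective marks := by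
  intro i j h
  fin_cases i <;> fin_cases j <;> simp_all [marks]

lemma marks_dvd (i : Fin 4) : marks i ∣ 1155 := by
  fin_cases i <;> simp only [marks] <;> norm_num

lemma marks_le (i : Fin 4) : marks i ≤ 11 := by
  fin_cases i <;> simp [marks]

lemma mem_gens {y p : ℕ} : p ∈ gens y ↔ p ≤ 2 ^ y ∧ p.Prime ∧ 11 < p := by
  simp [gens, Nat.mem_primesLE, and_assoc]

lemma setA_card (y r : ℕ) : (setA y r).card = (gens y).card.choose r := by
  rw [setA, Finset.card_image_of_injOn, Finset.card_powersetCard]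
  intro S hS T hT hST
  have hSp : ∀ p ∈ S, p.Prime := fun p hp =>
    (mem_gens.mp ((Finset.mem_powersetCard.mp (Finset.mem_coe.mp hS)).1 hp)).2.1
  have hTp : ∀ p ∈ T, p.Prime := fun p hp =>
    (mem_gens.mp ((Finset.mem_powersetCard.mp (Finset.mem_coe.mp hT)).1 hp)).2.1
  have h1 := Nat.primeFactors_prod hSp
  have h2 := Nat.primeFactors_prod hTp
  have h3 : ∏ p ∈ S, p = ∏ p ∈ T, p := hST
  rw [← h1, ← h2, h3]

lemma setA_le {y r a : ℕ} (ha : a ∈ setA y r) : a ≤ 2 ^ (y * r) := by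
  obtain ⟨S, hS, rfl⟩ := Finset.mem_image.mp ha
  obtain ⟨hS1, hS2⟩ := Finset.mem_powersetCard.mp hS
  calc ∏ p ∈ S, p ≤ ∏ _p ∈ S, 2 ^ y := Finset.prod_le_prod' fun p hp => (mem_gens.mp (hS1 hp)).1
    _ = 2 ^ (y * r) := by rw [Finset.prod_const, ← pow_mul, hS2]

lemma setA_dvd {y r a : ℕ} (ha : a ∈ setA y r) : a ∣ Gam y := by
  obtain ⟨S, hS, rfl⟩ := Finset.mem_image.mp ha
  exact Finset.prod_dvd_prod_of_subset _ _ _ (Finset.mem_powersetCard.mp hS).1

lemma marks_not_dvd_setA {y r a : ℕ} (ha : a ∈ setA y r) (i : Fin 4) : ¬ marks i ∣ a := by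
  obtain ⟨S, hS, rfl⟩ := Finset.mem_image.mp ha
  obtain ⟨hS1, _⟩ := Finset.mem_powersetCard.mp hS
  intro h
  obtain ⟨p, hp, hdvd⟩ := (Prime.dvd_finsetProd_iff (marks_prime i).prime _).mp h
  have hp' := mem_gens.mp (hS1 hp)
  have := (Nat.prime_dvd_prime_iff_eq (marks_prime i) hp'.2.1).mp hdvd
  have h2 := marks_le i
  omega

lemma mem_poolAll {y q : ℕ} : q ∈ poolAll y ↔ q ≤ 2 ^ (16 * y) ∧ q.Prime ∧ 2 ^ (8 * y) ≤ q := by
  simp [poolAll, Nat.mem_primesLE, and_assoc]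

lemma two_pow_lt_of_pool {y q : ℕ} (hy : 1 ≤ y) (hq : q ∈ poolAll y) : 2 ^ y < q := by
  have h1 := (mem_poolAll.mp hq).2.2
  have h2 : 2 ^ (y + 1) ≤ 2 ^ (8 * y) := Nat.pow_le_pow_right (by norm_num) (by omega)
  have h3 : 2 ^ y < 2 ^ (y + 1) := Nat.pow_lt_pow_right (by norm_num) (by omega)
  omega

lemma big_of_pool {y q : ℕ} (hy : 2 ≤ y) (hq : q ∈ poolAll y) : 1155 < q := by
  have h1 := (mem_poolAll.mp hq).2.2
  have h2 : 2 ^ 16 ≤ 2 ^ (8 * y) := Nat.pow_le_pow_right (by norm_num) (by omega)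
  omega

lemma coprime_Zed_pool {y q : ℕ} (hy : 2 ≤ y) (hq : q ∈ poolAll y) : Nat.Coprime (Zed y) q := by
  have hqp := (mem_poolAll.mp hq).2.1
  rw [Nat.coprime_comm, hqp.coprime_iff_not_dvd]
  intro h
  rw [Zed] at h
  rcases (Nat.Prime.dvd_mul hqp).mp h with h1 | h1
  · have := Nat.le_of_dvd (by norm_num) h1
    have := big_of_pool hy hq
    omega
  · have h2 := hqp.dvd_of_dvd_pow h1
    obtain ⟨p, hp, hdvd⟩ := (Prime.dvd_finsetProd_iff hqp.prime _).mp h2
    have hp' := mem_gens.mp hp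
    have := (Nat.prime_dvd_prime_iff_eq hqp hp'.2.1).mp hdvd
    have h3 := two_pow_lt_of_pool (by omega) hq
    omega

lemma Gam_le (y : ℕ) : Gam y ≤ 4 ^ (2 ^ y) := by
  refine le_trans ?_ (primorial_le_four_pow (2 ^ y))
  rw [primorial_eq_prod_primesLE]
  exact Finset.prod_le_prod_of_subset_of_one_le' (Finset.filter_subset _ _)
    (fun _ hp _ => (Nat.prime_of_mem_primesLE hp).one_le)

lemma Zed_le (y : ℕ) : Zed y ≤ 2 ^ (11 + 4 * 2 ^ y) := by
  rw [Zed, pow_add]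
  have h1 : (1155 : ℕ) ≤ 2 ^ 11 := by norm_num
  have h2 : (Gam y) ^ 2 ≤ 2 ^ (4 * 2 ^ y) := by
    calc (Gam y) ^ 2 ≤ (4 ^ (2 ^ y)) ^ 2 := Nat.pow_le_pow_left (Gam_le y) 2
      _ = 2 ^ (4 * 2 ^ y) := by
        rw [show (4 : ℕ) = 2 ^ 2 by norm_num, ← pow_mul, ← pow_mul]; congr 1; ring
  exact Nat.mul_le_mul h1 h2

lemma Gam_pos (y : ℕ) : 0 < Gam y :=
  Finset.prod_pos fun p hp => (mem_gens.mp hp).2.1.pos

lemma Zed_ge (y : ℕ) : 1155 ≤ Zed y := by
  have := Gam_pos y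
  rw [Zed]
  nlinarith [pow_pos this 2]

/-- Lower bound for binomial coefficients. -/
lemma two_pow_le_choose (δ : ℕ) : ∀ (r n : ℕ), 2 ^ δ * r ≤ n → 2 ^ (δ * r) ≤ n.choose r := by
  intro r
  induction r with
  | zero => intro n _; simp
  | succ r ih =>
    intro n hn
    have h2pos : 0 < 2 ^ δ := by positivity
    obtain ⟨m, rfl⟩ : ∃ m, n = m + 1 := ⟨n - 1, by nlinarith [Nat.sub_add_cancel (show 1 ≤ n by nlinarith)]⟩
    have h1 : 2 ^ δ * r ≤ m := by nlinarith
    have h2 := ih m h1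
    have h3 := Nat.add_one_mul_choose_eq m r
    -- `(m + 1) * m.choose r = (m + 1).choose (r + 1) * (r + 1)`
    have h4 : 2 ^ (δ * (r + 1)) * (r + 1) ≤ (m + 1).choose (r + 1) * (r + 1) := by
      rw [← h3]
      calc 2 ^ (δ * (r + 1)) * (r + 1) = (2 ^ δ * (r + 1)) * 2 ^ (δ * r) := by
            rw [show δ * (r + 1) = δ + δ * r by ring, pow_add]; ring
        _ ≤ (m + 1) * m.choose r := Nat.mul_le_mul hn h2
    exact Nat.le_of_mul_le_mul_right h4 (by omega)

/-- The binary expansion, as a sum of distinct divisors of a power of two. -/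
lemma rep_two_pow (e : ℕ) : ∀ m < 2 ^ e, ∃ S : Finset ℕ, (∀ d ∈ S, d ∣ 2 ^ e) ∧ S.card ≤ e ∧
    ∑ d ∈ S, d = m := by
  induction e with
  | zero =>
    intro m hm
    have : m = 0 := by simpa using hm
    exact ⟨∅, by simp, by simp, by simp [this]⟩
  | succ e ih =>
    intro m hm
    by_cases h : m < 2 ^ e
    · obtain ⟨S, hS, hc, hs⟩ := ih m h
      exact ⟨S, fun d hd => (hS d hd).trans (pow_dvd_pow 2 (by omega)), by omega, hs⟩
    · have h1 : m - 2 ^ e < 2 ^ e := by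
        rw [pow_succ] at hm
        omega
      obtain ⟨S, hS, hc, hs⟩ := ih _ h1
      have hnot : 2 ^ e ∉ S := by
        intro hmem
        have h2 : 2 ^ e ≤ ∑ d ∈ S, d :=
          Finset.single_le_sum (f := fun d : ℕ => d) (fun _ _ => Nat.zero_le _) hmem
        omega
      refine ⟨insert (2 ^ e) S, ?_, ?_, ?_⟩
      · intro d hd
        rcases Finset.mem_insert.mp hd with rfl | hd
        · exact pow_dvd_pow 2 (by omega)
        · exact (hS d hd).trans (pow_dvd_pow 2 (by omega))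
      · rw [Finset.card_insert_of_notMem hnot]; omega
      · rw [Finset.sum_insert hnot, hs]; omega

end Vale.Agent.Lib.P012
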