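import Vale.Agent.Lib.P012.Fourier

open Finset

namespace Vale.Agent.Lib.P012

section select

variable {ι : Type*}

/-- The potential used for the greedy choice of primes. -/
noncomputable def potential (I : Finset ι) (z : ι → ℕ) (w : ℝ) (B : Finset ℕ) : ℝ :=
  ∑ i ∈ I, ∏ q ∈ B, (1 + w * (if q ∣ z i then 1 else 0))

lemma potential_empty (I : Finset ι) (z : ι → ℕ) (w : ℝ) : potential I z w ∅ = I.card := by
  simp [potential]

lemma potential_nonneg (I : Finset ι) (z : ι → ℕ) {w : ℝ} (hw : 0 ≤ w) (B : Finset ℕ) :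
    0 ≤ potential I z w B := by
  apply Finset.sum_nonneg
  intro i _
  apply Finset.prod_nonneg
  intro q _
  split_ifs <;> positivity

lemma potential_step (I : Finset ι) (z : ι → ℕ) {w : ℝ} (hw : 0 ≤ w) (B pool : Finset ℕ)
    (hdisj : Disjoint pool B) (hne : pool.Nonempty) (W : ℕ)
    (hW : ∀ i ∈ I, (pool.filter (fun q => q ∣ z i)).card ≤ W) :
    ∃ q ∈ pool, potential I z w (insert q B)
      ≤ potential I z w B * (1 + w * W / pool.card) := by
  have hcard : (0 : ℝ) < pool.card := by exact_mod_cast hne.card_pos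
  have hsum : ∑ q ∈ pool, potential I z w (insert q B)
      ≤ ∑ q ∈ pool, (potential I z w B * (1 + w * W / pool.card)) := by
    rw [Finset.sum_const, nsmul_eq_mul]
    have h1 : ∀ q ∈ pool, potential I z w (insert q B)
        = ∑ i ∈ I, (∏ p ∈ B, (1 + w * (if p ∣ z i then 1 else 0))) *
          (1 + w * (if q ∣ z i then 1 else 0)) := by
      intro q hq
      have hqB : q ∉ B := Finset.disjoint_left.mp hdisj hq
      simp only [potential]
      refine Finset.sum_congr rfl fun i _ => ?_
      rw [Finset.prod_insert hqB, mul_comm]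
    rw [Finset.sum_congr rfl h1, Finset.sum_comm]
    simp only [potential]
    rw [Finset.sum_mul, Finset.mul_sum]
    refine Finset.sum_le_sum fun i hi => ?_
    rw [← Finset.mul_sum, mul_left_comm]
    apply mul_le_mul_of_nonneg_left _ (by
      apply Finset.prod_nonneg
      intro q _
      split_ifs <;> positivity)
    rw [Finset.sum_add_distrib, Finset.sum_const, nsmul_eq_mul, mul_one, ← Finset.mul_sum]
    have h2 : ∑ q ∈ pool, (if q ∣ z i then (1 : ℝ) else 0) ≤ W := by
      rw [← Finset.natCast_card_filter]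
      exact_mod_cast hW i hi
    have h3 : (pool.card : ℝ) * (1 + w * W / pool.card) = pool.card + w * W := by
      field_simp
    rw [h3]
    nlinarith
  obtain ⟨q, hq, hle⟩ := Finset.exists_le_of_sum_le hne hsum
  exact ⟨q, hq, hle⟩

lemma one_add_inv_pow_le_three (M : ℕ) : (1 + 1 / (M : ℝ)) ^ M ≤ 3 := by
  rcases Nat.eq_zero_or_pos M with rfl | hM
  · norm_num
  have hM' : (0 : ℝ) < M := by exact_mod_cast hM
  have h1 : 1 + 1 / (M : ℝ) ≤ Real.exp (1 / M) := by
    have := Real.add_one_le_exp (1 / (M : ℝ))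
    linarith
  have h2 : (1 + 1 / (M : ℝ)) ^ M ≤ Real.exp (1 / M) ^ M := by
    gcongr
  have h3 : Real.exp (1 / M) ^ M = Real.exp 1 := by
    rw [← Real.exp_nat_mul]
    congr 1
    field_simp
  have h4 := Real.exp_one_lt_d9
  linarith

/-- The greedy choice of a batch of `M` elements of `pool` with small potential. -/
lemma exists_batch (I : Finset ι) (z : ι → ℕ) {w : ℝ} (hw : 0 ≤ w) (pool : Finset ℕ) (W M : ℕ)
    (hW : ∀ i ∈ I, (pool.filter (fun q => q ∣ z i)).card ≤ W)
    (hM : 2 * M ≤ pool.card) (hwM : 2 * w * W * M ≤ pool.card) :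
    ∃ B ⊆ pool, B.card = M ∧ potential I z w B ≤ 3 * I.card := by
  classical
  have key : ∀ m, m ≤ M → ∃ B ⊆ pool, B.card = m ∧
      potential I z w B ≤ I.card * (1 + 1 / (M : ℝ)) ^ m := by
    intro m
    induction m with
    | zero =>
      intro _
      exact ⟨∅, Finset.empty_subset _, rfl, by simp [potential_empty]⟩
    | succ m ih =>
      intro hm
      obtain ⟨B, hB, hBc, hBp⟩ := ih (by omega)
      have hMpos : 0 < M := by omega
      have hMpos' : (0 : ℝ) < M := by exact_mod_cast hMpos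
      set pool' := pool \ B with hpool'
      have hc : pool'.card = pool.card - m := by
        rw [hpool', Finset.card_sdiff_of_subset hB, hBc]
      have hc2 : pool.card ≤ 2 * pool'.card := by omega
      have hne : pool'.Nonempty := by
        rw [← Finset.card_pos]
        omega
      have hdisj : Disjoint pool' B := Finset.sdiff_disjoint
      have hW' : ∀ i ∈ I, (pool'.filter (fun q => q ∣ z i)).card ≤ W := fun i hi =>
        (Finset.card_le_card (Finset.filter_subset_filter _ Finset.sdiff_subset)).trans (hW i hi)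
      obtain ⟨q, hq, hle⟩ := potential_step I z hw B pool' hdisj hne W hW'
      have hqB : q ∉ B := (Finset.mem_sdiff.mp hq).2
      refine ⟨insert q B, Finset.insert_subset (Finset.mem_sdiff.mp hq).1 hB, ?_, ?_⟩
      · rw [Finset.card_insert_of_notMem hqB, hBc]
      · have hp'pos : (0 : ℝ) < pool'.card := by exact_mod_cast hne.card_pos
        have hbound : w * W / pool'.card ≤ 1 / M := by
          rw [div_le_div_iff₀ hp'pos hMpos']
          have : (pool.card : ℝ) ≤ 2 * pool'.card := by exact_mod_cast hc2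
          nlinarith
        have hnn := potential_nonneg I z hw B
        calc potential I z w (insert q B)
            ≤ potential I z w B * (1 + w * W / pool'.card) := hle
          _ ≤ potential I z w B * (1 + 1 / (M : ℝ)) := by gcongr
          _ ≤ (I.card * (1 + 1 / (M : ℝ)) ^ m) * (1 + 1 / (M : ℝ)) := by gcongr
          _ = I.card * (1 + 1 / (M : ℝ)) ^ (m + 1) := by ring
  obtain ⟨B, hB, hBc, hBp⟩ := key M le_rfl
  refine ⟨B, hB, hBc, hBp.trans ?_⟩
  have := one_add_inv_pow_le_three M
  have hcard : (0 : ℝ) ≤ I.card := by positivity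
  nlinarith

lemma pow_card_mul_card_filter_le_potential (I : Finset ι) (z : ι → ℕ) {w : ℝ} (hw : 0 ≤ w)
    {B J : Finset ℕ} (hJ : J ⊆ B) :
    w ^ J.card * ((I.filter (fun i => ∀ q ∈ J, q ∣ z i)).card : ℝ) ≤ potential I z w B := by
  classical
  rw [potential, mul_comm, ← nsmul_eq_mul, ← Finset.sum_const]
  refine le_trans (Finset.sum_le_sum (f := fun _ => w ^ J.card)
    (g := fun i => ∏ q ∈ B, (1 + w * (if q ∣ z i then 1 else 0))) ?_) ?_
  · intro i hi
    have hdiv := (Finset.mem_filter.mp hi).2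
    rw [← Finset.prod_sdiff hJ]
    have h1 : ∏ q ∈ J, (1 + w * (if q ∣ z i then (1 : ℝ) else 0)) = ∏ q ∈ J, (1 + w) :=
      Finset.prod_congr rfl fun q hq => by rw [if_pos (hdiv q hq), mul_one]
    have h2 : (1 : ℝ) ≤ ∏ q ∈ B \ J, (1 + w * (if q ∣ z i then (1 : ℝ) else 0)) := by
      apply Finset.prod_induction _ (fun x : ℝ => 1 ≤ x) (fun a b ha hb => one_le_mul_of_one_le_of_one_le ha hb) le_rfl
      intro q _
      split_ifs <;> nlinarith
    have h3 : w ^ J.card ≤ ∏ q ∈ J, (1 + w) := by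
      rw [Finset.prod_const]
      gcongr
      linarith
    have h4 : 0 ≤ w ^ J.card := by positivity
    rw [h1]
    nlinarith
  · apply Finset.sum_le_sum_of_subset_of_nonneg (Finset.filter_subset _ _)
    intro i _ _
    apply Finset.prod_nonneg
    intro q _
    split_ifs <;> positivity

end select

/-- The absolute difference of natural numbers, as a natural number. -/
def ndist (a b : ℕ) : ℕ := (a - b) + (b - a)

lemma ndist_ne_zero {a b : ℕ} (h : a ≠ b) : ndist a b ≠ 0 := by
  unfold ndist; omega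

lemma ndist_le {a b c : ℕ} (ha : a < c) (hb : b < c) : ndist a b < c := by
  unfold ndist; omega

lemma dvd_ndist_of_natCast_eq {a b n : ℕ} (h : (a : ZMod n) = (b : ZMod n)) : n ∣ ndist a b := by
  have h1 := (ZMod.natCast_eq_natCast_iff a b n).mp h
  unfold ndist
  rcases le_total a b with hab | hab
  · have := (Nat.modEq_iff_dvd' hab).mp h1
    simpa [Nat.sub_eq_zero_of_le hab] using this
  · have := (Nat.modEq_iff_dvd' hab).mp h1.symm
    simpa [Nat.sub_eq_zero_of_le hab] using this

/-- Few primes above `Q` divide a nonzero number below `Q ^ (W + 1)`. -/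
lemma card_filter_dvd_le {pool : Finset ℕ} {Q W z : ℕ} (hQ : 2 ≤ Q)
    (hpool : ∀ q ∈ pool, q.Prime ∧ Q ≤ q) (hz0 : z ≠ 0) (hz : z < Q ^ (W + 1)) :
    (pool.filter (fun q => q ∣ z)).card ≤ W := by
  set S := pool.filter (fun q => q ∣ z) with hS
  by_contra hcon
  have hcard : W + 1 ≤ S.card := by omega
  have h1 : ∏ q ∈ S, q ∣ z := by
    apply Finset.prod_primes_dvd
    · intro a ha
      exact (hpool a (Finset.mem_filter.mp ha).1).1.prime
    · intro a ha
      exact (Finset.mem_filter.mp ha).2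
  have h2 : ∏ q ∈ S, q ≤ z := Nat.le_of_dvd (Nat.pos_of_ne_zero hz0) h1
  have h3 : Q ^ S.card ≤ ∏ q ∈ S, q := by
    rw [← Finset.prod_const]
    exact Finset.prod_le_prod' fun q hq => (hpool q (Finset.mem_filter.mp hq).1).2
  have h4 : Q ^ (W + 1) ≤ Q ^ S.card := Nat.pow_le_pow_right (by omega) hcard
  omega

lemma collisions_le (A : Finset ℕ) (J : Finset ℕ) :
    collisions A (∏ q ∈ J, q)
      ≤ A.card + (A.offDiag.filter (fun p => ∀ q ∈ J, q ∣ ndist p.1 p.2)).card := by
  classical
  unfold collisions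
  set F := (A ×ˢ A).filter (fun p => ((p.1 : ℕ) : ZMod (∏ q ∈ J, q)) = (p.2 : ZMod (∏ q ∈ J, q)))
  have hsplit : F ⊆ A.diag ∪ (A.offDiag.filter (fun p => ∀ q ∈ J, q ∣ ndist p.1 p.2)) := by
    intro p hp
    obtain ⟨hp1, hp2⟩ := Finset.mem_filter.mp hp
    by_cases hpd : p.1 = p.2
    · apply Finset.mem_union_left
      rw [Finset.mem_diag]
      exact ⟨(Finset.mem_product.mp hp1).1, hpd⟩
    · apply Finset.mem_union_right
      refine Finset.mem_filter.mpr ⟨?_, ?_⟩
      · rw [Finset.mem_offDiag]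
        exact ⟨(Finset.mem_product.mp hp1).1, (Finset.mem_product.mp hp1).2, hpd⟩
      · intro q hq
        exact (Finset.dvd_prod_of_mem _ hq).trans (dvd_ndist_of_natCast_eq hp2)
  refine (Finset.card_le_card hsplit).trans ((Finset.card_union_le _ _).trans ?_)
  simp

/-- The main selection lemma for collisions. -/
theorem exists_good_batch (A pool : Finset ℕ) {Q W M : ℕ} {w : ℝ} (hw : 0 ≤ w) (hQ : 2 ≤ Q)
    (hpool : ∀ q ∈ pool, q.Prime ∧ Q ≤ q) (hA : ∀ a ∈ A, a < Q ^ (W + 1))
    (hM : 2 * M ≤ pool.card) (hwM : 2 * w * W * M ≤ pool.card) :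
    ∃ B ⊆ pool, B.card = M ∧ ∀ J ⊆ B,
      w ^ J.card * (collisions A (∏ q ∈ J, q) : ℝ)
        ≤ w ^ J.card * (A.card : ℝ) + 3 * (A.card : ℝ) ^ 2 := by
  have hW : ∀ i ∈ A.offDiag, (pool.filter (fun q => q ∣ ndist i.1 i.2)).card ≤ W := by
    intro i hi
    obtain ⟨h1, h2, h3⟩ := Finset.mem_offDiag.mp hi
    exact card_filter_dvd_le hQ hpool (ndist_ne_zero h3) (ndist_le (hA _ h1) (hA _ h2))
  obtain ⟨B, hB, hBc, hBp⟩ := exists_batch A.offDiag (fun p => ndist p.1 p.2) hw pool W M hW hM hwM
  refine ⟨B, hB, hBc, ?_⟩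
  intro J hJ
  have h1 := pow_card_mul_card_filter_le_potential A.offDiag (fun p => ndist p.1 p.2) hw hJ
  have h2 := collisions_le A J
  have h3 : (A.offDiag.card : ℝ) ≤ (A.card : ℝ) ^ 2 := by
    have : A.offDiag.card ≤ A.card * A.card := by
      rw [Finset.offDiag_card]; omega
    have h4 : (A.offDiag.card : ℝ) ≤ ((A.card * A.card : ℕ) : ℝ) := by exact_mod_cast this
    push_cast at h4
    nlinarith
  have h4 : (collisions A (∏ q ∈ J, q) : ℝ)
      ≤ A.card + ((A.offDiag.filter (fun p => ∀ q ∈ J, q ∣ ndist p.1 p.2)).card : ℝ) := by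
    exact_mod_cast h2
  have h5 : 0 ≤ w ^ J.card := by positivity
  calc w ^ J.card * (collisions A (∏ q ∈ J, q) : ℝ)
      ≤ w ^ J.card * (A.card + ((A.offDiag.filter (fun p => ∀ q ∈ J, q ∣ ndist p.1 p.2)).card : ℝ)) := by
        gcongr
    _ = w ^ J.card * (A.card : ℝ) + w ^ J.card * ((A.offDiag.filter (fun p => ∀ q ∈ J, q ∣ ndist p.1 p.2)).card : ℝ) := by
        ring
    _ ≤ w ^ J.card * (A.card : ℝ) + 3 * (A.card : ℝ) ^ 2 := by
        have h6 := h1.trans hBp
        nlinarith

end Vale.Agent.Lib.P012
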